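import Crest.Agent.R345.CertCore

/-!
# From cell certificates to the absence of common zeros (row 345)
-/

set_option autoImplicit false

namespace Crest.Agent.R345.Cert

open Polynomial

/-- If `v_b = 0` for `b < s` and `v_s = 1`, a combination of the forms is `u_t` modulo
`u_a`, `a < t`. -/
def CellOK {A : Type*} [CommRing A] (N : ℕ → ℕ → ℕ → A) (s t : ℕ) : Prop :=
  ∀ v : ℕ → A, v s = 1 → (∀ b < s, v b = 0) → ∃ c : ℕ → A, ∀ a, t ≤ a → a < 10 →
    ∑ k ∈ Finset.range 20, c k * ∑ b ∈ Finset.range 10, N k a b * v b = if a = t then 1 else 0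

theorem CellOK.use {A : Type*} [Field A] {N : ℕ → ℕ → ℕ → A} {s t : ℕ} (h : CellOK N s t)
    (ht : t < 10) {u v : ℕ → A} (hu : ∀ a < t, u a = 0) (hv : ∀ b < s, v b = 0) (hs : v s ≠ 0)
    (hz : ∀ k < 20, ∑ a ∈ Finset.range 10, ∑ b ∈ Finset.range 10, N k a b * u a * v b = 0) :
    u t = 0 := by
  obtain ⟨c, hc⟩ := h (fun b => (v s)⁻¹ * v b) (inv_mul_cancel₀ hs)
    (fun b hb => by rw [hv b hb, mul_zero])
  have h1 : ∑ a ∈ Finset.range 10, u a * ∑ k ∈ Finset.range 20, c k *
      ∑ b ∈ Finset.range 10, N k a b * ((v s)⁻¹ * v b) = u t := by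
    rw [Finset.sum_eq_single t]
    · rw [hc t le_rfl ht, if_pos rfl, mul_one]
    · intro a ha hat
      rcases lt_or_ge a t with h2 | h2
      · rw [hu a h2, zero_mul]
      · rw [hc a h2 (Finset.mem_range.1 ha), if_neg hat, mul_zero]
    · intro h2
      exact absurd (Finset.mem_range.2 ht) h2
  have h2 : ∑ a ∈ Finset.range 10, u a * ∑ k ∈ Finset.range 20, c k *
      ∑ b ∈ Finset.range 10, N k a b * ((v s)⁻¹ * v b) =
      ∑ k ∈ Finset.range 20, c k * ((v s)⁻¹ *
        ∑ a ∈ Finset.range 10, ∑ b ∈ Finset.range 10, N k a b * u a * v b) := by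
    simp only [Finset.mul_sum]
    rw [Finset.sum_comm]
    refine Finset.sum_congr rfl fun k _ => Finset.sum_congr rfl fun a _ =>
      Finset.sum_congr rfl fun b _ => ?_
    ring
  rw [← h1, h2]
  refine Finset.sum_eq_zero fun k hk => ?_
  rw [hz k (Finset.mem_range.1 hk), mul_zero, mul_zero]

theorem noZero_of_cells {A : Type*} [Field A] {N : ℕ → ℕ → ℕ → A}
    (h : ∀ s < 10, ∀ t < 10, CellOK N s t ∨ CellOK (fun k a b => N k b a) t s)
    (u v : ℕ → A)
    (hz : ∀ k < 20, ∑ a ∈ Finset.range 10, ∑ b ∈ Finset.range 10, N k a b * u a * v b = 0) :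
    (∀ a < 10, u a = 0) ∨ (∀ b < 10, v b = 0) := by
  classical
  by_contra hcon
  push Not at hcon
  obtain ⟨⟨a, ha, hua⟩, b, hb, hvb⟩ := hcon
  have hea : ∃ a, u a ≠ 0 := ⟨a, hua⟩
  have heb : ∃ b, v b ≠ 0 := ⟨b, hvb⟩
  have ht : Nat.find hea < 10 := (Nat.find_min' hea hua).trans_lt ha
  have hs : Nat.find heb < 10 := (Nat.find_min' heb hvb).trans_lt hb
  have hut := Nat.find_spec hea
  have hvs := Nat.find_spec heb
  have hul : ∀ a < Nat.find hea, u a = 0 := fun a ha => by
    by_contra h; exact Nat.find_min hea ha h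
  have hvl : ∀ b < Nat.find heb, v b = 0 := fun b hb => by
    by_contra h; exact Nat.find_min heb hb h
  rcases h _ hs _ ht with h1 | h1
  · exact hut (h1.use ht hul hvl hvs hz)
  · refine hvs (h1.use hs hvl hul hut fun k hk => ?_)
    rw [← hz k hk, Finset.sum_comm]
    refine Finset.sum_congr rfl fun a _ => Finset.sum_congr rfl fun b _ => by ring

section packed

variable {A : Type*} [CommRing A]

theorem lform_coeff {w : ℕ} (hw : 0 < w) (M : ℕ → ℕ) (v : ℕ → A) (z n : ℕ) : ∀ (m s : ℕ),
    (lform w z ((List.range' s m).map M) ((List.range' s m).map v)).coeff n =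
      (slot w z n : A) + ∑ j ∈ Finset.range m, v (s + j) * (slot w (M (s + j)) n : A) := by
  intro m
  induction m with
  | zero => intro s; simp [lform, lp_coeff hw]
  | succ m ih =>
    intro s
    rw [List.range'_succ, List.map_cons, List.map_cons, lform, coeff_add, coeff_C_mul,
      lp_coeff hw, ih (s + 1), Finset.sum_range_succ']
    have : ∀ j, s + 1 + j = s + (j + 1) := fun j => by omega
    simp only [this, Nat.add_zero]
    ring

theorem cellOK_of_lform {w : ℕ} (hw : 0 < w) (M : ℕ → ℕ) {s t : ℕ} (hs : s < 10) (ht : t < 10)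
    (h : ∀ xs : List A, xs.length = 9 - s → ∃ c : ℕ → A, ∀ j < 9 - t + 1,
      ∑ k ∈ Finset.range 20, c k * (lform w (M s) ((List.range' (s + 1) (9 - s)).map M) xs).coeff
        (40 * t + 19 + j * 40 - k) = if j = 0 then 1 else 0) :
    CellOK (fun k a b => (slot w (M b) (40 * a + 19 - k) : A)) s t := by
  intro v hv1 hv0
  obtain ⟨c, hc⟩ := h ((List.range' (s + 1) (9 - s)).map v) (by simp)
  refine ⟨c, fun a hta ha => ?_⟩
  have h1 := hc (a - t) (by omega)
  have h2 : (if a - t = 0 then (1 : A) else 0) = if a = t then 1 else 0 := by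
    by_cases h3 : a = t
    · subst h3; simp
    · rw [if_neg h3, if_neg (by omega)]
  rw [h2] at h1
  rw [← h1]
  refine Finset.sum_congr rfl fun k hk => ?_
  congr 1
  rw [lform_coeff hw]
  have h4 : 40 * t + 19 + (a - t) * 40 - k = 40 * a + 19 - k := by omega
  rw [h4]
  have h5 : Finset.range 10 = Finset.range (s + (1 + (9 - s))) := by
    congr 1; omega
  rw [h5, Finset.sum_range_add, Finset.sum_range_add, Finset.sum_range_one,
    Finset.sum_eq_zero fun b hb => by rw [hv0 b (Finset.mem_range.1 hb), mul_zero], zero_add,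
    Nat.add_zero, hv1, mul_one]
  congr 1
  refine Finset.sum_congr rfl fun j _ => ?_
  rw [Nat.add_assoc, mul_comm]

/-- the cell from a kernel check -/
theorem cellOK_of_check {p w q mask D : ℕ} {M : ℕ → ℕ} (hM : ∀ b, GM w q (M b))
    (hw : 0 < w) (hp : (p : A) = 0) (hm : GC w q 20 mask) {s t : ℕ} (hs : s < 10) (ht : t < 10)
    {T : Tr} (hgood : good mask T D = true) (hb : (D + (9 - s) + 1) * (20 * (q * q)) < 2 ^ w)
    (hchk : chk1 p (2 ^ w) (w * 40) (9 - t) (w * (40 * t + 19))
      (mulT (M s) T ((List.range' (s + 1) (9 - s)).map M)) = true) :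
    CellOK (fun k a b => (slot w (M b) (40 * a + 19 - k) : A)) s t := by
  refine cellOK_of_lform hw M hs ht fun xs hxs => ?_
  refine cell_sound hw hp hm (hM s) ?_ hgood (by simpa using hb) (by omega) hchk xs (by simpa using hxs)
  intro x hx
  obtain ⟨b, -, rfl⟩ := List.mem_map.1 hx
  exact hM b

end packed

/-! ### the final statement -/

def allLt (n : ℕ) (f : ℕ → Bool) : Bool :=
  Nat.rec (motive := fun _ => Bool) true
    (fun i ih => Bool.rec (motive := fun _ => Bool) false ih (f i)) n

theorem allLt_iff (n : ℕ) (f : ℕ → Bool) : allLt n f = true ↔ ∀ i < n, f i = true := by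
  induction n with
  | zero => simp [allLt]
  | succ n ih =>
    have h : allLt (n + 1) f = (f n && allLt n f) := by
      show Bool.rec (motive := fun _ => Bool) false (allLt n f) (f n) = _
      cases f n <;> rfl
    rw [h, Bool.and_eq_true, ih]
    constructor
    · rintro ⟨h1, h2⟩ i hi
      rcases Nat.lt_succ_iff_lt_or_eq.1 hi with h3 | h3
      · exact h2 i h3
      · rw [h3]; exact h1
    · intro h1
      exact ⟨h1 n (Nat.lt_succ_self n), fun i hi => h1 i (Nat.lt_succ_of_lt hi)⟩

/-- entry of the table of forms: `N t j i` -/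
def ent (NT : List (List (List ℕ))) (k a b : ℕ) : ℕ := ((NT.getD k []).getD b []).getD a 0

/-- the packed columns agree with the table -/
def chkTab (w : ℕ) (NT : List (List (List ℕ))) (M : ℕ → ℕ) : Bool :=
  allLt 20 fun k => allLt 10 fun b => allLt 10 fun a =>
    Nat.beq (slot w (M b) (Nat.sub (Nat.add (Nat.mul 40 a) 19) k)) (ent NT k a b)

/-- the packed rows agree with the table -/
def chkTab' (w : ℕ) (NT : List (List (List ℕ))) (M : ℕ → ℕ) : Bool :=
  allLt 20 fun k => allLt 10 fun b => allLt 10 fun a =>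
    Nat.beq (slot w (M a) (Nat.sub (Nat.add (Nat.mul 40 b) 19) k)) (ent NT k a b)

theorem chkTab_sound {w : ℕ} {NT : List (List (List ℕ))} {M : ℕ → ℕ} (h : chkTab w NT M = true)
    {k a b : ℕ} (hk : k < 20) (ha : a < 10) (hb : b < 10) :
    slot w (M b) (40 * a + 19 - k) = ent NT k a b := by
  have h1 := (allLt_iff _ _).1 ((allLt_iff _ _).1 ((allLt_iff _ _).1 h k hk) b hb) a ha
  exact Nat.eq_of_beq_eq_true h1

theorem chkTab'_sound {w : ℕ} {NT : List (List (List ℕ))} {M : ℕ → ℕ}
    (h : chkTab' w NT M = true) {k a b : ℕ} (hk : k < 20) (ha : a < 10) (hb : b < 10) :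
    slot w (M a) (40 * b + 19 - k) = ent NT k a b := by
  have h1 := (allLt_iff _ _).1 ((allLt_iff _ _).1 ((allLt_iff _ _).1 h k hk) b hb) a ha
  exact Nat.eq_of_beq_eq_true h1

theorem noZero_final {A : Type*} [Field A] {w : ℕ} {NT : List (List (List ℕ))} {M M' : ℕ → ℕ}
    (hM : chkTab w NT M = true) (hM' : chkTab' w NT M' = true)
    (h : ∀ s < 10, ∀ t < 10,
      CellOK (fun k a b => (slot w (M b) (40 * a + 19 - k) : A)) s t ∨
      CellOK (fun k a b => (slot w (M' b) (40 * a + 19 - k) : A)) t s)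
    (u v : Fin 10 → A)
    (hz : ∀ t : Fin 20, ∑ i : Fin 10, ∑ j : Fin 10,
      ((ent NT (t : ℕ) (i : ℕ) (j : ℕ) : ℕ) : A) * u i * v j = 0) :
    u = 0 ∨ v = 0 := by
  have key := noZero_of_cells (N := fun k a b => ((ent NT k a b : ℕ) : A)) ?_
    (fun a => if h : a < 10 then u ⟨a, h⟩ else 0) (fun b => if h : b < 10 then v ⟨b, h⟩ else 0) ?_
  · rcases key with h1 | h1
    · left; funext a
      have := h1 a a.2
      simpa using this
    · right; funext b
      have := h1 b b.2
      simpa using this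
  · intro s hs t ht
    rcases h s hs t ht with h1 | h1
    · left
      intro v hv1 hv0
      obtain ⟨c, hc⟩ := h1 v hv1 hv0
      refine ⟨c, fun a hta ha => ?_⟩
      rw [← hc a hta ha]
      refine Finset.sum_congr rfl fun k hk => ?_
      congr 1
      refine Finset.sum_congr rfl fun b hb => ?_
      show ((ent NT k a b : ℕ) : A) * v b = ((slot w (M b) (40 * a + 19 - k) : ℕ) : A) * v b
      rw [chkTab_sound hM (Finset.mem_range.1 hk) ha (Finset.mem_range.1 hb)]
    · right
      intro v hv1 hv0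
      obtain ⟨c, hc⟩ := h1 v hv1 hv0
      refine ⟨c, fun a hta ha => ?_⟩
      rw [← hc a hta ha]
      refine Finset.sum_congr rfl fun k hk => ?_
      congr 1
      refine Finset.sum_congr rfl fun b hb => ?_
      show ((ent NT k b a : ℕ) : A) * v b = ((slot w (M' b) (40 * a + 19 - k) : ℕ) : A) * v b
      rw [chkTab'_sound hM' (Finset.mem_range.1 hk) (Finset.mem_range.1 hb) ha]
  · intro k hk
    rw [← hz ⟨k, hk⟩, Finset.sum_range]
    refine Finset.sum_congr rfl fun i _ => ?_
    rw [Finset.sum_range]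
    refine Finset.sum_congr rfl fun j _ => ?_
    simp

/-! ### convenience forms for generated files -/

/-- all packed columns have slots at most `q` -/
def chkGM (w q : ℕ) (L : List ℕ) : Bool :=
  List.rec (motive := fun _ => Bool) true
    (fun x _ ih => Bool.rec (motive := fun _ => Bool) false ih (slotsLe w q 400 x)) L

theorem chkGM_sound {w q : ℕ} : ∀ {L : List ℕ}, chkGM w q L = true →
    ∀ b, GM w q (L.getD b 0) := by
  intro L
  induction L with
  | nil => intro _ b i; rw [List.getD_nil, slot_zero]; exact Nat.zero_le _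
  | cons x L ih =>
    intro h
    have h1 : chkGM w q (x :: L) = (slotsLe w q 400 x && chkGM w q L) := by
      show Bool.rec (motive := fun _ => Bool) false (chkGM w q L) (slotsLe w q 400 x) = _
      cases slotsLe w q 400 x <;> rfl
    rw [h1, Bool.and_eq_true] at h
    intro b
    cases b with
    | zero => exact (slotsLe_sound 400 x h.1).1
    | succ b => exact ih h.2 b

theorem cellOK_of_check' {A : Type*} [CommRing A] {p w q mask D : ℕ} {M : ℕ → ℕ} {s t : ℕ}
    {W S I n z : ℕ} {T : Tr} {Ms : List ℕ}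
    (hM : ∀ b, GM w q (M b)) (hw : 0 < w) (hp : (p : A) = 0) (hm : GC w q 20 mask)
    (hs : s < 10) (ht : t < 10) (hgood : good mask T D = true)
    (hb : (D + (9 - s) + 1) * (20 * (q * q)) < 2 ^ w)
    (hW : W = 2 ^ w) (hS : S = w * 40) (hI : I = w * (40 * t + 19)) (hn : n = 9 - t)
    (hz : M s = z) (hMs : (List.range' (s + 1) (9 - s)).map M = Ms)
    (hchk : chk1 p W S n I (mulT z T Ms) = true) :
    CellOK (fun k a b => (slot w (M b) (40 * a + 19 - k) : A)) s t := by
  subst hW hS hI hn hz hMs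
  exact cellOK_of_check hM hw hp hm hs ht hgood hb hchk

/-- kernel evaluation of a Boolean equation `b = true` -/
elab "krefl" : tactic => do
  let g ← Lean.Elab.Tactic.getMainGoal
  g.assign (Lean.mkApp2 (Lean.mkConst ``Eq.refl [Lean.Level.one]) (Lean.mkConst ``Bool)
    (Lean.mkConst ``Bool.true))

end Crest.Agent.R345.Cert
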