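import Crest.Agent.R345.Gram

/-!
# Kernel-evaluable checks for Gram pairs (row 345)

Data are nested lists over a computable ring `R` with an evaluation map to `ℂ`.
-/

set_option autoImplicit false
set_option linter.unusedSectionVars false

namespace Crest.Agent.R345

/-- Computable ring operations. -/
structure Ops (R : Type) where
  zero : R
  add : R → R → R
  mul : R → R → R
  conj : R → R
  eqb : R → R → Bool

/-- Soundness of the operations with respect to an evaluation map. -/
structure Ops.Sound {R : Type} (o : Ops R) (ev : R → ℂ) : Prop where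
  zero : ev o.zero = 0
  add : ∀ x y, ev (o.add x y) = ev x + ev y
  mul : ∀ x y, ev (o.mul x y) = ev x * ev y
  conj : ∀ x, ev (o.conj x) = star (ev x)
  eqb : ∀ x y, o.eqb x y = true → ev x = ev y

section

variable {R : Type} (o : Ops R)

/-- Entry of a list. -/
def g1 (l : List R) (i : ℕ) : R := l.getD i o.zero

/-- Entry of a list of lists. -/
def g2 (l : List (List R)) (i j : ℕ) : R := (l.getD i []).getD j o.zero

/-- Entry of a list of lists of lists. -/
def g3 (l : List (List (List R))) (i j k : ℕ) : R := ((l.getD i []).getD j []).getD k o.zero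

/-- Dot product. -/
def dot : List R → List R → R
  | x :: xs, y :: ys => o.add (o.mul x y) (dot xs ys)
  | _, _ => o.zero

/-- Sum of dot products of rows. -/
def dot2 : List (List R) → List (List R) → R
  | x :: xs, y :: ys => o.add (dot o x y) (dot2 xs ys)
  | _, _ => o.zero

/-- Sum of a scaled vector and a vector. -/
def axpy (a : R) : List R → List R → List R
  | x :: xs, y :: ys => o.add (o.mul a x) y :: axpy a xs ys
  | x :: xs, [] => o.mul a x :: axpy a xs []
  | [], ys => ys

/-- Linear combination of rows. -/
def lincomb : List R → List (List R) → List R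
  | a :: as, r :: rs => axpy o a r (lincomb as rs)
  | _, _ => []

end

section Sound

variable {R : Type} {o : Ops R} {ev : R → ℂ} (S : o.Sound ev)

include S

theorem ev_g1_nil (i : ℕ) : ev (g1 o [] i) = 0 := by simp [g1, S.zero]

theorem dot_sound (xs ys : List R) (n : ℕ) (hn : xs.length ≤ n ∨ ys.length ≤ n) :
    ev (dot o xs ys) = ∑ i ∈ Finset.range n, ev (g1 o xs i) * ev (g1 o ys i) := by
  induction xs generalizing ys n with
  | nil =>
    rw [dot, S.zero]
    symm
    refine Finset.sum_eq_zero fun i _ => ?_
    rw [ev_g1_nil S, zero_mul]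
    all_goals simp
  | cons x xs ih =>
    cases ys with
    | nil =>
      rw [dot, S.zero]
      symm
      refine Finset.sum_eq_zero fun i _ => ?_
      rw [ev_g1_nil S, mul_zero]
      all_goals simp
    | cons y ys =>
      cases n with
      | zero => simp at hn
      | succ n =>
        rw [dot, S.add, S.mul, Finset.sum_range_succ', ih ys n (by simpa using hn), add_comm]
        rfl

theorem dot2_sound (xs ys : List (List R)) (n m : ℕ) (hn : xs.length ≤ n)
    (hm : ∀ x ∈ xs, x.length ≤ m) :
    ev (dot2 o xs ys) = ∑ i ∈ Finset.range n, ∑ j ∈ Finset.range m,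
      ev (g2 o xs i j) * ev (g2 o ys i j) := by
  induction xs generalizing ys n with
  | nil =>
    rw [dot2, S.zero]
    · symm
      refine Finset.sum_eq_zero fun i _ => Finset.sum_eq_zero fun j _ => ?_
      simp [g2, S.zero]
    all_goals simp
  | cons x xs ih =>
    cases ys with
    | nil =>
      rw [dot2, S.zero]
      · symm
        refine Finset.sum_eq_zero fun i _ => Finset.sum_eq_zero fun j _ => ?_
        simp [g2, S.zero]
      all_goals simp
    | cons y ys =>
      cases n with
      | zero => simp at hn
      | succ n =>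
        rw [dot2, S.add, Finset.sum_range_succ', ih ys n (by simpa using hn)
          (fun x hx => hm x (List.mem_cons_of_mem _ hx)),
          dot_sound S x y m (Or.inl (hm x (List.mem_cons_self ..))), add_comm]
        rfl

theorem axpy_sound (a : R) (xs ys : List R) (j : ℕ) :
    ev (g1 o (axpy o a xs ys) j) = ev a * ev (g1 o xs j) + ev (g1 o ys j) := by
  induction xs generalizing ys j with
  | nil => simp [axpy, g1, S.zero]
  | cons x xs ih =>
    cases ys with
    | nil =>
      cases j with
      | zero => simp [axpy, g1, S.mul, S.zero]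
      | succ j => exact ih [] j
    | cons y ys =>
      cases j with
      | zero => simp [axpy, g1, S.mul, S.add]
      | succ j => exact ih ys j

theorem lincomb_sound (as : List R) (rs : List (List R)) (n j : ℕ)
    (hn : as.length ≤ n) :
    ev (g1 o (lincomb o as rs) j) = ∑ i ∈ Finset.range n, ev (g1 o as i) * ev (g2 o rs i j) := by
  induction as generalizing rs n with
  | nil =>
    rw [lincomb]
    · rw [ev_g1_nil S]
      symm
      refine Finset.sum_eq_zero fun i _ => ?_
      rw [ev_g1_nil S, zero_mul]
    all_goals simp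
  | cons a as ih =>
    cases rs with
    | nil =>
      rw [lincomb]
      · rw [ev_g1_nil S]
        symm
        refine Finset.sum_eq_zero fun i _ => ?_
        simp [g2, S.zero]
      all_goals simp
    | cons r rs =>
      cases n with
      | zero => simp at hn
      | succ n =>
        rw [lincomb, axpy_sound S, ih rs n (by simpa using hn), Finset.sum_range_succ', add_comm]
        rfl

end Sound

/-! ## The complete check -/

section Check

variable {R : Type} (o : Ops R)

/-- `∀ i < n, f i` as a Boolean, by recursion on `n`. -/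
def allLt (n : ℕ) (f : ℕ → Bool) : Bool :=
  Nat.rec true (fun k ih => f k && ih) n

theorem allLt_iff (n : ℕ) (f : ℕ → Bool) : allLt n f = true ↔ ∀ i < n, f i = true := by
  induction n with
  | zero => simp [allLt]
  | succ n ih =>
    have : allLt (n + 1) f = (f n && allLt n f) := rfl
    rw [this, Bool.and_eq_true, ih]
    constructor
    · rintro ⟨h1, h2⟩ i hi
      rcases Nat.lt_succ_iff_lt_or_eq.1 hi with h | rfl
      · exact h2 i h
      · exact h1
    · intro h
      exact ⟨h n (Nat.lt_succ_self n), fun i hi => h i (Nat.lt_succ_of_lt hi)⟩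

/-- Row `(i, j)` of a three-level list. -/
def r3 (l : List (List (List R))) (i j : ℕ) : List R := (l.getD i []).getD j []

/-- Weighted Hermitian product `∑ d a conj b`. -/
def dotw : List R → List R → List R → R
  | d :: ds, x :: xs, y :: ys => o.add (o.mul d (o.mul x (o.conj y))) (dotw ds xs ys)
  | _, _, _ => o.zero

/-- Symmetry check: `VT i x` is the list over `k` of `V k i x`. -/
def checkT (n m : ℕ) (d : List R) (VT : List (List (List R))) : Bool :=
  allLt n fun i => allLt i fun j => allLt m fun x => allLt m fun y =>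
    o.eqb (dotw o d (r3 VT i x) (r3 VT j y)) (dotw o d (r3 VT j x) (r3 VT i y))

/-- Layout check: `VT i x k = V k i x`. -/
def checkL (r n m : ℕ) (V VT : List (List (List R))) : Bool :=
  allLt r fun k => allLt n fun i => allLt m fun x => o.eqb (g3 o V k i x) (g3 o VT i x k)

/-- Kernel check. -/
def checkN (nt r₁ r₂ : ℕ) (NT V Wt : List (List (List R))) : Bool :=
  allLt nt fun t => allLt r₁ fun k =>
    (fun X => allLt r₂ fun l => o.eqb (dot2 o X (Wt.getD l [])) o.zero)
      ((NT.getD t []).map fun row => lincomb o row (V.getD k []))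

/-- Shape check for a three-level list: all lengths at most the given bounds. -/
def checkLen (b c : ℕ) (V : List (List (List R))) : Bool :=
  V.all fun M => Nat.ble M.length b && M.all fun r => Nat.ble r.length c

end Check

section CheckSound

variable {R : Type} {o : Ops R} {ev : R → ℂ} (S : o.Sound ev)

include S

theorem dotw_sound (ds xs ys : List R) (n : ℕ) (hn : ds.length ≤ n) :
    ev (dotw o ds xs ys) = ∑ k ∈ Finset.range n,
      ev (g1 o ds k) * ev (g1 o xs k) * star (ev (g1 o ys k)) := by
  induction ds generalizing xs ys n with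
  | nil =>
    rw [dotw, S.zero]
    · symm
      refine Finset.sum_eq_zero fun i _ => ?_
      rw [ev_g1_nil S, zero_mul, zero_mul]
    all_goals simp
  | cons d ds ih =>
    cases xs with
    | nil =>
      rw [dotw, S.zero]
      · symm
        refine Finset.sum_eq_zero fun i _ => ?_
        rw [ev_g1_nil S, mul_zero, zero_mul]
      all_goals simp
    | cons x xs =>
      cases ys with
      | nil =>
        rw [dotw, S.zero]
        · symm
          refine Finset.sum_eq_zero fun i _ => ?_
          rw [ev_g1_nil S, star_zero, mul_zero]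
        all_goals simp
      | cons y ys =>
        cases n with
        | zero => simp at hn
        | succ n =>
          rw [dotw, S.add, S.mul, S.mul, S.conj, Finset.sum_range_succ',
            ih xs ys n (by simpa using hn), add_comm, mul_assoc]
          rfl

theorem g1_of_length_le (xs : List R) (i : ℕ) (h : xs.length ≤ i) : ev (g1 o xs i) = 0 := by
  simp [g1, List.getElem?_eq_none h, S.zero]

theorem checkT_sound (n m r : ℕ) (d : List R) (VT : List (List (List R)))
    (hr : d.length ≤ r) (h : checkT o n m d VT = true)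
    (i j x y : ℕ) (hi : i < n) (hj : j < n) (hx : x < m) (hy : y < m) :
    ∑ k ∈ Finset.range r, ev (g1 o d k) * ev (g3 o VT i x k) * star (ev (g3 o VT j y k)) =
    ∑ k ∈ Finset.range r, ev (g1 o d k) * ev (g3 o VT j x k) * star (ev (g3 o VT i y k)) := by
  have key : ∀ i j, i < n → j < i →
      ∀ x y, x < m → y < m →
      ∑ k ∈ Finset.range r, ev (g1 o d k) * ev (g3 o VT i x k) * star (ev (g3 o VT j y k)) =
      ∑ k ∈ Finset.range r, ev (g1 o d k) * ev (g3 o VT j x k) * star (ev (g3 o VT i y k)) := by
    intro i j hi hj x y hx hy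
    rw [checkT, allLt_iff] at h
    have h1 := (allLt_iff _ _).1 (h i hi) j hj
    have h2 := (allLt_iff _ _).1 ((allLt_iff _ _).1 h1 x hx) y hy
    have h3 := S.eqb _ _ h2
    rw [dotw_sound S _ _ _ r hr, dotw_sound S _ _ _ r hr] at h3
    exact h3
  rcases lt_trichotomy i j with h1 | h1 | h1
  · exact (key j i hj h1 x y hx hy).symm
  · subst h1; rfl
  · exact key i j hi h1 x y hx hy

theorem checkL_sound (r n m : ℕ) (V VT : List (List (List R))) (h : checkL o r n m V VT = true)
    (k i x : ℕ) (hk : k < r) (hi : i < n) (hx : x < m) :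
    ev (g3 o V k i x) = ev (g3 o VT i x k) :=
  S.eqb _ _ ((allLt_iff _ _).1 ((allLt_iff _ _).1 ((allLt_iff _ _).1 h k hk) i hi) x hx)

theorem checkN_sound (nt r₁ r₂ na nb nc : ℕ) (NT V Wt : List (List (List R)))
    (h : checkN o nt r₁ r₂ NT V Wt = true)
    (hN : checkLen nc na NT = true) (hW : checkLen nc nb Wt = true)
    (t k l : ℕ) (ht : t < nt) (hk : k < r₁) (hl : l < r₂) :
    ∑ i ∈ Finset.range na, ∑ j ∈ Finset.range nc, ev (g3 o NT t j i) *
      ∑ x ∈ Finset.range nb, ev (g3 o V k i x) * ev (g3 o Wt l j x) = 0 := by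
  have h1 := (allLt_iff _ _).1 ((allLt_iff _ _).1 h t ht) k hk
  have h2 := S.eqb _ _ ((allLt_iff _ _).1 h1 l hl)
  rw [S.zero] at h2
  have hNlen : ∀ t, (NT.getD t []).length ≤ nc ∧ ∀ row ∈ NT.getD t [], row.length ≤ na := by
    intro t
    rcases lt_or_ge t NT.length with ht | ht
    · rw [List.getD_eq_getElem _ _ ht]
      have := List.all_eq_true.1 hN _ (List.getElem_mem ht)
      rw [Bool.and_eq_true, List.all_eq_true] at this
      exact ⟨Nat.le_of_ble_eq_true this.1, fun row hrow => Nat.le_of_ble_eq_true (this.2 row hrow)⟩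
    · rw [List.getD_eq_default _ _ ht]
      simp
  have hWlen : (Wt.getD l []).length ≤ nc ∧ ∀ row ∈ Wt.getD l [], row.length ≤ nb := by
    rcases lt_or_ge l Wt.length with ht | ht
    · rw [List.getD_eq_getElem _ _ ht]
      have := List.all_eq_true.1 hW _ (List.getElem_mem ht)
      rw [Bool.and_eq_true, List.all_eq_true] at this
      exact ⟨Nat.le_of_ble_eq_true this.1, fun row hrow => Nat.le_of_ble_eq_true (this.2 row hrow)⟩
    · rw [List.getD_eq_default _ _ ht]
      simp
  have hsymm : ∀ xs ys : List (List R), ys.length ≤ nc → (∀ y ∈ ys, y.length ≤ nb) →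
      ev (dot2 o xs ys) = ∑ j ∈ Finset.range nc, ∑ x ∈ Finset.range nb,
        ev (g2 o xs j x) * ev (g2 o ys j x) := by
    intro xs ys
    generalize nc = n
    induction xs generalizing ys n with
    | nil =>
      intro _ _
      rw [dot2, S.zero]
      · symm
        refine Finset.sum_eq_zero fun i _ => Finset.sum_eq_zero fun j _ => ?_
        simp [g2, S.zero]
      all_goals simp
    | cons x xs ih =>
      intro hy1 hy2
      cases ys with
      | nil =>
        rw [dot2, S.zero]
        · symm
          refine Finset.sum_eq_zero fun i _ => Finset.sum_eq_zero fun j _ => ?_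
          simp [g2, S.zero]
        all_goals simp
      | cons y ys =>
        cases n with
        | zero => simp at hy1
        | succ n =>
          rw [dot2, S.add, Finset.sum_range_succ', ih ys n (by simpa using hy1)
            (fun z hz => hy2 z (List.mem_cons_of_mem _ hz)),
            dot_sound S x y nb (Or.inr (hy2 y (List.mem_cons_self ..))), add_comm]
          rfl
  rw [hsymm _ _ hWlen.1 hWlen.2] at h2
  have hX : ∀ j x, ev (g2 o ((NT.getD t []).map fun row => lincomb o row (V.getD k [])) j x) =
      ∑ i ∈ Finset.range na, ev (g3 o NT t j i) * ev (g3 o V k i x) := by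
    intro j x
    rcases lt_or_ge j (NT.getD t []).length with hj | hj
    · have e1 : g2 o ((NT.getD t []).map fun row => lincomb o row (V.getD k [])) j x =
          g1 o (lincomb o ((NT.getD t []).getD j []) (V.getD k [])) x := by
        have hj' : j < ((NT.getD t []).map fun row => lincomb o row (V.getD k [])).length := by
          rw [List.length_map]; exact hj
        unfold g2 g1
        rw [List.getD_eq_getElem (List.map _ _) _ hj', List.getElem_map,
          List.getD_eq_getElem (NT.getD t []) _ hj]
      rw [e1, lincomb_sound S _ _ na x]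
      · rfl
      · rw [List.getD_eq_getElem _ _ hj]
        exact (hNlen t).2 _ (List.getElem_mem hj)
    · have e1 : g2 o ((NT.getD t []).map fun row => lincomb o row (V.getD k [])) j x = o.zero := by
        have hj' : ((NT.getD t []).map fun row => lincomb o row (V.getD k [])).length ≤ j := by
          rw [List.length_map]; exact hj
        unfold g2
        rw [List.getD_eq_default (List.map _ _) _ hj', List.getD_nil]
      rw [e1, S.zero]
      symm
      refine Finset.sum_eq_zero fun i _ => ?_
      have : g3 o NT t j i = o.zero := by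
        unfold g3
        rw [List.getD_eq_default (NT.getD t []) _ hj]
        rfl
      rw [this, S.zero, zero_mul]
  have e2 : ∀ j x, ev (g2 o ((NT.getD t []).map fun row => lincomb o row (V.getD k [])) j x) *
      ev (g2 o (Wt.getD l []) j x) =
      ∑ i ∈ Finset.range na, ev (g3 o NT t j i) * ev (g3 o V k i x) * ev (g3 o Wt l j x) := by
    intro j x
    rw [hX, Finset.sum_mul]
    rfl
  simp_rw [e2] at h2
  rw [← h2]
  rw [Finset.sum_comm]
  refine Finset.sum_congr rfl fun j _ => ?_
  rw [Finset.sum_comm]
  refine Finset.sum_congr rfl fun i _ => ?_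
  rw [Finset.mul_sum]
  exact Finset.sum_congr rfl fun x _ => by ring

/-- **Both statements from list data.**
* `V k i x` (`k < r₁`, `i < na`, `x < nb`), `VT i x k` the same tensor in the other layout;
* `Wt l j x` (`l < r₂`, `j < nc`, `x < nb`), `WT j x l` the same tensor in the other layout;
* weights `d₁`, `d₂`;
* functionals `NT t j i`. -/
theorem concl541_of_data (na nb nc r₁ r₂ nt : ℕ) (hna : na ≤ 10) (hnb : nb ≤ 10) (hnc : nc ≤ 10)
    (d₁ d₂ : List R) (V VT Wt WT NT : List (List (List R)))
    (hd₁ : ∀ k < r₁, ∃ r : ℝ, 0 < r ∧ ev (g1 o d₁ k) = r)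
    (hd₂ : ∀ k < r₂, ∃ r : ℝ, 0 < r ∧ ev (g1 o d₂ k) = r)
    (hl₁ : d₁.length ≤ r₁) (hl₂ : d₂.length ≤ r₂)
    (hL₁ : checkL o r₁ na nb V VT = true) (hL₂ : checkL o r₂ nc nb Wt WT = true)
    (hT₁ : checkT o na nb d₁ VT = true) (hT₂ : checkT o nc nb d₂ WT = true)
    (hN : checkN o nt r₁ r₂ NT V Wt = true)
    (hNl : checkLen nc na NT = true) (hWl : checkLen nc nb Wt = true)
    (hfree : ∀ (u : Fin na → ℂ) (v : Fin nc → ℂ),
      (∀ t : Fin nt, ∑ i : Fin na, ∑ j : Fin nc, ev (g3 o NT t j i) * u i * v j = 0) →
        u = 0 ∨ v = 0)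
    (hne : ∃ k < r₁, ∃ l < r₂, ∃ i < na, ∃ j < nc,
      ∑ x : Fin nb, ev (g3 o V k i x) * ev (g3 o Wt l j x) ≠ 0) :
    Concl541 := by
  classical
  choose! D₁ hD₁ using hd₁
  choose! D₂ hD₂ using hd₂
  refine concl541_of_gram (a := Fin na) (b := Fin nb) (c := Fin nc) (κ₁ := Fin r₁) (κ₂ := Fin r₂)
    (by simpa using hna) (by simpa using hnb) (by simpa using hnc)
    (fun k => D₁ k) (fun k => (hD₁ k k.2).1.le) (fun k i x => ev (g3 o V k i x))
    (fun k => D₂ k) (fun k => (hD₂ k k.2).1.le) (fun k x j => ev (g3 o Wt k j x))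
    ?_ ?_ (ι := Fin nt) (fun t i j => ev (g3 o NT t j i)) ?_ hfree ?_
  · intro i j x y
    have h := checkT_sound S na nb r₁ d₁ VT hl₁ hT₁ i j x y i.2 j.2 x.2 y.2
    rw [Finset.sum_range, Finset.sum_range] at h
    have e : ∀ (k : Fin r₁) (i : Fin na) (x : Fin nb), ev (g3 o V k i x) = ev (g3 o VT i x k) :=
      fun k i x => checkL_sound S r₁ na nb V VT hL₁ k i x k.2 i.2 x.2
    have e2 : ∀ k : Fin r₁, ((D₁ k : ℝ) : ℂ) = ev (g1 o d₁ k) := fun k => (hD₁ k k.2).2.symm
    simp only [e, e2]
    exact h
  · intro x y i j
    have h := checkT_sound S nc nb r₂ d₂ WT hl₂ hT₂ i j x y i.2 j.2 x.2 y.2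
    rw [Finset.sum_range, Finset.sum_range] at h
    have e : ∀ (k : Fin r₂) (i : Fin nc) (x : Fin nb), ev (g3 o Wt k i x) = ev (g3 o WT i x k) :=
      fun k i x => checkL_sound S r₂ nc nb Wt WT hL₂ k i x k.2 i.2 x.2
    have e2 : ∀ k : Fin r₂, ((D₂ k : ℝ) : ℂ) = ev (g1 o d₂ k) := fun k => (hD₂ k k.2).2.symm
    simp only [e, e2]
    exact h
  · intro t k l
    have h := checkN_sound S nt r₁ r₂ na nb nc NT V Wt hN hNl hWl t k l t.2 k.2 l.2
    simp only [Finset.sum_range] at h
    exact h
  · obtain ⟨k, hk, l, hl, i, hi, j, hj, hs⟩ := hne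
    exact ⟨⟨k, hk⟩, ⟨l, hl⟩, (hD₁ k hk).1, (hD₂ l hl).1, ⟨i, hi⟩, ⟨j, hj⟩, hs⟩

end CheckSound

/-! ## Gaussian integers -/

/-- Computable Gaussian integers. -/
structure GI where
  /-- real part -/
  re : Int
  /-- imaginary part -/
  im : Int

/-- Operations on Gaussian integers. -/
def giOps : Ops GI where
  zero := ⟨0, 0⟩
  add x y := ⟨x.re + y.re, x.im + y.im⟩
  mul x y := ⟨x.re * y.re - x.im * y.im, x.re * y.im + x.im * y.re⟩
  conj x := ⟨x.re, -x.im⟩
  eqb x y := decide (x.re = y.re) && decide (x.im = y.im)

/-- Evaluation in `ℂ`. -/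
noncomputable def giEv (x : GI) : ℂ := (x.re : ℂ) + (x.im : ℂ) * Complex.I

theorem giSound : giOps.Sound giEv where
  zero := by simp [giOps, giEv]
  add x y := by simp only [giOps, giEv, Int.cast_add]; ring
  mul x y := by
    simp only [giOps, giEv, Int.cast_add, Int.cast_sub, Int.cast_mul]
    linear_combination (-(x.im : ℂ) * y.im) * Complex.I_mul_I
  conj x := by simp [giOps, giEv]
  eqb x y h := by
    simp only [giOps, Bool.and_eq_true, decide_eq_true_eq] at h
    simp only [giEv, h.1, h.2]

end Crest.Agent.R345
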