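import Crest.Agent.R345.InfraMain

/-!
# Pairs given by weighted Kraus data with transposition invariance (row 345)
-/

set_option autoImplicit false
set_option linter.unusedSectionVars false

namespace Crest.Agent.R345

open Crest.Quantum
open scoped ComplexOrder Kronecker

section Gram

variable {a b c : Type*} [Fintype a] [Fintype b] [Fintype c]
  [DecidableEq a] [DecidableEq b] [DecidableEq c]

/-- The Choi matrix `∑ k, d k |V k⟩⟨V k|`. -/
noncomputable def gramChoi {κ : Type*} [Fintype κ] (d : κ → ℝ) (V : κ → a → b → ℂ) :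
    Matrix (a × b) (a × b) ℂ :=
  Matrix.of fun p q => ∑ k, (d k : ℂ) * V k p.1 p.2 * star (V k q.1 q.2)

theorem gramChoi_posSemidef {κ : Type*} [Fintype κ] (d : κ → ℝ) (hd : ∀ k, 0 ≤ d k)
    (V : κ → a → b → ℂ) : (gramChoi d V).PosSemidef := by
  have h : gramChoi d V = ∑ k, (d k : ℂ) •
      Matrix.vecMulVec (fun p : a × b => V k p.1 p.2) (star fun p : a × b => V k p.1 p.2) := by
    ext p q
    rw [Matrix.sum_apply]
    simp only [gramChoi, Matrix.of_apply, Matrix.smul_apply, Matrix.vecMulVec_apply, smul_eq_mul,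
      Pi.star_apply]
    exact Finset.sum_congr rfl fun k _ => by ring
  rw [h]
  refine Matrix.posSemidef_sum _ fun k _ => ?_
  refine (Matrix.posSemidef_vecMulVec_self_star _).smul ?_
  exact_mod_cast hd k

/-- Invariance under transposition of the output factor. -/
theorem ptrans_gramChoi_right {κ : Type*} [Fintype κ] (d : κ → ℝ) (V : κ → a → b → ℂ)
    (hT : ∀ x y i j, ∑ k, (d k : ℂ) * V k x i * star (V k y j) =
      ∑ k, (d k : ℂ) * V k x j * star (V k y i)) :
    ptrans (gramChoi d V) = gramChoi d V := by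
  ext p q
  simp only [ptrans, gramChoi, Matrix.of_apply]
  exact (hT p.1 q.1 p.2 q.2).symm

/-- Invariance under transposition of the input factor. -/
theorem ptrans_gramChoi_left {κ : Type*} [Fintype κ] (d : κ → ℝ) (V : κ → a → b → ℂ)
    (hT : ∀ i j x y, ∑ k, (d k : ℂ) * V k i x * star (V k j y) =
      ∑ k, (d k : ℂ) * V k j x * star (V k i y)) :
    ptrans (gramChoi d V) = (gramChoi d V).transpose := by
  ext p q
  simp only [ptrans, gramChoi, Matrix.of_apply, Matrix.transpose_apply]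
  exact hT p.1 q.1 q.2 p.2

variable {κ₁ κ₂ : Type*} [Fintype κ₁] [Fintype κ₂]

/-- The link product of two Gram-Choi matrices. -/
theorem link_gramChoi (d₁ : κ₁ → ℝ) (V : κ₁ → a → b → ℂ) (d₂ : κ₂ → ℝ) (W : κ₂ → b → c → ℂ)
    (p q : a × c) :
    ∑ x, ∑ y, gramChoi d₁ V (p.1, x) (q.1, y) * gramChoi d₂ W (x, p.2) (y, q.2) =
      ∑ k, ∑ l, (d₁ k : ℂ) * (d₂ l : ℂ) * (∑ x, V k p.1 x * W l x p.2) *
        star (∑ y, V k q.1 y * W l y q.2) := by
  simp only [gramChoi, Matrix.of_apply]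
  have h1 : ∀ x y, (∑ k, (d₁ k : ℂ) * V k p.1 x * star (V k q.1 y)) *
      (∑ l, (d₂ l : ℂ) * W l x p.2 * star (W l y q.2)) =
      ∑ k, ∑ l, ((d₁ k : ℂ) * V k p.1 x * star (V k q.1 y)) *
        ((d₂ l : ℂ) * W l x p.2 * star (W l y q.2)) := by
    intro x y
    rw [Finset.sum_mul]
    exact Finset.sum_congr rfl fun k _ => by rw [Finset.mul_sum]
  simp_rw [h1]
  have h2 : ∑ x, ∑ y, ∑ k, ∑ l, ((d₁ k : ℂ) * V k p.1 x * star (V k q.1 y)) *
        ((d₂ l : ℂ) * W l x p.2 * star (W l y q.2)) =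
      ∑ k, ∑ l, ∑ x, ∑ y, ((d₁ k : ℂ) * V k p.1 x * star (V k q.1 y)) *
        ((d₂ l : ℂ) * W l x p.2 * star (W l y q.2)) := by
    have e1 : ∀ x, ∑ y, ∑ k, ∑ l, ((d₁ k : ℂ) * V k p.1 x * star (V k q.1 y)) *
        ((d₂ l : ℂ) * W l x p.2 * star (W l y q.2)) =
        ∑ k, ∑ l, ∑ y, ((d₁ k : ℂ) * V k p.1 x * star (V k q.1 y)) *
        ((d₂ l : ℂ) * W l x p.2 * star (W l y q.2)) := by
      intro x
      rw [Finset.sum_comm]
      exact Finset.sum_congr rfl fun k _ => Finset.sum_comm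
    simp_rw [e1]
    rw [Finset.sum_comm]
    exact Finset.sum_congr rfl fun k _ => Finset.sum_comm
  rw [h2]
  refine Finset.sum_congr rfl fun k _ => Finset.sum_congr rfl fun l _ => ?_
  rw [star_sum, mul_assoc, Finset.sum_mul_sum, Finset.mul_sum]
  refine Finset.sum_congr rfl fun x _ => ?_
  rw [Finset.mul_sum]
  refine Finset.sum_congr rfl fun y _ => ?_
  rw [star_mul']
  ring

/-- **Main entry point (Gram form).** -/
theorem concl541_of_gram
    (ha : Fintype.card a ≤ 10) (hb : Fintype.card b ≤ 10) (hc : Fintype.card c ≤ 10)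
    (d₁ : κ₁ → ℝ) (hd₁ : ∀ k, 0 ≤ d₁ k) (V : κ₁ → a → b → ℂ)
    (d₂ : κ₂ → ℝ) (hd₂ : ∀ k, 0 ≤ d₂ k) (W : κ₂ → b → c → ℂ)
    (hT₁ : ∀ i j x y, ∑ k, (d₁ k : ℂ) * V k i x * star (V k j y) =
      ∑ k, (d₁ k : ℂ) * V k j x * star (V k i y))
    (hT₂ : ∀ x y i j, ∑ k, (d₂ k : ℂ) * W k x i * star (W k y j) =
      ∑ k, (d₂ k : ℂ) * W k x j * star (W k y i))
    {ι : Type*} (N : ι → a → c → ℂ)
    (hN : ∀ t k l, ∑ i, ∑ j, N t i j * ∑ x, V k i x * W l x j = 0)
    (hfree : ∀ (u : a → ℂ) (v : c → ℂ),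
      (∀ t, ∑ i, ∑ j, N t i j * u i * v j = 0) → u = 0 ∨ v = 0)
    (h0 : ∃ k l, 0 < d₁ k ∧ 0 < d₂ l ∧ ∃ i j, ∑ x, V k i x * W l x j ≠ 0) :
    Concl541 := by
  classical
  have hform : (Matrix.of fun p q : a × c =>
      ∑ x, ∑ y, gramChoi d₁ V (p.1, x) (q.1, y) * gramChoi d₂ W (x, p.2) (y, q.2)) =
      Matrix.of fun p q : a × c => ∑ k, ∑ l, (d₁ k : ℂ) * (d₂ l : ℂ) *
        (∑ x, V k p.1 x * W l x p.2) * star (∑ y, V k q.1 y * W l y q.2) := by
    ext p q
    simp only [Matrix.of_apply]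
    exact link_gramChoi d₁ V d₂ W p q
  refine concl541_of_choi ha hb hc (gramChoi d₁ V) (gramChoi d₂ W)
    (gramChoi_posSemidef d₁ hd₁ V) ?_ (gramChoi_posSemidef d₂ hd₂ W) ?_ ?_ ?_
  · rw [ptrans_gramChoi_left d₁ V hT₁]
    exact (gramChoi_posSemidef d₁ hd₁ V).transpose
  · rw [ptrans_gramChoi_right d₂ W hT₂]
    exact gramChoi_posSemidef d₂ hd₂ W
  · rw [hform]
    intro h
    obtain ⟨k₀, l₀, hk₀, hl₀, i₀, j₀, hij⟩ := h0
    have hdiag := congrFun (congrFun h (i₀, j₀)) (i₀, j₀)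
    simp only [Matrix.of_apply, Matrix.zero_apply] at hdiag
    have hre : ∑ k, ∑ l, d₁ k * d₂ l * Complex.normSq (∑ x, V k i₀ x * W l x j₀) = 0 := by
      have := congrArg Complex.re hdiag
      rw [Complex.zero_re, Complex.re_sum] at this
      rw [← this]
      refine Finset.sum_congr rfl fun k _ => ?_
      rw [Complex.re_sum]
      refine Finset.sum_congr rfl fun l _ => ?_
      rw [mul_assoc ((d₁ k : ℂ) * (d₂ l : ℂ)), Complex.star_def, Complex.mul_conj]
      rw [← Complex.ofReal_mul, ← Complex.ofReal_mul, Complex.ofReal_re]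
    have hnn : ∀ k ∈ (Finset.univ : Finset κ₁),
        0 ≤ ∑ l, d₁ k * d₂ l * Complex.normSq (∑ x, V k i₀ x * W l x j₀) := fun k _ =>
      Finset.sum_nonneg fun l _ =>
        mul_nonneg (mul_nonneg (hd₁ k) (hd₂ l)) (Complex.normSq_nonneg _)
    have h1 := (Finset.sum_eq_zero_iff_of_nonneg hnn).1 hre k₀ (Finset.mem_univ _)
    have hnn2 : ∀ l ∈ (Finset.univ : Finset κ₂),
        0 ≤ d₁ k₀ * d₂ l * Complex.normSq (∑ x, V k₀ i₀ x * W l x j₀) := fun l _ =>
      mul_nonneg (mul_nonneg (hd₁ k₀) (hd₂ l)) (Complex.normSq_nonneg _)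
    have h2 := (Finset.sum_eq_zero_iff_of_nonneg hnn2).1 h1 l₀ (Finset.mem_univ _)
    have h3 : Complex.normSq (∑ x, V k₀ i₀ x * W l₀ x j₀) = 0 := by
      rcases mul_eq_zero.1 h2 with h | h
      · rcases mul_eq_zero.1 h with h | h
        · exact absurd h hk₀.ne'
        · exact absurd h hl₀.ne'
      · exact h
    exact hij (Complex.normSq_eq_zero.1 h3)
  · rw [hform]
    rintro u v ⟨w, hw⟩
    refine hfree u v fun t => ?_
    have hw' : ∀ i j, u i * v j = ∑ q : a × c, (∑ k, ∑ l, (d₁ k : ℂ) * (d₂ l : ℂ) *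
        (∑ x, V k i x * W l x j) * star (∑ y, V k q.1 y * W l y q.2)) * w q := by
      intro i j
      have := congrFun hw (i, j)
      simp only [Matrix.mulVec, dotProduct, Matrix.of_apply] at this
      exact this.symm
    have hw2 : ∀ i j, u i * v j = ∑ k, ∑ l, (∑ x, V k i x * W l x j) *
        ((d₁ k : ℂ) * (d₂ l : ℂ) * ∑ q : a × c, star (∑ y, V k q.1 y * W l y q.2) * w q) := by
      intro i j
      rw [hw' i j]
      have e1 : ∀ q : a × c, (∑ k, ∑ l, (d₁ k : ℂ) * (d₂ l : ℂ) *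
          (∑ x, V k i x * W l x j) * star (∑ y, V k q.1 y * W l y q.2)) * w q =
          ∑ k, ∑ l, (d₁ k : ℂ) * (d₂ l : ℂ) *
          (∑ x, V k i x * W l x j) * star (∑ y, V k q.1 y * W l y q.2) * w q := by
        intro q
        rw [Finset.sum_mul]
        refine Finset.sum_congr rfl fun k _ => ?_
        rw [Finset.sum_mul]
      rw [Finset.sum_congr rfl fun q _ => e1 q, Finset.sum_comm]
      refine Finset.sum_congr rfl fun k _ => ?_
      rw [Finset.sum_comm]
      refine Finset.sum_congr rfl fun l _ => ?_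
      rw [Finset.mul_sum Finset.univ (fun q : a × c => star (∑ y, V k q.1 y * W l y q.2) * w q),
        Finset.mul_sum Finset.univ (fun q : a × c => (d₁ k : ℂ) * (d₂ l : ℂ) *
          (star (∑ y, V k q.1 y * W l y q.2) * w q))]
      refine Finset.sum_congr rfl fun q _ => ?_
      ring
    have h3 : ∀ i j, N t i j * u i * v j = ∑ k, ∑ l, (N t i j * ∑ x, V k i x * W l x j) *
        ((d₁ k : ℂ) * (d₂ l : ℂ) * ∑ q : a × c, star (∑ y, V k q.1 y * W l y q.2) * w q) := by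
      intro i j
      rw [mul_assoc, hw2 i j, Finset.mul_sum]
      refine Finset.sum_congr rfl fun k _ => ?_
      rw [Finset.mul_sum]
      refine Finset.sum_congr rfl fun l _ => ?_
      ring
    simp_rw [h3]
    have h4 : ∀ i, ∑ j, ∑ k, ∑ l, (N t i j * ∑ x, V k i x * W l x j) *
        ((d₁ k : ℂ) * (d₂ l : ℂ) * ∑ q : a × c, star (∑ y, V k q.1 y * W l y q.2) * w q) =
        ∑ k, ∑ l, ∑ j, (N t i j * ∑ x, V k i x * W l x j) *
        ((d₁ k : ℂ) * (d₂ l : ℂ) * ∑ q : a × c, star (∑ y, V k q.1 y * W l y q.2) * w q) := by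
      intro i
      rw [Finset.sum_comm]
      exact Finset.sum_congr rfl fun k _ => Finset.sum_comm
    simp_rw [h4]
    rw [Finset.sum_comm]
    refine Finset.sum_eq_zero fun k _ => ?_
    rw [Finset.sum_comm]
    refine Finset.sum_eq_zero fun l _ => ?_
    simp_rw [← Finset.sum_mul]
    rw [hN t k l, zero_mul]

end Gram

end Crest.Agent.R345
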