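import Crest.Agent.R345.Gram

/-!
# Pairs given by Gram data `J = ∑ H k l |V k⟩⟨V l|` with `H` positive definite (row 345)
-/

set_option autoImplicit false
set_option linter.unusedSectionVars false

namespace Crest.Agent.R345

open Crest.Quantum
open scoped ComplexOrder Kronecker MatrixOrder

section GramH

variable {a b c : Type*} [Fintype a] [Fintype b] [Fintype c]
  [DecidableEq a] [DecidableEq b] [DecidableEq c]

variable {κ₁ κ₂ : Type*} [Fintype κ₁] [Fintype κ₂] [DecidableEq κ₁] [DecidableEq κ₂]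

/-- Square root decomposition in coordinates, with inverse. -/
theorem exists_sqrt_coords {κ : Type*} [Fintype κ] [DecidableEq κ] (H : Matrix κ κ ℂ)
    (hH : H.PosDef) : ∃ A A' : Matrix κ κ ℂ,
      (∀ k l, H k l = ∑ e, A k e * star (A l e)) ∧ (∀ k l, ∑ e, A k e * A' e l = if k = l then 1 else 0) := by
  obtain ⟨B, hB⟩ := CStarAlgebra.nonneg_iff_eq_star_mul_self.mp hH.posSemidef.nonneg
  have hU : IsUnit (star B * B) := by rw [← hB]; exact hH.isUnit
  have hdet : IsUnit (star B).det := by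
    rw [Matrix.isUnit_iff_isUnit_det, Matrix.det_mul] at hU
    exact isUnit_of_mul_isUnit_left hU
  refine ⟨star B, (star B)⁻¹, ?_, ?_⟩
  · intro k l
    conv_lhs => rw [hB]
    rw [Matrix.mul_apply]
    refine Finset.sum_congr rfl fun e _ => ?_
    rw [Matrix.star_apply, Matrix.star_apply, star_star]
  · intro k l
    have := Matrix.mul_nonsing_inv (star B) hdet
    have h2 := congrFun (congrFun this k) l
    rw [Matrix.mul_apply] at h2
    rw [h2, Matrix.one_apply]

/-- Transposition invariance for the transformed vectors. -/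
theorem gramH_transf {κ : Type*} [Fintype κ] [DecidableEq κ] (H : Matrix κ κ ℂ) (A : Matrix κ κ ℂ)
    (hA : ∀ k l, H k l = ∑ e, A k e * star (A l e)) (v w : κ → ℂ) :
    ∑ e, (∑ k, A k e * v k) * star (∑ k, A k e * w k) = ∑ k, ∑ l, H k l * v k * star (w l) := by
  have e1 : ∀ e, (∑ k, A k e * v k) * star (∑ k, A k e * w k) =
      ∑ k, ∑ l, A k e * star (A l e) * v k * star (w l) := by
    intro e
    rw [star_sum, Finset.sum_mul_sum]
    refine Finset.sum_congr rfl fun k _ => Finset.sum_congr rfl fun l _ => ?_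
    rw [star_mul']
    ring
  simp_rw [e1]
  rw [Finset.sum_comm]
  refine Finset.sum_congr rfl fun k _ => ?_
  rw [Finset.sum_comm]
  refine Finset.sum_congr rfl fun l _ => ?_
  rw [hA k l, Finset.sum_mul, Finset.sum_mul]

/-- **Main entry point (Gram form with Hermitian weights).** -/
theorem concl541_of_gramH
    (ha : Fintype.card a ≤ 10) (hb : Fintype.card b ≤ 10) (hc : Fintype.card c ≤ 10)
    (H₁ : Matrix κ₁ κ₁ ℂ) (hH₁ : H₁.PosDef) (V : κ₁ → a → b → ℂ)
    (H₂ : Matrix κ₂ κ₂ ℂ) (hH₂ : H₂.PosDef) (W : κ₂ → b → c → ℂ)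
    (hT₁ : ∀ i j x y, ∑ k, ∑ l, H₁ k l * V k i x * star (V l j y) =
      ∑ k, ∑ l, H₁ k l * V k j x * star (V l i y))
    (hT₂ : ∀ x y i j, ∑ k, ∑ l, H₂ k l * W k x i * star (W l y j) =
      ∑ k, ∑ l, H₂ k l * W k x j * star (W l y i))
    {ι : Type*} (N : ι → a → c → ℂ)
    (hN : ∀ t k l, ∑ i, ∑ j, N t i j * ∑ x, V k i x * W l x j = 0)
    (hfree : ∀ (u : a → ℂ) (v : c → ℂ),
      (∀ t, ∑ i, ∑ j, N t i j * u i * v j = 0) → u = 0 ∨ v = 0)
    (h0 : ∃ k l, ∃ i j, ∑ x, V k i x * W l x j ≠ 0) :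
    Concl541 := by
  classical
  obtain ⟨A₁, A₁', hA₁, hA₁'⟩ := exists_sqrt_coords H₁ hH₁
  obtain ⟨A₂, A₂', hA₂, hA₂'⟩ := exists_sqrt_coords H₂ hH₂
  have key : ∀ (e : κ₁) (f : κ₂) (i : a) (j : c),
      ∑ x, (∑ k, A₁ k e * V k i x) * (∑ l, A₂ l f * W l x j) =
      ∑ k, ∑ l, A₁ k e * A₂ l f * ∑ x, V k i x * W l x j := by
    intro e f i j
    have e1 : ∀ x, (∑ k, A₁ k e * V k i x) * (∑ l, A₂ l f * W l x j) =
        ∑ k, ∑ l, A₁ k e * A₂ l f * (V k i x * W l x j) := by
      intro x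
      rw [Finset.sum_mul_sum]
      exact Finset.sum_congr rfl fun k _ => Finset.sum_congr rfl fun l _ => by ring
    simp_rw [e1]
    rw [Finset.sum_comm]
    refine Finset.sum_congr rfl fun k _ => ?_
    rw [Finset.sum_comm]
    exact Finset.sum_congr rfl fun l _ => by rw [Finset.mul_sum]
  refine concl541_of_gram ha hb hc (fun _ => 1) (fun _ => zero_le_one)
    (fun e i x => ∑ k, A₁ k e * V k i x)
    (fun _ => 1) (fun _ => zero_le_one) (fun f x j => ∑ l, A₂ l f * W l x j)
    ?_ ?_ N ?_ hfree ?_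
  · intro i j x y
    have h := hT₁ i j x y
    rw [← gramH_transf H₁ A₁ hA₁ (fun k => V k i x) (fun l => V l j y),
      ← gramH_transf H₁ A₁ hA₁ (fun k => V k j x) (fun l => V l i y)] at h
    simpa using h
  · intro x y i j
    have h := hT₂ x y i j
    rw [← gramH_transf H₂ A₂ hA₂ (fun k => W k x i) (fun l => W l y j),
      ← gramH_transf H₂ A₂ hA₂ (fun k => W k x j) (fun l => W l y i)] at h
    simpa using h
  · intro t e f
    simp_rw [key]
    have e2 : ∀ i j, N t i j * ∑ k, ∑ l, A₁ k e * A₂ l f * ∑ x, V k i x * W l x j =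
        ∑ k, ∑ l, A₁ k e * A₂ l f * (N t i j * ∑ x, V k i x * W l x j) := by
      intro i j
      rw [Finset.mul_sum]
      refine Finset.sum_congr rfl fun k _ => ?_
      rw [Finset.mul_sum]
      exact Finset.sum_congr rfl fun l _ => by ring
    simp_rw [e2]
    have e3 : ∀ i, ∑ j, ∑ k, ∑ l, A₁ k e * A₂ l f * (N t i j * ∑ x, V k i x * W l x j) =
        ∑ k, ∑ l, ∑ j, A₁ k e * A₂ l f * (N t i j * ∑ x, V k i x * W l x j) := by
      intro i
      rw [Finset.sum_comm]
      exact Finset.sum_congr rfl fun k _ => Finset.sum_comm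
    simp_rw [e3]
    rw [Finset.sum_comm]
    refine Finset.sum_eq_zero fun k _ => ?_
    rw [Finset.sum_comm]
    refine Finset.sum_eq_zero fun l _ => ?_
    have h := hN t k l
    calc ∑ i, ∑ j, A₁ k e * A₂ l f * (N t i j * ∑ x, V k i x * W l x j)
        = A₁ k e * A₂ l f * ∑ i, ∑ j, N t i j * ∑ x, V k i x * W l x j := by
          rw [Finset.mul_sum]
          exact Finset.sum_congr rfl fun i _ => by rw [Finset.mul_sum]
      _ = 0 := by rw [h, mul_zero]
  · by_contra hcon
    push Not at hcon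
    obtain ⟨k₀, l₀, i, j, hne⟩ := h0
    apply hne
    have h1 : ∀ e f, ∑ x, (∑ k, A₁ k e * V k i x) * (∑ l, A₂ l f * W l x j) = 0 := fun e f =>
      hcon e f zero_lt_one zero_lt_one i j
    have hV : ∀ k x, V k i x = ∑ e, A₁' e k * ∑ k', A₁ k' e * V k' i x := by
      intro k x
      have : ∑ e, A₁' e k * ∑ k', A₁ k' e * V k' i x =
          ∑ k', (∑ e, A₁ k' e * A₁' e k) * V k' i x := by
        simp_rw [Finset.mul_sum, Finset.sum_mul]
        rw [Finset.sum_comm]
        exact Finset.sum_congr rfl fun k' _ => Finset.sum_congr rfl fun e _ => by ring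
      rw [this]
      simp_rw [hA₁']
      simp
    have hW : ∀ l x, W l x j = ∑ f, A₂' f l * ∑ l', A₂ l' f * W l' x j := by
      intro l x
      have : ∑ f, A₂' f l * ∑ l', A₂ l' f * W l' x j =
          ∑ l', (∑ f, A₂ l' f * A₂' f l) * W l' x j := by
        simp_rw [Finset.mul_sum, Finset.sum_mul]
        rw [Finset.sum_comm]
        exact Finset.sum_congr rfl fun k' _ => Finset.sum_congr rfl fun e _ => by ring
      rw [this]
      simp_rw [hA₂']
      simp
    calc ∑ x, V k₀ i x * W l₀ x j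
        = ∑ x, (∑ e, A₁' e k₀ * ∑ k', A₁ k' e * V k' i x) *
            (∑ f, A₂' f l₀ * ∑ l', A₂ l' f * W l' x j) :=
          Finset.sum_congr rfl fun x _ => by rw [← hV, ← hW]
      _ = ∑ x, ∑ e, ∑ f, A₁' e k₀ * A₂' f l₀ *
            ((∑ k', A₁ k' e * V k' i x) * ∑ l', A₂ l' f * W l' x j) := by
          refine Finset.sum_congr rfl fun x _ => ?_
          rw [Finset.sum_mul_sum]
          exact Finset.sum_congr rfl fun e _ => Finset.sum_congr rfl fun f _ => by ring
      _ = ∑ e, ∑ f, A₁' e k₀ * A₂' f l₀ *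
            ∑ x, ((∑ k', A₁ k' e * V k' i x) * ∑ l', A₂ l' f * W l' x j) := by
          rw [Finset.sum_comm]
          refine Finset.sum_congr rfl fun e _ => ?_
          rw [Finset.sum_comm]
          exact Finset.sum_congr rfl fun f _ => by rw [Finset.mul_sum]
      _ = 0 := by simp [h1]

end GramH

end Crest.Agent.R345
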