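import Mathlib
import Crest.Prelude.Def_QState
import Crest.Prelude.Def_QChannel
import Crest.Prelude.Def_Entanglement

/-!
# Infrastructure for PPT maps (row 345), part 1

Kraus form implies complete positivity; closure properties of completely positive, PPT and
entanglement breaking maps.
-/

set_option autoImplicit false
set_option linter.unusedSectionVars false

namespace Crest.Agent.R345

open Crest.Quantum
open scoped ComplexOrder Kronecker

section General

variable {d e f g : Type*} [Fintype d] [Fintype e] [Fintype f] [Fintype g]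
  [DecidableEq d] [DecidableEq e] [DecidableEq f] [DecidableEq g]

/-! ### The maps `X ↦ V X Vᴴ` -/

/-- `Ad_V`, the map `X ↦ V X Vᴴ`. -/
def adMap (V : Matrix e d ℂ) : Matrix d d ℂ → Matrix e e ℂ := fun X => V * X * V.conjTranspose

theorem adMap_isLinearMap (V : Matrix e d ℂ) : IsLinearMap ℂ (adMap V) := by
  constructor
  · intro X Y
    simp [adMap, Matrix.mul_add, Matrix.add_mul]
  · intro c X
    simp [adMap]

/-- blocks of `(1 ⊗ V) M (1 ⊗ V)ᴴ`. -/
theorem blockwise_adMap {k : Type*} [Fintype k] [DecidableEq k] (V : Matrix e d ℂ)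
    (M : Matrix (k × d) (k × d) ℂ) :
    blockwise (k := k) (adMap V) M =
      ((1 : Matrix k k ℂ) ⊗ₖ V) * M * ((1 : Matrix k k ℂ) ⊗ₖ V).conjTranspose := by
  ext ⟨s, i⟩ ⟨t, j⟩
  simp only [blockwise, adMap, block, Matrix.of_apply, Matrix.mul_apply, Matrix.conjTranspose_apply,
    Matrix.kroneckerMap_apply, Fintype.sum_prod_type, Matrix.one_apply]
  simp only [ite_mul, one_mul, zero_mul, apply_ite (star : ℂ → ℂ), star_zero,
    mul_ite, mul_zero]
  rw [Finset.sum_eq_single t]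
  · simp only [if_true]
    refine Finset.sum_congr rfl fun b _ => ?_
    congr 1
    rw [Finset.sum_eq_single s]
    · simp
    · intro x _ hx
      simp [Ne.symm hx]
    · simp
  · intro x _ hx
    simp [Ne.symm hx]
  · simp

theorem cp_adMap (V : Matrix e d ℂ) : IsCompletelyPositive (adMap V) := by
  intro k M hM
  rw [blockwise_adMap]
  exact hM.mul_mul_conjTranspose_same _

/-! ### Complete positivity: closure properties -/

theorem cp_zero : IsCompletelyPositive (fun _ : Matrix d d ℂ => (0 : Matrix e e ℂ)) := by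
  intro k M _
  have : blockwise (k := Fin k) (fun _ : Matrix d d ℂ => (0 : Matrix e e ℂ)) M = 0 := by
    ext p q
    simp [blockwise]
  rw [this]
  exact Matrix.PosSemidef.zero

theorem cp_add {Φ Ψ : Matrix d d ℂ → Matrix e e ℂ}
    (hΦ : IsCompletelyPositive Φ) (hΨ : IsCompletelyPositive Ψ) :
    IsCompletelyPositive (fun X => Φ X + Ψ X) := by
  intro k M hM
  have : blockwise (k := Fin k) (fun X => Φ X + Ψ X) M =
      blockwise (k := Fin k) Φ M + blockwise (k := Fin k) Ψ M := by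
    ext p q
    simp [blockwise]
  rw [this]
  exact (hΦ k M hM).add (hΨ k M hM)

theorem cp_smul {Φ : Matrix d d ℂ → Matrix e e ℂ} (hΦ : IsCompletelyPositive Φ) {c : ℝ}
    (hc : 0 ≤ c) : IsCompletelyPositive (fun X => (c : ℂ) • Φ X) := by
  intro k M hM
  have : blockwise (k := Fin k) (fun X => (c : ℂ) • Φ X) M =
      (c : ℂ) • blockwise (k := Fin k) Φ M := by
    ext p q
    simp [blockwise]
  rw [this]
  exact (hΦ k M hM).smul (by exact_mod_cast hc)

theorem cp_sum {ι : Type*} (s : Finset ι) (Φ : ι → Matrix d d ℂ → Matrix e e ℂ)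
    (hΦ : ∀ i ∈ s, IsCompletelyPositive (Φ i)) :
    IsCompletelyPositive (fun X => ∑ i ∈ s, Φ i X) := by
  classical
  induction s using Finset.induction_on with
  | empty => simpa using cp_zero (d := d) (e := e)
  | insert a s ha ih =>
    have h1 := cp_add (hΦ a (by simp)) (ih fun i hi => hΦ i (by simp [hi]))
    refine (congrArg IsCompletelyPositive (funext fun X => ?_)).mp h1
    rw [Finset.sum_insert ha]

/-- `block` of `blockwise`. -/
theorem block_blockwise {k : Type*} (Ψ : Matrix d d ℂ → Matrix e e ℂ)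
    (M : Matrix (k × d) (k × d) ℂ) (s t : k) :
    block (blockwise (k := k) Ψ M) s t = Ψ (block M s t) := rfl

theorem blockwise_comp {k : Type*} (Φ : Matrix e e ℂ → Matrix f f ℂ)
    (Ψ : Matrix d d ℂ → Matrix e e ℂ) (M : Matrix (k × d) (k × d) ℂ) :
    blockwise (k := k) (Φ ∘ Ψ) M = blockwise (k := k) Φ (blockwise (k := k) Ψ M) := rfl

theorem cp_comp {Φ : Matrix e e ℂ → Matrix f f ℂ} {Ψ : Matrix d d ℂ → Matrix e e ℂ}
    (hΦ : IsCompletelyPositive Φ) (hΨ : IsCompletelyPositive Ψ) :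
    IsCompletelyPositive (Φ ∘ Ψ) := by
  intro k M hM
  rw [blockwise_comp]
  exact hΦ k _ (hΨ k M hM)

theorem cp_id : IsCompletelyPositive (id : Matrix d d ℂ → Matrix d d ℂ) := by
  intro k M hM
  exact hM

/-- A map given by finitely many Kraus operators is completely positive. -/
theorem cp_of_kraus {ι : Type*} [Fintype ι] {Φ : Matrix d d ℂ → Matrix e e ℂ}
    (K : ι → Matrix e d ℂ) (h : ∀ X, Φ X = ∑ i, K i * X * (K i).conjTranspose) :
    IsCompletelyPositive Φ := by
  have : Φ = fun X => ∑ i ∈ Finset.univ, adMap (K i) X := by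
    funext X
    rw [h X]
    rfl
  rw [this]
  exact cp_sum _ _ fun i _ => cp_adMap _

/-- Weighted Kraus form. -/
theorem cp_of_weighted_kraus {ι : Type*} [Fintype ι] {Φ : Matrix d d ℂ → Matrix e e ℂ}
    (w : ι → ℝ) (hw : ∀ i, 0 ≤ w i) (K : ι → Matrix e d ℂ)
    (h : ∀ X, Φ X = ∑ i, (w i : ℂ) • (K i * X * (K i).conjTranspose)) :
    IsCompletelyPositive Φ := by
  have : Φ = fun X => ∑ i ∈ Finset.univ, (w i : ℂ) • adMap (K i) X := by
    funext X
    rw [h X]
    rfl
  rw [this]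
  exact cp_sum _ _ fun i _ => cp_smul (cp_adMap _) (hw i)

/-- A map of the form `X ↦ ∑ K i * Xᵀ * (K i)ᴴ` followed by a transposition is completely
positive (the "co-Kraus form"). -/
theorem cp_transpose_of_cokraus {ι : Type*} [Fintype ι] {Φ : Matrix d d ℂ → Matrix e e ℂ}
    (K : ι → Matrix e d ℂ) (h : ∀ X, Φ X = ∑ i, K i * X.transpose * (K i).conjTranspose) :
    IsCompletelyPositive (fun X => (Φ X).transpose) := by
  refine cp_of_kraus (fun i => (K i).map star) fun X => ?_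
  simp only [h X, Matrix.transpose_sum]
  refine Finset.sum_congr rfl fun i _ => ?_
  rw [Matrix.transpose_mul, Matrix.transpose_mul, Matrix.transpose_transpose, ← Matrix.mul_assoc]
  have h1 : (K i).conjTranspose.transpose = (K i).map star := by
    ext a b
    simp
  have h2 : ((K i).map star).conjTranspose = (K i).transpose := by
    ext a b
    simp
  rw [h1, h2]

/-- **PPT from two Kraus families**. -/
theorem ppt_of_kraus {ι κ : Type*} [Fintype ι] [Fintype κ] {Φ : Matrix d d ℂ → Matrix e e ℂ}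
    (K : ι → Matrix e d ℂ) (L : κ → Matrix e d ℂ)
    (hK : ∀ X, Φ X = ∑ i, K i * X * (K i).conjTranspose)
    (hL : ∀ X, Φ X = ∑ i, L i * X.transpose * (L i).conjTranspose) : IsPPT Φ :=
  ⟨cp_of_kraus K hK, cp_transpose_of_cokraus L hL⟩

/-! ### PPT maps: closure properties -/

theorem ppt_zero : IsPPT (fun _ : Matrix d d ℂ => (0 : Matrix e e ℂ)) := by
  refine ⟨cp_zero, ?_⟩
  simpa using cp_zero (d := d) (e := e)

theorem ppt_add {Φ Ψ : Matrix d d ℂ → Matrix e e ℂ} (hΦ : IsPPT Φ) (hΨ : IsPPT Ψ) :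
    IsPPT (fun X => Φ X + Ψ X) := by
  refine ⟨cp_add hΦ.1 hΨ.1, ?_⟩
  simpa [Matrix.transpose_add] using cp_add hΦ.2 hΨ.2

theorem ppt_smul {Φ : Matrix d d ℂ → Matrix e e ℂ} (hΦ : IsPPT Φ) {c : ℝ} (hc : 0 ≤ c) :
    IsPPT (fun X => (c : ℂ) • Φ X) := by
  refine ⟨cp_smul hΦ.1 hc, ?_⟩
  simpa [Matrix.transpose_smul] using cp_smul hΦ.2 hc

theorem ppt_comp_cp {Φ : Matrix e e ℂ → Matrix f f ℂ} {Ψ : Matrix d d ℂ → Matrix e e ℂ}
    (hΦ : IsPPT Φ) (hΨ : IsCompletelyPositive Ψ) : IsPPT (Φ ∘ Ψ) :=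
  ⟨cp_comp hΦ.1 hΨ, cp_comp (Φ := fun M => (Φ M).transpose) hΦ.2 hΨ⟩

theorem ppt_adMap_comp {Ψ : Matrix d d ℂ → Matrix e e ℂ} (V : Matrix f e ℂ) (hΨ : IsPPT Ψ) :
    IsPPT (adMap V ∘ Ψ) := by
  refine ⟨cp_comp (cp_adMap V) hΨ.1, ?_⟩
  have : (fun M => ((adMap V ∘ Ψ) M).transpose) =
      adMap (V.map star) ∘ fun M => (Ψ M).transpose := by
    funext M
    simp only [Function.comp, adMap]
    rw [Matrix.transpose_mul, Matrix.transpose_mul, ← Matrix.mul_assoc]
    have h1 : V.conjTranspose.transpose = V.map star := by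
      ext a b
      simp
    have h2 : (V.map star).conjTranspose = V.transpose := by
      ext a b
      simp
    rw [h1, h2]
  rw [this]
  exact cp_comp (cp_adMap _) hΨ.2

/-! ### Entanglement breaking maps: closure properties -/

theorem eb_comp_cp {Φ : Matrix e e ℂ → Matrix f f ℂ} {Ψ : Matrix d d ℂ → Matrix e e ℂ}
    (hΦ : IsEntanglementBreaking Φ) (hΨ : IsCompletelyPositive Ψ) :
    IsEntanglementBreaking (Φ ∘ Ψ) := by
  intro k M hM
  rw [blockwise_comp]
  exact hΦ k _ (hΨ k M hM)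

theorem blockwise_kronecker {k : Type*} {Ψ : Matrix d d ℂ → Matrix e e ℂ}
    (hΨ : IsLinearMap ℂ Ψ) (A : Matrix k k ℂ) (B : Matrix d d ℂ) :
    blockwise (k := k) Ψ (A ⊗ₖ B) = A ⊗ₖ Ψ B := by
  ext ⟨s, i⟩ ⟨t, j⟩
  have : block (A ⊗ₖ B) s t = A s t • B := by
    ext i j
    simp [block]
  simp only [blockwise, Matrix.of_apply, this, hΨ.map_smul, Matrix.kroneckerMap_apply,
    Matrix.smul_apply, smul_eq_mul]

theorem blockwise_sum {k ι : Type*} [Fintype ι] {Ψ : Matrix d d ℂ → Matrix e e ℂ}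
    (hΨ : IsLinearMap ℂ Ψ) (M : ι → Matrix (k × d) (k × d) ℂ) :
    blockwise (k := k) Ψ (∑ i, M i) = ∑ i, blockwise (k := k) Ψ (M i) := by
  ext ⟨s, i⟩ ⟨t, j⟩
  have hb : block (∑ i, M i) s t = ∑ i, block (M i) s t := by
    ext i j
    simp [block, Matrix.sum_apply]
  have hs : Ψ (∑ i, block (M i) s t) = ∑ i, Ψ (block (M i) s t) :=
    map_sum (hΨ.mk' Ψ) _ _
  simp only [blockwise, Matrix.of_apply, hb, hs, Matrix.sum_apply]

theorem eb_postcomp {Φ : Matrix d d ℂ → Matrix e e ℂ} {Ψ : Matrix e e ℂ → Matrix f f ℂ}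
    (hΨ : IsLinearMap ℂ Ψ) (hpos : ∀ X : Matrix e e ℂ, X.PosSemidef → (Ψ X).PosSemidef)
    (hΦ : IsEntanglementBreaking Φ) : IsEntanglementBreaking (Ψ ∘ Φ) := by
  intro k M hM
  obtain ⟨r, A, B, hA, hB, h⟩ := hΦ k M hM
  refine ⟨r, A, fun i => Ψ (B i), hA, fun i => hpos _ (hB i), ?_⟩
  rw [blockwise_comp, h, blockwise_sum hΨ]
  exact Finset.sum_congr rfl fun i _ => blockwise_kronecker hΨ _ _

theorem eb_adMap_comp {Φ : Matrix d d ℂ → Matrix e e ℂ} (V : Matrix f e ℂ)
    (hΦ : IsEntanglementBreaking Φ) : IsEntanglementBreaking (adMap V ∘ Φ) :=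
  eb_postcomp (adMap_isLinearMap V) (fun _ hX => hX.mul_mul_conjTranspose_same V) hΦ

end General

end Crest.Agent.R345
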