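import Crest.Agent.R345.InfraPad

/-!
# Infrastructure for PPT maps (row 345), part 5

From a pair of PPT maps on `M_10` whose composition is not entanglement breaking to a single PPT
channel on `M_21 = M_(10+10+1)` whose square is not entanglement breaking (statement S0540).
-/

set_option autoImplicit false
set_option linter.unusedSectionVars false

namespace Crest.Agent.R345

open Crest.Quantum
open scoped ComplexOrder Kronecker

section Functional

variable {n : Type*} [Fintype n] [DecidableEq n]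

/-- A positive semidefinite matrix is bounded by its trace. -/
theorem trace_smul_one_sub_posSemidef {P : Matrix n n ℂ} (hP : P.PosSemidef) :
    (P.trace • (1 : Matrix n n ℂ) - P).PosSemidef := by
  have hPh := hP.1
  have htr : P.trace = ((∑ i, hPh.eigenvalues i : ℝ) : ℂ) := by
    rw [hPh.trace_eq_sum_eigenvalues]
    simp
  -- diagonalise
  have hspec := hPh.spectral_theorem
  set U := (hPh.eigenvectorUnitary : Matrix n n ℂ) with hU
  have hUU : U * star U = 1 := (Matrix.mem_unitaryGroup_iff).mp hPh.eigenvectorUnitary.2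
  have hP' : P = U * Matrix.diagonal (RCLike.ofReal ∘ hPh.eigenvalues) * star U := by
    conv_lhs => rw [hspec]
    rfl
  have h1 : P.trace • (1 : Matrix n n ℂ) - P =
      U * Matrix.diagonal (fun i => ((∑ j, hPh.eigenvalues j - hPh.eigenvalues i : ℝ) : ℂ)) *
        U.conjTranspose := by
    have h2 : Matrix.diagonal (fun i => ((∑ j, hPh.eigenvalues j - hPh.eigenvalues i : ℝ) : ℂ)) =
        P.trace • (1 : Matrix n n ℂ) - Matrix.diagonal (RCLike.ofReal ∘ hPh.eigenvalues) := by
      ext i j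
      by_cases hij : i = j
      · subst hij
        simp [htr]
      · simp [hij]
    rw [h2, Matrix.mul_sub, Matrix.sub_mul]
    congr 1
    rw [Matrix.mul_smul, Matrix.mul_one, Matrix.smul_mul]
    congr 1
    exact hUU.symm
  rw [h1]
  refine Matrix.PosSemidef.mul_mul_conjTranspose_same ?_ _
  refine Matrix.PosSemidef.diagonal fun i => ?_
  have : 0 ≤ ∑ j, hPh.eigenvalues j - hPh.eigenvalues i := by
    rw [sub_nonneg]
    exact Finset.single_le_sum (f := hPh.eigenvalues) (fun j _ => hP.eigenvalues_nonneg j)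
      (Finset.mem_univ i)
  simpa using (Complex.zero_le_real.mpr this)

end Functional

section Completion

variable {n : Type*} [Fintype n] [DecidableEq n]

/-- The trace of the block of the Choi matrix. -/
def trMat (Θ : Matrix n n ℂ → Matrix n n ℂ) : Matrix n n ℂ :=
  Matrix.of fun a b => (Θ (Matrix.single a b 1)).trace

theorem trMat_posSemidef {m : ℕ} {Θ : Matrix (Fin m) (Fin m) ℂ → Matrix (Fin m) (Fin m) ℂ}
    (hΘ : IsCompletelyPositive Θ) : (trMat Θ).PosSemidef := by
  have hC : (choiMatrix Θ).PosSemidef := by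
    rw [choiMatrix_eq_blockwise]
    exact hΘ m _ (maxEnt_posSemidef m)
  have : trMat Θ = ∑ i, (choiMatrix Θ).submatrix (fun a => (a, i)) (fun a => (a, i)) := by
    ext a b
    simp [trMat, Matrix.sum_apply, Matrix.trace, choiMatrix]
  rw [this]
  exact Matrix.posSemidef_sum _ fun i _ => hC.submatrix _

/-- `X ↦ ε Θ(X) + (Tr X - ε Tr Θ(X)) E_zz`. -/
noncomputable def completion (ε : ℝ) (z : n) (Θ : Matrix n n ℂ → Matrix n n ℂ) :
    Matrix n n ℂ → Matrix n n ℂ :=
  fun X => (ε : ℂ) • Θ X + (X.trace - (ε : ℂ) * (Θ X).trace) • Matrix.single z z (1 : ℂ)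

theorem completion_isLinearMap (ε : ℝ) (z : n) {Θ : Matrix n n ℂ → Matrix n n ℂ}
    (hΘ : IsLinearMap ℂ Θ) : IsLinearMap ℂ (completion ε z Θ) := by
  constructor
  · intro X Y
    simp only [completion, hΘ.map_add, Matrix.trace_add, smul_add]
    module
  · intro c X
    simp only [completion, hΘ.map_smul, Matrix.trace_smul, smul_eq_mul]
    module

theorem completion_trace (ε : ℝ) (z : n) (Θ : Matrix n n ℂ → Matrix n n ℂ) :
    IsTracePreserving (completion ε z Θ) := by
  intro X
  simp [completion, Matrix.trace_add, Matrix.trace_smul]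

theorem exists_completion {m : ℕ} (z : Fin m)
    {Θ : Matrix (Fin m) (Fin m) ℂ → Matrix (Fin m) (Fin m) ℂ}
    (hlin : IsLinearMap ℂ Θ) (hppt : IsPPT Θ) :
    ∃ ε : ℝ, 0 < ε ∧ IsChannel (completion ε z Θ) ∧ IsPPT (completion ε z Θ) := by
  have hQ := trMat_posSemidef hppt.1
  have hc0 : 0 ≤ (trMat Θ).trace := hQ.trace_nonneg
  obtain ⟨c, hc⟩ : ∃ c : ℝ, (trMat Θ).trace = (c : ℂ) := ⟨_, (Complex.eq_re_of_ofReal_le hc0)⟩
  have hc' : 0 ≤ c := by
    rw [hc] at hc0
    exact_mod_cast hc0
  set ε : ℝ := 1 / (c + 1) with hε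
  have hεpos : 0 < ε := by positivity
  -- the functional part
  let τ : Matrix (Fin m) (Fin m) ℂ → Matrix (Fin m) (Fin m) ℂ := fun X =>
    (X.trace - (ε : ℂ) * (Θ X).trace) • Matrix.single z z (1 : ℂ)
  have hτlin : IsLinearMap ℂ τ := by
    constructor
    · intro X Y
      simp only [τ, hlin.map_add, Matrix.trace_add]
      module
    · intro c X
      simp only [τ, hlin.map_smul, Matrix.trace_smul, smul_eq_mul]
      module
  have hD : ((1 : Matrix (Fin m) (Fin m) ℂ) - (ε : ℂ) • trMat Θ).PosSemidef := by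
    have h1 := (trace_smul_one_sub_posSemidef hQ).smul
      (show (0 : ℂ) ≤ ((ε : ℝ) : ℂ) by exact_mod_cast hεpos.le)
    have h2 : (0 : ℂ) ≤ ((1 - ε * c : ℝ) : ℂ) := by
      have : 0 ≤ 1 - ε * c := by
        have : 1 - ε * c = ε := by
          rw [hε]
          field_simp
          ring
        rw [this]
        exact hεpos.le
      exact_mod_cast this
    have h3 := (Matrix.PosSemidef.one (n := Fin m) (R := ℂ)).smul h2
    have h4 := h1.add h3
    have h5 : (1 : Matrix (Fin m) (Fin m) ℂ) - (ε : ℂ) • trMat Θ =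
        ((ε : ℝ) : ℂ) • ((trMat Θ).trace • (1 : Matrix (Fin m) (Fin m) ℂ) - trMat Θ) +
          ((1 - ε * c : ℝ) : ℂ) • (1 : Matrix (Fin m) (Fin m) ℂ) := by
      rw [hc]
      push_cast
      module
    rw [h5]
    exact h4
  have hchoi : choiMatrix τ =
      ((1 : Matrix (Fin m) (Fin m) ℂ) - (ε : ℂ) • trMat Θ) ⊗ₖ Matrix.single z z (1 : ℂ) := by
    ext ⟨a, i⟩ ⟨b, j⟩
    simp only [choiMatrix, τ, Matrix.of_apply, Matrix.smul_apply, Matrix.kroneckerMap_apply,
      Matrix.sub_apply, trMat, smul_eq_mul]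
    congr 2
    by_cases hab : a = b
    · subst hab
      simp
    · simp [hab, Matrix.trace_single_eq_of_ne]
  have hE : (Matrix.single z z (1 : ℂ)).PosSemidef := by
    have : Matrix.single z z (1 : ℂ) =
        Matrix.diagonal (fun i => if i = z then (1 : ℂ) else 0) := by
      ext i j
      by_cases hij : i = j
      · subst hij
        by_cases hiz : i = z
        · subst hiz; simp
        · simp [hiz, Ne.symm hiz]
      · by_cases hiz : z = i
        · subst hiz
          simp [hij]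
        · simp [hiz, hij]
    rw [this]
    refine Matrix.PosSemidef.diagonal fun i => ?_
    by_cases hiz : i = z <;> simp [hiz]
  have hτcp : IsCompletelyPositive τ := by
    refine cp_of_choiMatrix hτlin ?_
    rw [hchoi]
    exact hD.kronecker hE
  have hτppt : IsPPT τ := by
    refine ⟨hτcp, ?_⟩
    have : (fun M => (τ M).transpose) = τ := by
      funext M
      simp [τ]
    rw [this]
    exact hτcp
  have hppt' : IsPPT (completion ε z Θ) := ppt_add (ppt_smul hppt hεpos.le) hτppt
  exact ⟨ε, hεpos, ⟨completion_isLinearMap ε z hlin, hppt'.1, completion_trace ε z Θ⟩, hppt'⟩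

end Completion

theorem eb_smul {d e : Type*} [Fintype d] [Fintype e] [DecidableEq d] [DecidableEq e]
    {Φ : Matrix d d ℂ → Matrix e e ℂ} (hΦ : IsEntanglementBreaking Φ) {c : ℝ} (hc : 0 ≤ c) :
    IsEntanglementBreaking (fun X => (c : ℂ) • Φ X) := by
  have := eb_postcomp (Φ := Φ) (Ψ := fun X : Matrix e e ℂ => (c : ℂ) • X)
    ⟨fun X Y => by simp, fun a X => by simp [smul_comm a]⟩
    (fun X hX => hX.smul (by exact_mod_cast hc)) hΦ
  exact this

/-- **S0540 from a pair of PPT maps on `M_10` with a composition that is not entanglement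
breaking.** -/
theorem s0540_of_pair (Φ₁ Φ₂ : Matrix (Fin 10) (Fin 10) ℂ → Matrix (Fin 10) (Fin 10) ℂ)
    (hl₁ : IsLinearMap ℂ Φ₁) (hl₂ : IsLinearMap ℂ Φ₂) (hp₁ : IsPPT Φ₁) (hp₂ : IsPPT Φ₂)
    (hne : ¬ IsEntanglementBreaking (Φ₂ ∘ Φ₁)) :
    ∃ Θ : Matrix (Fin 21) (Fin 21) ℂ → Matrix (Fin 21) (Fin 21) ℂ,
      IsChannel Θ ∧ IsPPT Θ ∧ ¬ IsEntanglementBreaking (Θ ∘ Θ) := by
  let e₁ : Fin 10 → Fin 21 := fun i => ⟨i.1, by omega⟩
  let e₂ : Fin 10 → Fin 21 := fun i => ⟨i.1 + 10, by omega⟩
  let z : Fin 21 := ⟨20, by omega⟩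
  have he₁ : Function.Injective e₁ := fun i j h => by
    have := congrArg Fin.val h
    simp only [e₁] at this
    exact Fin.ext this
  have he₂ : Function.Injective e₂ := fun i j h => by
    have := congrArg Fin.val h
    simp only [e₂] at this
    exact Fin.ext (by omega)
  have he₁₂ : ∀ i j, e₁ i ≠ e₂ j := fun i j h => by
    have := congrArg Fin.val h
    simp only [e₁, e₂] at this
    omega
  have he₁z : ∀ i, z ≠ e₁ i := fun i h => by
    have := congrArg Fin.val h
    simp only [e₁, z] at this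
    omega
  have he₂z : ∀ i, z ≠ e₂ i := fun i h => by
    have := congrArg Fin.val h
    simp only [e₂, z] at this
    omega
  let Θ₀ : Matrix (Fin 21) (Fin 21) ℂ → Matrix (Fin 21) (Fin 21) ℂ := fun X =>
    padMap e₂ e₁ Φ₂ X + padMap e₁ e₂ Φ₁ X
  have hlin₀ : IsLinearMap ℂ Θ₀ := by
    have h1 := padMap_isLinearMap e₂ e₁ hl₂
    have h2 := padMap_isLinearMap e₁ e₂ hl₁
    constructor
    · intro X Y
      simp only [Θ₀, h1.map_add, h2.map_add]
      abel
    · intro c X
      simp only [Θ₀, h1.map_smul, h2.map_smul, smul_add]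
  have hppt₀ : IsPPT Θ₀ := ppt_add (padMap_ppt _ _ hp₂) (padMap_ppt _ _ hp₁)
  obtain ⟨ε, hε, hchan, hppt⟩ := exists_completion z hlin₀ hppt₀
  refine ⟨completion ε z Θ₀, hchan, hppt, fun hEB => hne ?_⟩
  -- the corners of the completed map
  have c11 : ∀ Y : Matrix (Fin 10) (Fin 10) ℂ,
      adMap (embMat e₁).conjTranspose (adMap (embMat e₁) Y) = Y := fun Y =>
    congrFun (adMap_conjTranspose_comp_adMap he₁) Y
  have c22 : ∀ Y : Matrix (Fin 10) (Fin 10) ℂ,
      adMap (embMat e₂).conjTranspose (adMap (embMat e₂) Y) = Y := fun Y =>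
    congrFun (adMap_conjTranspose_comp_adMap he₂) Y
  have c12 : ∀ Y : Matrix (Fin 10) (Fin 10) ℂ,
      adMap (embMat e₁).conjTranspose (adMap (embMat e₂) Y) = 0 := fun Y => by
    ext i j
    rw [adMap_embMat_conjTranspose_apply, adMap_embMat_apply_left _ (he₁₂ i)]
    rfl
  have c21 : ∀ Y : Matrix (Fin 10) (Fin 10) ℂ,
      adMap (embMat e₂).conjTranspose (adMap (embMat e₁) Y) = 0 := fun Y => by
    ext i j
    rw [adMap_embMat_conjTranspose_apply, adMap_embMat_apply_left _ (fun k => (he₁₂ k i).symm)]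
    rfl
  have cz1 : adMap (embMat e₁).conjTranspose (Matrix.single z z (1 : ℂ)) = 0 := by
    ext i j
    rw [adMap_embMat_conjTranspose_apply]
    simp [he₁z i]
  have cz2 : adMap (embMat e₂).conjTranspose (Matrix.single z z (1 : ℂ)) = 0 := by
    ext i j
    rw [adMap_embMat_conjTranspose_apply]
    simp [he₂z i]
  have l1 := adMap_isLinearMap (embMat e₁).conjTranspose
  have l2 := adMap_isLinearMap (embMat e₂).conjTranspose
  have r1 : ∀ X, adMap (embMat e₁).conjTranspose (completion ε z Θ₀ X) =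
      (ε : ℂ) • Φ₂ (adMap (embMat e₂).conjTranspose X) := by
    intro X
    simp only [completion, Θ₀, l1.map_add, l1.map_smul, padMap, Function.comp, c11, c12, cz1]
    simp
  have r2 : ∀ X, adMap (embMat e₂).conjTranspose (completion ε z Θ₀ X) =
      (ε : ℂ) • Φ₁ (adMap (embMat e₁).conjTranspose X) := by
    intro X
    simp only [completion, Θ₀, l2.map_add, l2.map_smul, padMap, Function.comp, c22, c21, cz2]
    simp
  have hEB2 := eb_adMap_comp (embMat e₁).conjTranspose (eb_comp_cp hEB (cp_adMap (embMat e₁)))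
  have heq : (adMap (embMat e₁).conjTranspose ∘ (completion ε z Θ₀ ∘ completion ε z Θ₀) ∘
      adMap (embMat e₁)) = fun Y => ((ε * ε : ℝ) : ℂ) • (Φ₂ ∘ Φ₁) Y := by
    funext Y
    simp only [Function.comp]
    rw [r1, r2, c11, hl₂.map_smul, smul_smul]
    push_cast
    rfl
  rw [heq] at hEB2
  have hfin := eb_smul hEB2 (c := (ε * ε)⁻¹) (by positivity)
  have : (fun X => (((ε * ε)⁻¹ : ℝ) : ℂ) • ((fun Y => ((ε * ε : ℝ) : ℂ) • (Φ₂ ∘ Φ₁) Y) X)) =
      Φ₂ ∘ Φ₁ := by
    funext X
    have h0 : (((ε * ε)⁻¹ : ℝ) : ℂ) * ((ε * ε : ℝ) : ℂ) = 1 := by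
      rw [← Complex.ofReal_mul, inv_mul_cancel₀ (by positivity)]
      simp
    simp only [smul_smul, h0, one_smul]
  rw [this] at hfin
  exact hfin

end Crest.Agent.R345
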