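import Crest.Agent.R345.InfraBasic

/-!
# Infrastructure for PPT maps (row 345), part 2

The map with a given Choi matrix, complete positivity and PPT from positive semidefinite Choi
matrices, the Choi matrix of a composition, and the range criterion.
-/

set_option autoImplicit false
set_option linter.unusedSectionVars false

namespace Crest.Agent.R345

open Crest.Quantum
open scoped ComplexOrder Kronecker

section General

variable {d e f : Type*} [Fintype d] [Fintype e] [Fintype f]
  [DecidableEq d] [DecidableEq e] [DecidableEq f]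

/-- The linear map with Choi matrix `C`. -/
def ofChoi (C : Matrix (d × e) (d × e) ℂ) : Matrix d d ℂ → Matrix e e ℂ :=
  fun X => Matrix.of fun i j => ∑ a, ∑ b, X a b * C (a, i) (b, j)

/-- Partial transposition in the second factor. -/
def ptrans (C : Matrix (d × e) (d × e) ℂ) : Matrix (d × e) (d × e) ℂ :=
  Matrix.of fun p q => C (p.1, q.2) (q.1, p.2)

theorem ofChoi_isLinearMap (C : Matrix (d × e) (d × e) ℂ) : IsLinearMap ℂ (ofChoi C) := by
  constructor
  · intro X Y
    ext i j
    simp [ofChoi, add_mul, Finset.sum_add_distrib]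
  · intro c X
    ext i j
    simp [ofChoi, Finset.mul_sum, mul_assoc]

theorem choiMatrix_ofChoi (C : Matrix (d × e) (d × e) ℂ) : choiMatrix (ofChoi C) = C := by
  ext ⟨a, i⟩ ⟨b, j⟩
  simp only [choiMatrix, ofChoi, Matrix.of_apply, Matrix.single_apply]
  rw [Finset.sum_eq_single a, Finset.sum_eq_single b]
  · simp
  · intro y _ hy
    simp [Ne.symm hy]
  · simp
  · intro x _ hx
    simp [Ne.symm hx]
  · simp

theorem ofChoi_choiMatrix {Φ : Matrix d d ℂ → Matrix e e ℂ} (hΦ : IsLinearMap ℂ Φ) :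
    ofChoi (choiMatrix Φ) = Φ := by
  funext X
  ext i j
  have hX : X = ∑ a, ∑ b, X a b • Matrix.single a b (1 : ℂ) := by
    conv_lhs => rw [Matrix.matrix_eq_sum_single X]
    simp [Matrix.smul_single]
  have h2 : Φ X = ∑ a, ∑ b, X a b • Φ (Matrix.single a b (1 : ℂ)) := by
    conv_lhs => rw [hX]
    have h3 : ∀ (ι : Type _) (s : Finset ι) (F : ι → Matrix d d ℂ),
        Φ (∑ i ∈ s, F i) = ∑ i ∈ s, Φ (F i) := fun ι s F => map_sum (hΦ.mk' Φ) F s
    rw [h3]
    refine Finset.sum_congr rfl fun a _ => ?_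
    rw [h3]
    refine Finset.sum_congr rfl fun b _ => ?_
    rw [hΦ.map_smul]
  rw [h2]
  simp [ofChoi, choiMatrix, Matrix.sum_apply]

/-- `id ⊗ ofChoi C` as a compression of a Kronecker product. -/
theorem blockwise_ofChoi {k : Type*} [Fintype k] [DecidableEq k] (C : Matrix (d × e) (d × e) ℂ)
    (M : Matrix (k × d) (k × d) ℂ) :
    blockwise (k := k) (ofChoi C) M =
      (Matrix.of fun (p : (k × d) × (d × e)) (q : k × e) =>
        if p.1.1 = q.1 ∧ p.2.2 = q.2 ∧ p.1.2 = p.2.1 then (1 : ℂ) else 0).conjTranspose *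
      (M ⊗ₖ C) *
      (Matrix.of fun (p : (k × d) × (d × e)) (q : k × e) =>
        if p.1.1 = q.1 ∧ p.2.2 = q.2 ∧ p.1.2 = p.2.1 then (1 : ℂ) else 0) := by
  ext ⟨s, i⟩ ⟨t, j⟩
  have key : ∀ (F : k → d → d → e → ℂ) (s : k) (i : e),
      (∑ x : k, ∑ y : d, ∑ z : d, ∑ w : e,
        if (x = s ∧ w = i ∧ y = z) then F x y z w else 0) = ∑ y : d, F s y y i := by
    intro F s i
    rw [Finset.sum_eq_single s]
    · refine Finset.sum_congr rfl fun y _ => ?_
      rw [Finset.sum_eq_single y, Finset.sum_eq_single i]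
      · simp
      · intro w _ hw
        simp [hw]
      · simp
      · intro z _ hz
        simp [Ne.symm hz]
      · simp
    · intro x _ hx
      simp [hx]
    · simp
  simp only [blockwise, block, ofChoi, Matrix.of_apply, Matrix.mul_apply,
    Matrix.conjTranspose_apply, Matrix.kroneckerMap_apply, Fintype.sum_prod_type]
  simp only [mul_ite, mul_one, mul_zero]
  rw [key]
  have h2 : ∀ y : d, (∑ x : k, ∑ x_1 : d, ∑ x_2 : d, ∑ x_3 : e,
      star (if x = s ∧ x_3 = i ∧ x_1 = x_2 then (1 : ℂ) else 0) *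
        (M (x, x_1) (t, y) * C (x_2, x_3) (y, j))) =
      ∑ a : d, M (s, a) (t, y) * C (a, i) (y, j) := by
    intro y
    rw [← key (fun x x_1 x_2 x_3 => M (x, x_1) (t, y) * C (x_2, x_3) (y, j)) s i]
    refine Finset.sum_congr rfl fun x _ => Finset.sum_congr rfl fun x1 _ =>
      Finset.sum_congr rfl fun x2 _ => Finset.sum_congr rfl fun x3 _ => ?_
    split_ifs <;> simp
  rw [Finset.sum_comm]
  exact Finset.sum_congr rfl fun y _ => (h2 y).symm

theorem cp_ofChoi {C : Matrix (d × e) (d × e) ℂ} (hC : C.PosSemidef) :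
    IsCompletelyPositive (ofChoi C) := by
  intro k M hM
  rw [blockwise_ofChoi]
  exact (hM.kronecker hC).conjTranspose_mul_mul_same _

theorem transpose_ofChoi (C : Matrix (d × e) (d × e) ℂ) :
    (fun M => (ofChoi C M).transpose) = ofChoi (ptrans C) := by
  funext M
  ext i j
  simp [ofChoi, ptrans]

/-- **PPT from the Choi matrix and its partial transpose.** -/
theorem ppt_ofChoi {C : Matrix (d × e) (d × e) ℂ} (hC : C.PosSemidef)
    (hC' : (ptrans C).PosSemidef) : IsPPT (ofChoi C) := by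
  refine ⟨cp_ofChoi hC, ?_⟩
  rw [transpose_ofChoi]
  exact cp_ofChoi hC'

theorem cp_of_choiMatrix {Φ : Matrix d d ℂ → Matrix e e ℂ} (hlin : IsLinearMap ℂ Φ)
    (h : (choiMatrix Φ).PosSemidef) : IsCompletelyPositive Φ := by
  rw [← ofChoi_choiMatrix hlin]
  exact cp_ofChoi h

theorem ppt_of_choiMatrix {Φ : Matrix d d ℂ → Matrix e e ℂ} (hlin : IsLinearMap ℂ Φ)
    (h : (choiMatrix Φ).PosSemidef) (h' : (ptrans (choiMatrix Φ)).PosSemidef) : IsPPT Φ := by
  rw [← ofChoi_choiMatrix hlin]
  exact ppt_ofChoi h h'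

/-- The Choi matrix of a composition (link product). -/
theorem choiMatrix_comp_ofChoi (C₂ : Matrix (e × f) (e × f) ℂ) (C₁ : Matrix (d × e) (d × e) ℂ)
    (p q : d × f) :
    choiMatrix (ofChoi C₂ ∘ ofChoi C₁) p q =
      ∑ x, ∑ y, C₁ (p.1, x) (q.1, y) * C₂ (x, p.2) (y, q.2) := by
  have h : ∀ x y, ofChoi C₁ (Matrix.single p.1 q.1 1) x y = C₁ (p.1, x) (q.1, y) := by
    intro x y
    have := congrFun (congrFun (choiMatrix_ofChoi C₁) (p.1, x)) (q.1, y)
    simpa [choiMatrix] using this
  simp only [choiMatrix, Function.comp, Matrix.of_apply]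
  simp only [ofChoi, Matrix.of_apply]
  refine Finset.sum_congr rfl fun x _ => Finset.sum_congr rfl fun y _ => ?_
  rw [← h x y]
  simp [ofChoi]

/-! ### Separability of the Choi matrix and the range criterion -/

/-- The Choi matrix is `id ⊗ Φ` applied to the (unnormalised) maximally entangled matrix. -/
theorem choiMatrix_eq_blockwise {n : ℕ} (Φ : Matrix (Fin n) (Fin n) ℂ → Matrix e e ℂ) :
    choiMatrix Φ = blockwise (k := Fin n) Φ
      (Matrix.of fun p q : Fin n × Fin n => if p.1 = p.2 ∧ q.1 = q.2 then (1 : ℂ) else 0) := by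
  ext ⟨s, i⟩ ⟨t, j⟩
  simp only [choiMatrix, blockwise, Matrix.of_apply]
  rfl

theorem maxEnt_posSemidef (n : ℕ) :
    (Matrix.of fun p q : Fin n × Fin n => if p.1 = p.2 ∧ q.1 = q.2 then (1 : ℂ) else 0).PosSemidef := by
  have h : (Matrix.of fun p q : Fin n × Fin n => if p.1 = p.2 ∧ q.1 = q.2 then (1 : ℂ) else 0) =
      Matrix.vecMulVec (fun p : Fin n × Fin n => if p.1 = p.2 then (1 : ℂ) else 0)
        (star fun p : Fin n × Fin n => if p.1 = p.2 then (1 : ℂ) else 0) := by
    ext p q
    simp only [Matrix.of_apply, Matrix.vecMulVec_apply, Pi.star_apply]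
    by_cases h1 : p.1 = p.2 <;> by_cases h2 : q.1 = q.2 <;> simp [h1, h2]
  rw [h]
  exact Matrix.posSemidef_vecMulVec_self_star _

/-- If `Φ` (with input system `Fin n`) is entanglement breaking, its Choi matrix is separable. -/
theorem separable_choiMatrix_of_eb {n : ℕ} {Φ : Matrix (Fin n) (Fin n) ℂ → Matrix e e ℂ}
    (hΦ : IsEntanglementBreaking Φ) : IsSeparable (choiMatrix Φ) := by
  rw [choiMatrix_eq_blockwise]
  exact hΦ n _ (maxEnt_posSemidef n)

end General

end Crest.Agent.R345
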