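import Crest.Agent.R345.InfraChannel

/-!
# Infrastructure for PPT maps (row 345), part 6: summary statements

`S541Data a b c` is the data needed for both statements of row 345: two linear PPT maps
`M_a → M_b → M_c` with index types of cardinality at most `10` whose composition has a nonzero
Choi matrix with product-free range.
-/

set_option autoImplicit false
set_option linter.unusedSectionVars false

namespace Crest.Agent.R345

open Crest.Quantum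
open scoped ComplexOrder Kronecker

/-- The conclusion of S0541. -/
def Concl541 : Prop :=
  ∃ Φ₁ Φ₂ : Matrix (Fin 10) (Fin 10) ℂ → Matrix (Fin 10) (Fin 10) ℂ,
    IsLinearMap ℂ Φ₁ ∧ IsLinearMap ℂ Φ₂ ∧ IsPPT Φ₁ ∧ IsPPT Φ₂ ∧
    choiMatrix (Φ₂ ∘ Φ₁) ≠ 0 ∧
    (∀ u v : Fin 10 → ℂ, (∃ w, (choiMatrix (Φ₂ ∘ Φ₁)).mulVec w = fun p => u p.1 * v p.2) →
      u = 0 ∨ v = 0) ∧
    ¬ IsEntanglementBreaking (Φ₂ ∘ Φ₁)

/-- The conclusion of S0540. -/
def Concl540 : Prop :=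
  ∃ Θ : Matrix (Fin 21) (Fin 21) ℂ → Matrix (Fin 21) (Fin 21) ℂ,
    IsChannel Θ ∧ IsPPT Θ ∧ ¬ IsEntanglementBreaking (Θ ∘ Θ)

/-- S0541 implies S0540. -/
theorem concl540_of_concl541 (h : Concl541) : Concl540 := by
  obtain ⟨Φ₁, Φ₂, hl₁, hl₂, hp₁, hp₂, -, -, hne⟩ := h
  exact s0540_of_pair Φ₁ Φ₂ hl₁ hl₂ hp₁ hp₂ hne

section Main

variable {a b c : Type*} [Fintype a] [Fintype b] [Fintype c]
  [DecidableEq a] [DecidableEq b] [DecidableEq c]

/-- Both statements from a pair of PPT maps on small systems. -/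
theorem concl541_of_maps
    (ha : Fintype.card a ≤ 10) (hb : Fintype.card b ≤ 10) (hc : Fintype.card c ≤ 10)
    (Φ₁ : Matrix a a ℂ → Matrix b b ℂ) (Φ₂ : Matrix b b ℂ → Matrix c c ℂ)
    (hl₁ : IsLinearMap ℂ Φ₁) (hl₂ : IsLinearMap ℂ Φ₂) (hp₁ : IsPPT Φ₁) (hp₂ : IsPPT Φ₂)
    (h0 : choiMatrix (Φ₂ ∘ Φ₁) ≠ 0)
    (hfree : ∀ u : a → ℂ, ∀ v : c → ℂ,
      (∃ w, (choiMatrix (Φ₂ ∘ Φ₁)).mulVec w = fun p => u p.1 * v p.2) → u = 0 ∨ v = 0) :
    Concl541 :=
  s0541_of_pair ha hb hc Φ₁ Φ₂ hl₁ hl₂ hp₁ hp₂ h0 hfree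

/-- The range of a Hermitian matrix is orthogonal to its kernel: product-freeness of the range
follows from product-freeness of the orthogonal complement of a family of kernel vectors. -/
theorem productFree_of_kernel {ι : Type*} {C : Matrix (a × c) (a × c) ℂ} (hC : C.IsHermitian)
    (r : ι → a × c → ℂ) (hr : ∀ j, C.mulVec (r j) = 0)
    (h : ∀ u : a → ℂ, ∀ v : c → ℂ,
      (∀ j, star (r j) ⬝ᵥ (fun p : a × c => u p.1 * v p.2) = 0) → u = 0 ∨ v = 0)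
    (u : a → ℂ) (v : c → ℂ) (hw : ∃ w, C.mulVec w = fun p => u p.1 * v p.2) : u = 0 ∨ v = 0 := by
  obtain ⟨w, hw⟩ := hw
  refine h u v fun j => ?_
  rw [← hw, Matrix.dotProduct_mulVec]
  have : Matrix.vecMul (star (r j)) C = 0 := by
    have := congrArg star (hr j)
    rw [Matrix.star_mulVec, hC.eq, star_zero] at this
    exact this
  rw [this, zero_dotProduct]

/-- The pair given by two Choi matrices `C₁` (on `a × b`) and `C₂` (on `b × c`).  The composed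
Choi matrix is the link product
`C (a, c) (a', c') = ∑ x y, C₁ (a, x) (a', y) * C₂ (x, c) (y, c')`. -/
theorem concl541_of_choi
    (ha : Fintype.card a ≤ 10) (hb : Fintype.card b ≤ 10) (hc : Fintype.card c ≤ 10)
    (C₁ : Matrix (a × b) (a × b) ℂ) (C₂ : Matrix (b × c) (b × c) ℂ)
    (h₁ : C₁.PosSemidef) (h₁' : (ptrans C₁).PosSemidef)
    (h₂ : C₂.PosSemidef) (h₂' : (ptrans C₂).PosSemidef)
    (h0 : (Matrix.of fun p q : a × c => ∑ x, ∑ y, C₁ (p.1, x) (q.1, y) * C₂ (x, p.2) (y, q.2)) ≠ 0)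
    (hfree : ∀ u : a → ℂ, ∀ v : c → ℂ,
      (∃ w, (Matrix.of fun p q : a × c =>
        ∑ x, ∑ y, C₁ (p.1, x) (q.1, y) * C₂ (x, p.2) (y, q.2)).mulVec w =
          fun p => u p.1 * v p.2) → u = 0 ∨ v = 0) :
    Concl541 := by
  have hchoi : choiMatrix (ofChoi C₂ ∘ ofChoi C₁) =
      Matrix.of fun p q : a × c => ∑ x, ∑ y, C₁ (p.1, x) (q.1, y) * C₂ (x, p.2) (y, q.2) := by
    ext p q
    rw [choiMatrix_comp_ofChoi]
    rfl
  refine concl541_of_maps ha hb hc (ofChoi C₁) (ofChoi C₂) (ofChoi_isLinearMap _)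
    (ofChoi_isLinearMap _) (ppt_ofChoi h₁ h₁') (ppt_ofChoi h₂ h₂') ?_ ?_
  · rw [hchoi]; exact h0
  · rw [hchoi]; exact hfree

end Main

end Crest.Agent.R345
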