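import Crest.Agent.R345.InfraRange

/-!
# Infrastructure for PPT maps (row 345), part 4

Padding: a pair of PPT maps `M_a → M_b → M_c` whose composition has a nonzero Choi matrix with
product-free range gives such a pair on `M_10` (statement S0541).
-/

set_option autoImplicit false
set_option linter.unusedSectionVars false

namespace Crest.Agent.R345

open Crest.Quantum
open scoped ComplexOrder Kronecker

section Embed

variable {a n : Type*} [Fintype a] [Fintype n] [DecidableEq a] [DecidableEq n]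

/-- The isometry `e_i ↦ e_{g i}` attached to a map of index types. -/
def embMat (g : a → n) : Matrix n a ℂ := Matrix.of fun x i => if x = g i then (1 : ℂ) else 0

theorem embMat_conjTranspose_mul {g : a → n} (hg : Function.Injective g) :
    (embMat g).conjTranspose * embMat g = 1 := by
  ext i j
  simp only [embMat, Matrix.mul_apply, Matrix.conjTranspose_apply, Matrix.of_apply,
    Matrix.one_apply]
  rw [Finset.sum_eq_single (g i)]
  · by_cases h : i = j
    · simp [h]
    · have : g i ≠ g j := fun h' => h (hg h')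
      simp [h, this]
  · intro x _ hx
    simp [hx]
  · simp

theorem embMat_conjTranspose_mul_eq_zero {b : Type*} [Fintype b] [DecidableEq b]
    {g : a → n} {g' : b → n} (h : ∀ i j, g i ≠ g' j) :
    (embMat g).conjTranspose * embMat g' = 0 := by
  ext i j
  simp only [embMat, Matrix.mul_apply, Matrix.conjTranspose_apply, Matrix.of_apply,
    Matrix.zero_apply]
  refine Finset.sum_eq_zero fun x _ => ?_
  by_cases h1 : x = g i
  · subst h1
    simp [h i j]
  · simp [h1]

theorem adMap_embMat_conjTranspose_apply (g : a → n) (X : Matrix n n ℂ) (i j : a) :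
    adMap (embMat g).conjTranspose X i j = X (g i) (g j) := by
  simp only [adMap, embMat, Matrix.mul_apply, Matrix.conjTranspose_conjTranspose,
    Matrix.conjTranspose_apply, Matrix.of_apply]
  rw [Finset.sum_eq_single (g j), Finset.sum_eq_single (g i)]
  · simp
  · intro x _ hx
    simp [hx]
  · simp
  · intro x _ hx
    simp [hx]
  · simp

theorem adMap_embMat_apply {g : a → n} (hg : Function.Injective g) (X : Matrix a a ℂ) (i j : a) :
    adMap (embMat g) X (g i) (g j) = X i j := by
  simp only [adMap, embMat, Matrix.mul_apply, Matrix.conjTranspose_apply, Matrix.of_apply]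
  rw [Finset.sum_eq_single j, Finset.sum_eq_single i]
  · simp
  · intro x _ hx
    have : g i ≠ g x := fun h => hx (hg h).symm
    simp [this]
  · simp
  · intro x _ hx
    have : g j ≠ g x := fun h => hx (hg h).symm
    simp [this]
  · simp

theorem adMap_embMat_apply_left {g : a → n} (X : Matrix a a ℂ) {x : n}
    (hx : ∀ i, x ≠ g i) (y : n) : adMap (embMat g) X x y = 0 := by
  simp only [adMap, embMat, Matrix.mul_apply, Matrix.conjTranspose_apply, Matrix.of_apply]
  refine Finset.sum_eq_zero fun j _ => ?_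
  rw [Finset.sum_eq_zero fun i _ => by simp [hx i], zero_mul]

theorem adMap_embMat_apply_right {g : a → n} (X : Matrix a a ℂ) (x : n) {y : n}
    (hy : ∀ i, y ≠ g i) : adMap (embMat g) X x y = 0 := by
  simp only [adMap, embMat, Matrix.mul_apply, Matrix.conjTranspose_apply, Matrix.of_apply]
  refine Finset.sum_eq_zero fun j _ => ?_
  simp [hy j]

end Embed

theorem isLinearMap_comp {U V W : Type*} [AddCommMonoid U] [Module ℂ U] [AddCommMonoid V]
    [Module ℂ V] [AddCommMonoid W] [Module ℂ W] {Φ : V → W} {Ψ : U → V}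
    (hΦ : IsLinearMap ℂ Φ) (hΨ : IsLinearMap ℂ Ψ) : IsLinearMap ℂ (Φ ∘ Ψ) :=
  ⟨fun x y => by simp [Function.comp, hΨ.map_add, hΦ.map_add],
    fun c x => by simp [Function.comp, hΨ.map_smul, hΦ.map_smul]⟩

section Pad

variable {a b n m : Type*} [Fintype a] [Fintype b] [Fintype n] [Fintype m]
  [DecidableEq a] [DecidableEq b] [DecidableEq n] [DecidableEq m]

/-- Pad a map `M_a → M_b` to a map `M_n → M_m`, through index maps `a → n` and `b → m`:
restrict the input to the corner `a` and put the output in the corner `b`. -/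
def padMap (g : a → n) (h : b → m) (Φ : Matrix a a ℂ → Matrix b b ℂ) :
    Matrix n n ℂ → Matrix m m ℂ :=
  adMap (embMat h) ∘ Φ ∘ adMap (embMat g).conjTranspose

theorem padMap_isLinearMap (g : a → n) (h : b → m) {Φ : Matrix a a ℂ → Matrix b b ℂ}
    (hΦ : IsLinearMap ℂ Φ) : IsLinearMap ℂ (padMap g h Φ) :=
  isLinearMap_comp (adMap_isLinearMap _) (isLinearMap_comp hΦ (adMap_isLinearMap _))

theorem padMap_ppt (g : a → n) (h : b → m) {Φ : Matrix a a ℂ → Matrix b b ℂ}
    (hΦ : IsPPT Φ) : IsPPT (padMap g h Φ) :=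
  ppt_adMap_comp _ (ppt_comp_cp hΦ (cp_adMap _))

theorem adMap_conjTranspose_comp_adMap {g : a → n} (hg : Function.Injective g) :
    (adMap (embMat g).conjTranspose ∘ adMap (embMat g) : Matrix a a ℂ → Matrix a a ℂ) = id := by
  funext X
  have h := embMat_conjTranspose_mul hg
  simp only [Function.comp, adMap, Matrix.conjTranspose_conjTranspose, id]
  calc (embMat g).conjTranspose * (embMat g * X * (embMat g).conjTranspose) * embMat g
      = ((embMat g).conjTranspose * embMat g) * X * ((embMat g).conjTranspose * embMat g) := by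
        simp only [Matrix.mul_assoc]
    _ = X := by rw [h, Matrix.one_mul, Matrix.mul_one]

theorem padMap_comp {c l : Type*} [Fintype c] [Fintype l] [DecidableEq c] [DecidableEq l]
    {g : a → n} {h : b → m} {k : c → l} (hh : Function.Injective h)
    (Φ₁ : Matrix a a ℂ → Matrix b b ℂ) (Φ₂ : Matrix b b ℂ → Matrix c c ℂ) :
    padMap h k Φ₂ ∘ padMap g h Φ₁ = padMap g k (Φ₂ ∘ Φ₁) := by
  have := adMap_conjTranspose_comp_adMap hh
  calc padMap h k Φ₂ ∘ padMap g h Φ₁
      = adMap (embMat k) ∘ Φ₂ ∘ (adMap (embMat h).conjTranspose ∘ adMap (embMat h)) ∘ Φ₁ ∘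
          adMap (embMat g).conjTranspose := rfl
    _ = padMap g k (Φ₂ ∘ Φ₁) := by rw [this]; rfl

theorem map_zero_of_linear {Φ : Matrix a a ℂ → Matrix b b ℂ} (hΦ : IsLinearMap ℂ Φ) : Φ 0 = 0 := by
  have := hΦ.map_smul 0 0
  simpa using this

/-- Choi matrix of the padded map on the corner. -/
theorem choiMatrix_padMap_apply {g : a → n} {h : b → m} (hg : Function.Injective g)
    (hh : Function.Injective h) (Φ : Matrix a a ℂ → Matrix b b ℂ) (i j : a) (x y : b) :
    choiMatrix (padMap g h Φ) (g i, h x) (g j, h y) = choiMatrix Φ (i, x) (j, y) := by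
  simp only [choiMatrix, Matrix.of_apply, padMap, Function.comp]
  rw [adMap_embMat_apply hh]
  congr 2
  ext s t
  rw [adMap_embMat_conjTranspose_apply]
  simp [Matrix.single_apply, hg.eq_iff]

theorem choiMatrix_padMap_eq_zero_left {g : a → n} {h : b → m}
    {Φ : Matrix a a ℂ → Matrix b b ℂ} (hΦ : IsLinearMap ℂ Φ) (p q : n × m)
    (hp : (∀ i, p.1 ≠ g i) ∨ (∀ i, p.2 ≠ h i)) :
    choiMatrix (padMap g h Φ) p q = 0 := by
  simp only [choiMatrix, Matrix.of_apply, padMap, Function.comp]
  rcases hp with hp | hp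
  · have : adMap (embMat g).conjTranspose (Matrix.single p.1 q.1 (1 : ℂ)) = 0 := by
      ext s t
      rw [adMap_embMat_conjTranspose_apply]
      simp [hp s]
    rw [this, map_zero_of_linear hΦ]
    simp [adMap]
  · exact adMap_embMat_apply_left _ hp _

theorem choiMatrix_padMap_eq_zero_right {g : a → n} {h : b → m}
    {Φ : Matrix a a ℂ → Matrix b b ℂ} (hΦ : IsLinearMap ℂ Φ) (p q : n × m)
    (hq : (∀ i, q.1 ≠ g i) ∨ (∀ i, q.2 ≠ h i)) :
    choiMatrix (padMap g h Φ) p q = 0 := by
  simp only [choiMatrix, Matrix.of_apply, padMap, Function.comp]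
  rcases hq with hq | hq
  · have : adMap (embMat g).conjTranspose (Matrix.single p.1 q.1 (1 : ℂ)) = 0 := by
      ext s t
      rw [adMap_embMat_conjTranspose_apply]
      simp [hq t]
    rw [this, map_zero_of_linear hΦ]
    simp [adMap]
  · exact adMap_embMat_apply_right _ _ hq

/-- Product-freeness of the range passes to the padded map. -/
theorem productFree_padMap {g : a → n} {h : b → m} (hg : Function.Injective g)
    (hh : Function.Injective h) {Φ : Matrix a a ℂ → Matrix b b ℂ} (hΦ : IsLinearMap ℂ Φ)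
    (hfree : ∀ u : a → ℂ, ∀ v : b → ℂ,
      (∃ w, (choiMatrix Φ).mulVec w = fun p => u p.1 * v p.2) → u = 0 ∨ v = 0)
    (u : n → ℂ) (v : m → ℂ)
    (hw : ∃ w, (choiMatrix (padMap g h Φ)).mulVec w = fun p => u p.1 * v p.2) :
    u = 0 ∨ v = 0 := by
  obtain ⟨w, hw⟩ := hw
  -- the product vector is supported on the corner
  have hsupp : ∀ p : n × m, ((∀ i, p.1 ≠ g i) ∨ (∀ i, p.2 ≠ h i)) → u p.1 * v p.2 = 0 := by
    intro p hp
    have h1 : (choiMatrix (padMap g h Φ)).mulVec w p = u p.1 * v p.2 := congrFun hw p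
    rw [← h1]
    simp only [Matrix.mulVec, dotProduct]
    exact Finset.sum_eq_zero fun q _ => by
      rw [choiMatrix_padMap_eq_zero_left hΦ p q hp, zero_mul]
  -- restricting to the corner
  have hcorner : (choiMatrix Φ).mulVec (fun q : a × b => w (g q.1, h q.2)) =
      fun p => u (g p.1) * v (h p.2) := by
    funext p
    have h1 : (choiMatrix (padMap g h Φ)).mulVec w (g p.1, h p.2) = u (g p.1) * v (h p.2) :=
      congrFun hw (g p.1, h p.2)
    rw [← h1]
    simp only [Matrix.mulVec, dotProduct]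
    have hinj : Function.Injective fun q : a × b => (g q.1, h q.2) := by
      intro q q' hq
      simp only [Prod.mk.injEq] at hq
      exact Prod.ext (hg hq.1) (hh hq.2)
    symm
    rw [← Finset.sum_subset (Finset.subset_univ (Finset.univ.image fun q : a × b => (g q.1, h q.2)))]
    · rw [Finset.sum_image fun x _ y _ hxy => hinj hxy]
      refine Finset.sum_congr rfl fun q _ => ?_
      rw [choiMatrix_padMap_apply hg hh]
    · intro q _ hq
      rw [choiMatrix_padMap_eq_zero_right hΦ _ q, zero_mul]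
      by_contra hcon
      push Not at hcon
      obtain ⟨⟨i, hi⟩, ⟨j, hj⟩⟩ := hcon
      exact hq (Finset.mem_image.mpr ⟨(i, j), Finset.mem_univ _, Prod.ext hi.symm hj.symm⟩)
  have hall : ∀ p : n × m, u p.1 * v p.2 = 0 := by
    intro p
    by_cases h1 : ∃ i, p.1 = g i
    · by_cases h2 : ∃ j, p.2 = h j
      · obtain ⟨i, hi⟩ := h1
        obtain ⟨j, hj⟩ := h2
        rcases hfree (fun i => u (g i)) (fun j => v (h j)) ⟨_, hcorner⟩ with h0 | h0
        · have := congrFun h0 i
          simp only [Pi.zero_apply] at this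
          rw [hi, this, zero_mul]
        · have := congrFun h0 j
          simp only [Pi.zero_apply] at this
          rw [hj, this, mul_zero]
      · push Not at h2
        exact hsupp p (Or.inr h2)
    · push Not at h1
      exact hsupp p (Or.inl h1)
  by_contra hcon
  push Not at hcon
  obtain ⟨x, hx⟩ := Function.ne_iff.mp hcon.1
  obtain ⟨y, hy⟩ := Function.ne_iff.mp hcon.2
  exact (mul_ne_zero hx hy) (hall (x, y))

theorem choiMatrix_padMap_ne_zero {g : a → n} {h : b → m} (hg : Function.Injective g)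
    (hh : Function.Injective h) {Φ : Matrix a a ℂ → Matrix b b ℂ}
    (h0 : choiMatrix Φ ≠ 0) : choiMatrix (padMap g h Φ) ≠ 0 := by
  intro hcon
  apply h0
  ext ⟨i, x⟩ ⟨j, y⟩
  rw [← choiMatrix_padMap_apply hg hh, hcon]
  rfl

end Pad

/-- **Padding lemma (S0541 from smaller systems).** -/
theorem s0541_of_pair {a b c : Type*} [Fintype a] [Fintype b] [Fintype c]
    [DecidableEq a] [DecidableEq b] [DecidableEq c]
    (ha : Fintype.card a ≤ 10) (hb : Fintype.card b ≤ 10) (hc : Fintype.card c ≤ 10)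
    (Φ₁ : Matrix a a ℂ → Matrix b b ℂ) (Φ₂ : Matrix b b ℂ → Matrix c c ℂ)
    (hl₁ : IsLinearMap ℂ Φ₁) (hl₂ : IsLinearMap ℂ Φ₂) (hp₁ : IsPPT Φ₁) (hp₂ : IsPPT Φ₂)
    (h0 : choiMatrix (Φ₂ ∘ Φ₁) ≠ 0)
    (hfree : ∀ u : a → ℂ, ∀ v : c → ℂ,
      (∃ w, (choiMatrix (Φ₂ ∘ Φ₁)).mulVec w = fun p => u p.1 * v p.2) → u = 0 ∨ v = 0) :
    ∃ Φ₁ Φ₂ : Matrix (Fin 10) (Fin 10) ℂ → Matrix (Fin 10) (Fin 10) ℂ,
      IsLinearMap ℂ Φ₁ ∧ IsLinearMap ℂ Φ₂ ∧ IsPPT Φ₁ ∧ IsPPT Φ₂ ∧
      choiMatrix (Φ₂ ∘ Φ₁) ≠ 0 ∧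
      (∀ u v : Fin 10 → ℂ, (∃ w, (choiMatrix (Φ₂ ∘ Φ₁)).mulVec w = fun p => u p.1 * v p.2) →
        u = 0 ∨ v = 0) ∧
      ¬ IsEntanglementBreaking (Φ₂ ∘ Φ₁) := by
  obtain ⟨ga, hga⟩ : ∃ g : a → Fin 10, Function.Injective g := by
    obtain ⟨g⟩ := (Function.Embedding.nonempty_iff_card_le (α := a) (β := Fin 10)).mpr (by simpa)
    exact ⟨g, g.injective⟩
  obtain ⟨gb, hgb⟩ : ∃ g : b → Fin 10, Function.Injective g := by
    obtain ⟨g⟩ := (Function.Embedding.nonempty_iff_card_le (α := b) (β := Fin 10)).mpr (by simpa)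
    exact ⟨g, g.injective⟩
  obtain ⟨gc, hgc⟩ : ∃ g : c → Fin 10, Function.Injective g := by
    obtain ⟨g⟩ := (Function.Embedding.nonempty_iff_card_le (α := c) (β := Fin 10)).mpr (by simpa)
    exact ⟨g, g.injective⟩
  have hcomp := padMap_comp (g := ga) (h := gb) (k := gc) hgb Φ₁ Φ₂
  have hl : IsLinearMap ℂ (Φ₂ ∘ Φ₁) := isLinearMap_comp hl₂ hl₁
  have hne : choiMatrix (padMap gb gc Φ₂ ∘ padMap ga gb Φ₁) ≠ 0 := by
    rw [hcomp]
    exact choiMatrix_padMap_ne_zero hga hgc h0
  have hfree' : ∀ u v : Fin 10 → ℂ,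
      (∃ w, (choiMatrix (padMap gb gc Φ₂ ∘ padMap ga gb Φ₁)).mulVec w =
        fun p => u p.1 * v p.2) → u = 0 ∨ v = 0 := by
    rw [hcomp]
    exact productFree_padMap hga hgc hl hfree
  exact ⟨padMap ga gb Φ₁, padMap gb gc Φ₂, padMap_isLinearMap _ _ hl₁, padMap_isLinearMap _ _ hl₂,
    padMap_ppt _ _ hp₁, padMap_ppt _ _ hp₂, hne, hfree', not_eb_of_productFree hne hfree'⟩

end Crest.Agent.R345
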