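import Crest.Agent.R345.InfraChoi

/-!
# Infrastructure for PPT maps (row 345), part 3

The range criterion: if the Choi matrix of a map with input `Fin n` is nonzero and its range
contains no nonzero product vector, then the map is not entanglement breaking.  Also the
criterion by a block-positive witness.
-/

set_option autoImplicit false
set_option linter.unusedSectionVars false

namespace Crest.Agent.R345

open Crest.Quantum
open scoped ComplexOrder Kronecker

section Range

variable {n : Type*} [Fintype n] [DecidableEq n]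

/-- A Hermitian matrix solves `C y = w` as soon as `w` is orthogonal to its kernel. -/
theorem exists_mulVec_eq_of_orthogonal_ker {C : Matrix n n ℂ} (hC : C.IsHermitian) (w : n → ℂ)
    (h : ∀ z, C.mulVec z = 0 → star z ⬝ᵥ w = 0) : ∃ y, C.mulVec y = w := by
  have hsym : (Matrix.toEuclideanLin C).IsSymmetric := Matrix.isSymmetric_toEuclideanLin_iff.mpr hC
  have hrange : (Matrix.toEuclideanLin C).range = (Matrix.toEuclideanLin C).kerᗮ := by
    rw [← hsym.orthogonal_range, Submodule.orthogonal_orthogonal]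
  have hw : (WithLp.toLp 2 w : EuclideanSpace ℂ n) ∈ (Matrix.toEuclideanLin C).kerᗮ := by
    rw [Submodule.mem_orthogonal]
    intro u hu
    have hu' : C.mulVec (WithLp.ofLp u) = 0 := by
      have := congrArg WithLp.ofLp (LinearMap.mem_ker.mp hu)
      simpa [Matrix.toLpLin_apply] using this
    have := h _ hu'
    rw [EuclideanSpace.inner_eq_star_dotProduct]
    rw [dotProduct_comm]
    exact this
  rw [← hrange] at hw
  obtain ⟨y, hy⟩ := hw
  refine ⟨WithLp.ofLp y, ?_⟩
  have := congrArg WithLp.ofLp hy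
  simpa [Matrix.toLpLin_apply] using this

/-- For positive semidefinite summands, `P w ∈ range (∑ i, P i)`. -/
theorem exists_mulVec_sum_eq {ι : Type*} [Fintype ι] (P : ι → Matrix n n ℂ)
    (hP : ∀ i, (P i).PosSemidef) (i : ι) (w : n → ℂ) :
    ∃ y, (∑ j, P j).mulVec y = (P i).mulVec w := by
  have hsum : (∑ j, P j).PosSemidef := Matrix.posSemidef_sum _ fun j _ => hP j
  refine exists_mulVec_eq_of_orthogonal_ker hsum.1 _ fun z hz => ?_
  have h0 : star z ⬝ᵥ (∑ j, P j).mulVec z = 0 := by rw [hz, dotProduct_zero]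
  have h1 : ∑ j, star z ⬝ᵥ (P j).mulVec z = 0 := by
    rw [← h0, Matrix.sum_mulVec, dotProduct_sum]
  have h2 : star z ⬝ᵥ (P i).mulVec z = 0 := by
    have := (Finset.sum_eq_zero_iff_of_nonneg fun j _ => (hP j).dotProduct_mulVec_nonneg z).mp h1
    exact this i (Finset.mem_univ i)
  have h3 : (P i).mulVec z = 0 := ((hP i).dotProduct_mulVec_zero_iff z).mp h2
  have h4 : Matrix.vecMul (star z) (P i) = 0 := by
    have := congrArg star h3
    rw [Matrix.star_mulVec, (hP i).1.eq, star_zero] at this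
    exact this
  rw [Matrix.dotProduct_mulVec, h4, zero_dotProduct]

end Range

section Separable

variable {k d : Type*} [Fintype k] [Fintype d] [DecidableEq k] [DecidableEq d]

theorem kronecker_mulVec_prod (A : Matrix k k ℂ) (B : Matrix d d ℂ) (x : k → ℂ) (y : d → ℂ) :
    (A ⊗ₖ B).mulVec (fun p => x p.1 * y p.2) = fun p => A.mulVec x p.1 * B.mulVec y p.2 := by
  funext p
  simp only [Matrix.mulVec, dotProduct, Matrix.kroneckerMap_apply, Fintype.sum_prod_type,
    Finset.sum_mul_sum]
  refine Finset.sum_congr rfl fun a _ => Finset.sum_congr rfl fun b _ => ?_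
  ring

theorem exists_mulVec_ne_zero {A : Matrix k k ℂ} (hA : A ≠ 0) : ∃ x, A.mulVec x ≠ 0 := by
  by_contra hcon
  push Not at hcon
  apply hA
  ext i j
  have := congrFun (hcon (Pi.single j 1)) i
  simpa using this

/-- A nonzero separable matrix has a nonzero product vector in its range. -/
theorem exists_product_of_separable {M : Matrix (k × d) (k × d) ℂ} (hM : IsSeparable M)
    (h0 : M ≠ 0) : ∃ u : k → ℂ, ∃ v : d → ℂ, u ≠ 0 ∧ v ≠ 0 ∧
      ∃ w, M.mulVec w = fun p => u p.1 * v p.2 := by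
  obtain ⟨r, A, B, hA, hB, rfl⟩ := hM
  have : ∃ i, A i ⊗ₖ B i ≠ 0 := by
    by_contra hcon
    push Not at hcon
    exact h0 (Finset.sum_eq_zero fun i _ => hcon i)
  obtain ⟨i, hi⟩ := this
  have hAi : A i ≠ 0 := by
    rintro h
    exact hi (by rw [h, Matrix.zero_kronecker])
  have hBi : B i ≠ 0 := by
    rintro h
    exact hi (by rw [h, Matrix.kronecker_zero])
  obtain ⟨x, hx⟩ := exists_mulVec_ne_zero hAi
  obtain ⟨y, hy⟩ := exists_mulVec_ne_zero hBi
  refine ⟨(A i).mulVec x, (B i).mulVec y, hx, hy, ?_⟩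
  obtain ⟨w, hw⟩ := exists_mulVec_sum_eq (fun j => A j ⊗ₖ B j)
    (fun j => (hA j).kronecker (hB j)) i (fun p => x p.1 * y p.2)
  exact ⟨w, by rw [hw, kronecker_mulVec_prod]⟩

/-- **Range criterion.** -/
theorem not_separable_of_productFree {M : Matrix (k × d) (k × d) ℂ} (h0 : M ≠ 0)
    (h : ∀ u : k → ℂ, ∀ v : d → ℂ, (∃ w, M.mulVec w = fun p => u p.1 * v p.2) → u = 0 ∨ v = 0) :
    ¬ IsSeparable M := by
  intro hM
  obtain ⟨u, v, hu, hv, hw⟩ := exists_product_of_separable hM h0
  rcases h u v hw with h | h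
  · exact hu h
  · exact hv h

end Separable

/-- **Range criterion for maps.**  If the Choi matrix of `Φ` is nonzero and its range contains no
nonzero product vector then `Φ` is not entanglement breaking. -/
theorem not_eb_of_productFree {n : ℕ} {e : Type*} [Fintype e] [DecidableEq e]
    {Φ : Matrix (Fin n) (Fin n) ℂ → Matrix e e ℂ} (h0 : choiMatrix Φ ≠ 0)
    (h : ∀ u : Fin n → ℂ, ∀ v : e → ℂ,
      (∃ w, (choiMatrix Φ).mulVec w = fun p => u p.1 * v p.2) → u = 0 ∨ v = 0) :
    ¬ IsEntanglementBreaking Φ := fun hΦ =>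
  not_separable_of_productFree h0 h (separable_choiMatrix_of_eb hΦ)

section Witness

variable {k d : Type*} [Fintype k] [Fintype d] [DecidableEq k] [DecidableEq d]

/-- `W` is block positive: nonnegative on product vectors. -/
def BlockPositive (W : Matrix (k × d) (k × d) ℂ) : Prop :=
  ∀ (u : k → ℂ) (v : d → ℂ),
    0 ≤ (star (fun p : k × d => u p.1 * v p.2) ⬝ᵥ W.mulVec (fun p : k × d => u p.1 * v p.2)).re

theorem posSemidef_eq_sum_vecMulVec {A : Matrix k k ℂ} (hA : A.PosSemidef) :
    ∃ x : k → k → ℂ, A = ∑ i, Matrix.vecMulVec (x i) (star (x i)) := by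
  obtain ⟨B, rfl⟩ : ∃ B : Matrix k k ℂ, A = B.conjTranspose * B := by
    open scoped MatrixOrder in
    obtain ⟨B, hB⟩ := CStarAlgebra.nonneg_iff_eq_star_mul_self.mp hA.nonneg
    exact ⟨B, hB⟩
  refine ⟨fun i a => star (B i a), ?_⟩
  ext a b
  simp [Matrix.mul_apply, Matrix.sum_apply, Matrix.vecMulVec_apply]

theorem trace_mul_vecMulVec (W : Matrix k k ℂ) (x : k → ℂ) :
    (W * Matrix.vecMulVec x (star x)).trace = star x ⬝ᵥ W.mulVec x := by
  rw [Matrix.mul_vecMulVec, Matrix.trace_vecMulVec, dotProduct_comm]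

theorem re_trace_nonneg_of_separable {W M : Matrix (k × d) (k × d) ℂ} (hW : BlockPositive W)
    (hM : IsSeparable M) : 0 ≤ (W * M).trace.re := by
  obtain ⟨r, A, B, hA, hB, rfl⟩ := hM
  rw [Matrix.mul_sum, Matrix.trace_sum, Complex.re_sum]
  refine Finset.sum_nonneg fun i _ => ?_
  obtain ⟨x, hx⟩ := posSemidef_eq_sum_vecMulVec (hA i)
  obtain ⟨y, hy⟩ := posSemidef_eq_sum_vecMulVec (hB i)
  have : A i ⊗ₖ B i = ∑ a, ∑ b, Matrix.vecMulVec (fun p : k × d => x a p.1 * y b p.2)
      (star fun p : k × d => x a p.1 * y b p.2) := by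
    ext p q
    rw [hx, hy]
    simp only [Matrix.kroneckerMap_apply, Matrix.sum_apply, Matrix.vecMulVec_apply, Pi.star_apply,
      Finset.sum_mul_sum, star_mul']
    refine Finset.sum_congr rfl fun a _ => Finset.sum_congr rfl fun b _ => ?_
    ring
  rw [this, Matrix.mul_sum, Matrix.trace_sum, Complex.re_sum]
  refine Finset.sum_nonneg fun a _ => ?_
  rw [Matrix.mul_sum, Matrix.trace_sum, Complex.re_sum]
  refine Finset.sum_nonneg fun b _ => ?_
  rw [trace_mul_vecMulVec]
  exact hW _ _

/-- **Witness criterion.** -/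
theorem not_eb_of_witness {n : ℕ} {e : Type*} [Fintype e] [DecidableEq e]
    {Φ : Matrix (Fin n) (Fin n) ℂ → Matrix e e ℂ} {W : Matrix (Fin n × e) (Fin n × e) ℂ}
    (hW : BlockPositive W) (h : (W * choiMatrix Φ).trace.re < 0) :
    ¬ IsEntanglementBreaking Φ := fun hΦ =>
  absurd (re_trace_nonneg_of_separable hW (separable_choiMatrix_of_eb hΦ)) (not_le.mpr h)

end Witness

end Crest.Agent.R345
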