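import Mathlib

/-!
# Kronecker substitution for elements of `ℤ[θ]` (row 345)

An integer polynomial `P` with small coefficients is represented by the natural number
`P(b) mod m`, where `m = f(b)` and `f` is a monic integer polynomial with root `θ`.
If the representative is `0 mod m` then `P(θ) = 0`.
-/

set_option autoImplicit false

namespace Crest.Agent.R345

open Polynomial

/-- The `l¹` norm of an integer polynomial. -/
noncomputable def l1 (P : ℤ[X]) : ℕ := ∑ i ∈ Finset.range (P.natDegree + 1), (P.coeff i).natAbs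

theorem l1_eq (P : ℤ[X]) (n : ℕ) (hn : P.natDegree < n) :
    l1 P = ∑ i ∈ Finset.range n, (P.coeff i).natAbs := by
  unfold l1
  refine Finset.sum_subset (fun i hi => ?_) (fun i _ hi => ?_)
  · rw [Finset.mem_range] at *; omega
  · rw [Finset.mem_range] at hi
    rw [coeff_eq_zero_of_natDegree_lt (by omega), Int.natAbs_zero]

theorem l1_zero : l1 0 = 0 := by simp [l1]

theorem l1_add_le (P Q : ℤ[X]) : l1 (P + Q) ≤ l1 P + l1 Q := by
  set n := max (max P.natDegree Q.natDegree) (P + Q).natDegree + 1 with hn
  rw [l1_eq (P + Q) n (by omega), l1_eq P n (by omega), l1_eq Q n (by omega),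
    ← Finset.sum_add_distrib]
  refine Finset.sum_le_sum fun i _ => ?_
  rw [coeff_add]
  exact Int.natAbs_add_le _ _

theorem l1_neg (P : ℤ[X]) : l1 (-P) = l1 P := by
  unfold l1
  rw [natDegree_neg]
  exact Finset.sum_congr rfl fun i _ => by rw [coeff_neg, Int.natAbs_neg]

theorem l1_sub_le (P Q : ℤ[X]) : l1 (P - Q) ≤ l1 P + l1 Q := by
  rw [sub_eq_add_neg, ← l1_neg Q]
  exact l1_add_le _ _

theorem l1_sum_le {ι : Type*} (s : Finset ι) (P : ι → ℤ[X]) :
    l1 (∑ i ∈ s, P i) ≤ ∑ i ∈ s, l1 (P i) := by
  classical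
  induction s using Finset.induction_on with
  | empty => simp [l1_zero]
  | insert a s ha ih =>
    rw [Finset.sum_insert ha, Finset.sum_insert ha]
    exact (l1_add_le _ _).trans (Nat.add_le_add_left ih _)

theorem l1_monomial_mul_le (n : ℕ) (c : ℤ) (Q : ℤ[X]) :
    l1 (monomial n c * Q) ≤ c.natAbs * l1 Q := by
  have hdeg : (monomial n c * Q).natDegree < n + (Q.natDegree + 1) := by
    refine lt_of_le_of_lt natDegree_mul_le ?_
    have := natDegree_monomial_le (R := ℤ) (m := n) c
    omega
  rw [l1_eq _ _ hdeg, Finset.sum_range_add]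
  have h1 : ∑ i ∈ Finset.range n, ((monomial n c * Q).coeff i).natAbs = 0 := by
    refine Finset.sum_eq_zero fun i hi => ?_
    rw [Finset.mem_range] at hi
    rw [← C_mul_X_pow_eq_monomial, mul_assoc, coeff_C_mul, mul_comm (X ^ n), coeff_mul_X_pow',
      if_neg (by omega), mul_zero, Int.natAbs_zero]
  rw [h1, zero_add]
  unfold l1
  rw [Finset.mul_sum]
  refine Finset.sum_le_sum fun i _ => ?_
  rw [← C_mul_X_pow_eq_monomial, mul_assoc, coeff_C_mul, mul_comm (X ^ n), coeff_mul_X_pow',
    if_pos (by omega), Nat.add_sub_cancel_left, Int.natAbs_mul]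

theorem l1_mul_le (P Q : ℤ[X]) : l1 (P * Q) ≤ l1 P * l1 Q := by
  conv_lhs => rw [P.as_sum_range, Finset.sum_mul]
  refine (l1_sum_le _ _).trans ?_
  unfold l1
  rw [Finset.sum_mul]
  exact Finset.sum_le_sum fun i _ => l1_monomial_mul_le _ _ _

theorem natAbs_eval_le (P : ℤ[X]) (b n : ℕ) (hb : 1 ≤ b) (hn : P.natDegree ≤ n) :
    (P.eval (b : ℤ)).natAbs ≤ l1 P * b ^ n := by
  rw [eval_eq_sum_range' (Nat.lt_succ_of_le hn), l1_eq P (n + 1) (by omega), Finset.sum_mul]
  refine (Int.natAbs_sum_le _ _).trans ?_
  refine Finset.sum_le_sum fun i hi => ?_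
  rw [Finset.mem_range] at hi
  rw [Int.natAbs_mul, Int.natAbs_pow, Int.natAbs_natCast]
  exact Nat.mul_le_mul_left _ (Nat.pow_le_pow_right hb (by omega))

/-- A nonzero polynomial with `l¹` norm less than `b` does not vanish at `b`. -/
theorem eval_ne_zero_of_l1_lt (P : ℤ[X]) (b : ℕ) (hP : P ≠ 0) (hb : l1 P < b) :
    P.eval (b : ℤ) ≠ 0 := by
  intro h0
  set n := P.natDegree with hn
  have hlead : P.coeff n ≠ 0 := by
    rw [hn]
    exact leadingCoeff_ne_zero.2 hP
  rw [eval_eq_sum_range, Finset.sum_range_succ, ← hn] at h0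
  have h1 : (P.coeff n * (b : ℤ) ^ n).natAbs =
      (∑ i ∈ Finset.range n, P.coeff i * (b : ℤ) ^ i).natAbs := by
    rw [← Int.natAbs_neg (∑ i ∈ Finset.range n, P.coeff i * (b : ℤ) ^ i)]
    congr 1
    linarith
  rw [Int.natAbs_mul, Int.natAbs_pow, Int.natAbs_natCast] at h1
  have hb1 : 1 ≤ b := by omega
  have hge : b ^ n ≤ (P.coeff n).natAbs * b ^ n :=
    Nat.le_mul_of_pos_left _ (Int.natAbs_pos.2 hlead)
  have hsplit : l1 P = ∑ i ∈ Finset.range n, (P.coeff i).natAbs + (P.coeff n).natAbs := by
    unfold l1
    rw [Finset.sum_range_succ, ← hn]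
  rcases Nat.eq_zero_or_pos n with hn0 | hnpos
  · rw [hn0] at h1
    simp only [pow_zero, mul_one, Finset.range_zero, Finset.sum_empty, Int.natAbs_zero] at h1
    rw [hn0] at hlead
    exact hlead (Int.natAbs_eq_zero.1 h1)
  · have hle : (∑ i ∈ Finset.range n, P.coeff i * (b : ℤ) ^ i).natAbs ≤
        (∑ i ∈ Finset.range n, (P.coeff i).natAbs) * b ^ (n - 1) := by
      rw [Finset.sum_mul]
      refine (Int.natAbs_sum_le _ _).trans (Finset.sum_le_sum fun i hi => ?_)
      rw [Finset.mem_range] at hi
      rw [Int.natAbs_mul, Int.natAbs_pow, Int.natAbs_natCast]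
      exact Nat.mul_le_mul_left _ (Nat.pow_le_pow_right hb1 (by omega))
    have hlt : (∑ i ∈ Finset.range n, (P.coeff i).natAbs) * b ^ (n - 1) < b ^ n := by
      have : b ^ n = b * b ^ (n - 1) := by
        rw [← pow_succ']
        congr 1
        omega
      rw [this]
      refine Nat.mul_lt_mul_of_pos_right ?_ (pow_pos (by omega) _)
      omega
    omega

/-- Size of the remainder. -/
theorem l1_modByMonic_le (f : ℤ[X]) (hf : f.Monic) (n : ℕ) :
    ∀ P : ℤ[X], P.natDegree < n → l1 (P %ₘ f) ≤ l1 P * l1 f ^ n := by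
  have hf1 : 1 ≤ l1 f := by
    unfold l1
    rw [Finset.sum_range_succ]
    have : (f.coeff f.natDegree).natAbs = 1 := by
      have := hf.coeff_natDegree
      rw [this]; rfl
    omega
  induction n with
  | zero => intro P hP; omega
  | succ n ih =>
    intro P hP
    rcases Nat.lt_or_ge P.natDegree f.natDegree with hlt | hge
    · rw [(modByMonic_eq_self_iff hf).2 (degree_lt_degree hlt)]
      exact Nat.le_mul_of_pos_right _ (pow_pos hf1 _)
    · rcases Nat.lt_or_ge P.natDegree n with hlt | hge'
      · refine (ih P hlt).trans ?_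
        rw [pow_succ, ← mul_assoc]
        exact Nat.le_mul_of_pos_right _ hf1
      · have hn : P.natDegree = n := by omega
        rcases eq_or_ne f.natDegree 0 with hf0 | hf0
        · have : f = 1 := by
            rw [← hf.natDegree_eq_zero]
            exact hf0
          rw [this, modByMonic_one, l1_zero]
          exact Nat.zero_le _
        set c := P.coeff n with hc
        set Q := P - monomial (n - f.natDegree) c * f with hQ
        have hdegM : (monomial (n - f.natDegree) c * f).natDegree ≤ n := by
          refine natDegree_mul_le.trans ?_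
          have := natDegree_monomial_le (R := ℤ) (m := n - f.natDegree) c
          omega
        have hQdeg : Q.natDegree < n := by
          have h1 : Q.natDegree ≤ n := (natDegree_sub_le _ _).trans (by omega)
          have h2 : Q.coeff n = 0 := by
            rw [hQ, coeff_sub, ← C_mul_X_pow_eq_monomial, mul_assoc, coeff_C_mul,
              mul_comm (X ^ _), coeff_mul_X_pow', if_pos (by omega)]
            have : n - (n - f.natDegree) = f.natDegree := by omega
            rw [this, hf.coeff_natDegree, mul_one, ← hc, sub_self]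
          refine lt_of_le_of_ne h1 fun h3 => ?_
          have h4 : Q.leadingCoeff = 0 := by rw [leadingCoeff, h3, h2]
          have h5 : Q = 0 := leadingCoeff_eq_zero.1 h4
          rw [h5, natDegree_zero] at h3
          omega
        have hmod : Q %ₘ f = P %ₘ f := by
          rw [hQ, sub_modByMonic, mul_comm, (modByMonic_eq_zero_iff_dvd hf).2 (dvd_mul_right _ _),
            sub_zero]
        have hl : l1 Q ≤ l1 P * l1 f := by
          -- coefficients
          have e1 : l1 Q ≤ (l1 P - c.natAbs) + c.natAbs * (l1 f - 1) := by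
            have hle : Q.natDegree < n := hQdeg
            rw [l1_eq Q n hle]
            have hP' : l1 P = ∑ i ∈ Finset.range n, (P.coeff i).natAbs + c.natAbs := by
              rw [l1_eq P (n + 1) (by omega), Finset.sum_range_succ]
            have hM : l1 (monomial (n - f.natDegree) c * f) =
                ∑ i ∈ Finset.range n, ((monomial (n - f.natDegree) c * f).coeff i).natAbs +
                  c.natAbs := by
              rw [l1_eq _ (n + 1) (by omega), Finset.sum_range_succ]
              congr 1
              rw [← C_mul_X_pow_eq_monomial, mul_assoc, coeff_C_mul,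
                mul_comm (X ^ _), coeff_mul_X_pow', if_pos (by omega)]
              have : n - (n - f.natDegree) = f.natDegree := by omega
              rw [this, hf.coeff_natDegree, mul_one]
            have hM2 := l1_monomial_mul_le (n - f.natDegree) c f
            have hsum : ∑ i ∈ Finset.range n, (Q.coeff i).natAbs ≤
                ∑ i ∈ Finset.range n, (P.coeff i).natAbs +
                ∑ i ∈ Finset.range n, ((monomial (n - f.natDegree) c * f).coeff i).natAbs := by
              rw [← Finset.sum_add_distrib]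
              refine Finset.sum_le_sum fun i _ => ?_
              rw [hQ, coeff_sub]
              exact Int.natAbs_sub_le _ _
            have hexp : c.natAbs * l1 f = c.natAbs * (l1 f - 1) + c.natAbs := by
              conv_lhs => rw [show l1 f = (l1 f - 1) + 1 by omega, Nat.mul_add, Nat.mul_one]
            omega
          have e2 : c.natAbs ≤ l1 P := by
            rw [l1_eq P (n + 1) (by omega), Finset.sum_range_succ]
            omega
          have e3 : l1 P * l1 f = (l1 P - c.natAbs) * l1 f + c.natAbs * l1 f := by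
            rw [← Nat.add_mul]
            congr 1
            omega
          have e4 : l1 P - c.natAbs ≤ (l1 P - c.natAbs) * l1 f := Nat.le_mul_of_pos_right _ hf1
          have e5 : c.natAbs * (l1 f - 1) ≤ c.natAbs * l1 f := Nat.mul_le_mul_left _ (by omega)
          omega
        rw [← hmod]
        refine (ih Q hQdeg).trans ?_
        calc l1 Q * l1 f ^ n ≤ (l1 P * l1 f) * l1 f ^ n := Nat.mul_le_mul_right _ hl
          _ = l1 P * l1 f ^ (n + 1) := by rw [pow_succ]; ring

/-- **Kronecker substitution modulo `f(b)`.** -/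
theorem dvd_of_eval_dvd (f : ℤ[X]) (hf : f.Monic) (hfd : 0 < f.natDegree) (b n : ℕ) (P : ℤ[X])
    (hP : P.natDegree < n) (hb : l1 P * l1 f ^ n + l1 f < b)
    (h : f.eval (b : ℤ) ∣ P.eval (b : ℤ)) : f ∣ P := by
  rw [← modByMonic_eq_zero_iff_dvd hf]
  by_contra hR
  set R := P %ₘ f with hRdef
  have hl : l1 R ≤ l1 P * l1 f ^ n := l1_modByMonic_le f hf n P hP
  have hRb : R.eval (b : ℤ) ≠ 0 := eval_ne_zero_of_l1_lt R b hR (by omega)
  have hdeg : R.natDegree ≤ f.natDegree - 1 := by
    have h1 := degree_modByMonic_lt P hf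
    have h2 : R.natDegree < f.natDegree := natDegree_lt_natDegree hR (by rw [hRdef]; exact h1)
    omega
  have hRdvd : f.eval (b : ℤ) ∣ R.eval (b : ℤ) := by
    have : R = P - f * (P /ₘ f) := by
      rw [hRdef, modByMonic_eq_sub_mul_div]
    rw [this, eval_sub, eval_mul]
    exact dvd_sub h (dvd_mul_right _ _)
  have hb1 : 1 ≤ b := by omega
  have hupper : (R.eval (b : ℤ)).natAbs ≤ l1 R * b ^ (f.natDegree - 1) :=
    natAbs_eval_le R b _ hb1 hdeg
  have hlower : (b - l1 f) * b ^ (f.natDegree - 1) ≤ (f.eval (b : ℤ)).natAbs := by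
    have h1 : f.eval (b : ℤ) = (b : ℤ) ^ f.natDegree + f.eraseLead.eval (b : ℤ) := by
      conv_lhs => rw [← f.eraseLead_add_C_mul_X_pow, eval_add, hf.leadingCoeff]
      simp [add_comm]
    have h2 : (f.eraseLead.eval (b : ℤ)).natAbs ≤ l1 f * b ^ (f.natDegree - 1) := by
      have h3 : l1 f.eraseLead ≤ l1 f := by
        rw [l1_eq f.eraseLead (f.natDegree + 1)
          (lt_of_le_of_lt (eraseLead_natDegree_le _) (by omega))]
        unfold l1
        refine Finset.sum_le_sum fun i _ => ?_
        rw [eraseLead_coeff]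
        split_ifs
        · simp
        · exact le_rfl
      refine (natAbs_eval_le _ b _ hb1 (eraseLead_natDegree_le _)).trans ?_
      exact Nat.mul_le_mul_right _ h3
    have h4 : ((b : ℤ) ^ f.natDegree).natAbs = b * b ^ (f.natDegree - 1) := by
      rw [Int.natAbs_pow, Int.natAbs_natCast, ← pow_succ']
      congr 1
      omega
    have h5 : ((b : ℤ) ^ f.natDegree).natAbs ≤
        (f.eval (b : ℤ)).natAbs + (f.eraseLead.eval (b : ℤ)).natAbs := by
      have : (b : ℤ) ^ f.natDegree = f.eval (b : ℤ) - f.eraseLead.eval (b : ℤ) := by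
        rw [h1]; ring
      rw [this]
      exact Int.natAbs_sub_le _ _
    rw [Nat.sub_mul]
    omega
  have hle : (f.eval (b : ℤ)).natAbs ≤ (R.eval (b : ℤ)).natAbs := by
    have := Int.natAbs_dvd_natAbs.2 hRdvd
    exact Nat.le_of_dvd (Int.natAbs_pos.2 hRb) this
  have hlt : l1 R * b ^ (f.natDegree - 1) < (b - l1 f) * b ^ (f.natDegree - 1) := by
    refine Nat.mul_lt_mul_of_pos_right ?_ (pow_pos (by omega) _)
    omega
  omega

end Crest.Agent.R345
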