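import Mathlib

/-!
# Reduction of bilinear systems modulo a prime (row 345)

A finite system of bilinear forms with coefficients in a ring `A ⊆ ℂ` has no common zero `(u, v)`
with `u ≠ 0`, `v ≠ 0` over `ℂ` as soon as its reduction has none over every field `k` receiving
`A` and killing a given proper ideal `I` of `A`.
-/

set_option autoImplicit false

namespace Crest.Agent.R345

open IsLocalRing

universe u

variable {K : Type u} [Field K]

/-- A valuation ring of `K` containing the image of `A` and centered over a proper ideal. -/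
theorem exists_valuationSubring_over {A : Type*} [CommRing A] (φ : A →+* K) (I : Ideal A)
    (hI : I ⊔ RingHom.ker φ ≠ ⊤) :
    ∃ B : ValuationSubring K, (∀ a, φ a ∈ B) ∧ ∀ a ∈ I, φ a ∈ B.nonunits := by
  have hsurj : Function.Surjective φ.rangeRestrict := φ.rangeRestrict_surjective
  have hne : I.map φ.rangeRestrict ≠ ⊤ := by
    intro h
    apply hI
    have h1 : (1 : φ.range) ∈ I.map φ.rangeRestrict := by rw [h]; trivial
    rw [Ideal.mem_map_iff_of_surjective _ hsurj] at h1
    obtain ⟨x, hx, hx1⟩ := h1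
    rw [Ideal.eq_top_iff_one]
    have : (1 : A) = x + (1 - x) := by ring
    rw [this]
    refine Submodule.add_mem_sup hx ?_
    rw [RingHom.mem_ker, map_sub, map_one]
    have := congrArg Subtype.val hx1
    simp only [RingHom.coe_rangeRestrict, OneMemClass.coe_one] at this
    rw [this, sub_self]
  obtain ⟨B, hB1, hB2⟩ := Ideal.image_subset_nonunits_valuationSubring _ hne
  refine ⟨B, fun a => hB1 ⟨a, rfl⟩, fun a ha => hB2 ?_⟩
  exact ⟨φ.rangeRestrict a, Ideal.mem_map_of_mem _ ha, rfl⟩

/-- Scaling a nonzero vector to a primitive one. -/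
theorem exists_primitive (B : ValuationSubring K) {n : Type*} [Finite n] (u : n → K) (hu : u ≠ 0) :
    ∃ (c : K) (w : n → B), c ≠ 0 ∧ (∀ i, (w i : K) = c * u i) ∧ ∃ i, w i = 1 := by
  obtain ⟨i₀, hi₀⟩ : ∃ i, u i ≠ 0 := by
    by_contra h
    push Not at h
    exact hu (funext h)
  have : Nonempty n := ⟨i₀⟩
  obtain ⟨m, hm⟩ := Finite.exists_max (fun i => B.valuation (u i))
  have hm0 : u m ≠ 0 := by
    intro h
    have := hm i₀
    simp only [h, map_zero, le_zero_iff, map_eq_zero] at this
    exact hi₀ this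
  have hmem : ∀ i, (u m)⁻¹ * u i ∈ B := by
    intro i
    rw [← B.valuation_le_one_iff, map_mul, map_inv₀]
    have hv : B.valuation (u m) ≠ 0 := by simpa using hm0
    calc (B.valuation (u m))⁻¹ * B.valuation (u i)
        ≤ (B.valuation (u m))⁻¹ * B.valuation (u m) := by gcongr; exact hm i
      _ = 1 := inv_mul_cancel₀ hv
  refine ⟨(u m)⁻¹, fun i => ⟨(u m)⁻¹ * u i, hmem i⟩, inv_ne_zero hm0, fun i => rfl, m, ?_⟩
  ext
  simp [inv_mul_cancel₀ hm0]

/-- **Reduction lemma.** -/
theorem noCommonZero_of_residue {A : Type*} [CommRing A] (φ : A →+* K) (I : Ideal A)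
    (hI : I ⊔ RingHom.ker φ ≠ ⊤) {ι n m : Type*} [Fintype n] [Fintype m]
    (N : ι → n → m → A)
    (h : ∀ (k : Type u) [Field k] (ψ : A →+* k), (∀ a ∈ I, ψ a = 0) → ∀ (u : n → k) (v : m → k),
      (∀ t, ∑ i, ∑ j, ψ (N t i j) * u i * v j = 0) → u = 0 ∨ v = 0)
    (u : n → K) (v : m → K) (hz : ∀ t, ∑ i, ∑ j, φ (N t i j) * u i * v j = 0) :
    u = 0 ∨ v = 0 := by
  classical
  by_contra hcon
  push Not at hcon
  obtain ⟨hu, hv⟩ := hcon
  obtain ⟨B, hB1, hB2⟩ := exists_valuationSubring_over φ I hI
  obtain ⟨c, u', hc, hu', i₁, hi₁⟩ := exists_primitive B u hu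
  obtain ⟨d, v', hd, hv', j₁, hj₁⟩ := exists_primitive B v hv
  let φB : A →+* B := φ.codRestrict B.toSubring hB1
  let ψ : A →+* ResidueField B := (residue B).comp φB
  have hψ : ∀ a ∈ I, ψ a = 0 := by
    intro a ha
    change residue B (φB a) = 0
    rw [residue_eq_zero_iff]
    have := hB2 a ha
    rw [ValuationSubring.mem_nonunits_iff_exists_mem_maximalIdeal] at this
    obtain ⟨ha', hmem⟩ := this
    exact hmem
  have hzB : ∀ t, ∑ i, ∑ j, φB (N t i j) * u' i * v' j = 0 := by
    intro t
    apply Subtype.coe_injective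
    have : (((∑ i, ∑ j, φB (N t i j) * u' i * v' j : B)) : K) =
        ∑ i, ∑ j, φ (N t i j) * (c * u i) * (d * v j) := by
      push_cast
      refine Finset.sum_congr rfl fun i _ => Finset.sum_congr rfl fun j _ => ?_
      rw [hu', hv']
      rfl
    change ((∑ i, ∑ j, φB (N t i j) * u' i * v' j : B) : K) = ((0 : B) : K)
    rw [this]
    have h2 : ∑ i, ∑ j, φ (N t i j) * (c * u i) * (d * v j) =
        c * d * ∑ i, ∑ j, φ (N t i j) * u i * v j := by
      rw [Finset.mul_sum]
      refine Finset.sum_congr rfl fun i _ => ?_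
      rw [Finset.mul_sum]
      refine Finset.sum_congr rfl fun j _ => ?_
      ring
    rw [h2, hz t, mul_zero]
    rfl
  have hz' : ∀ t, ∑ i, ∑ j, ψ (N t i j) * residue B (u' i) * residue B (v' j) = 0 := by
    intro t
    have := congrArg (residue B) (hzB t)
    rw [map_zero, map_sum] at this
    rw [← this]
    refine Finset.sum_congr rfl fun i _ => ?_
    rw [map_sum]
    refine Finset.sum_congr rfl fun j _ => ?_
    rw [map_mul, map_mul]
    rfl
  rcases h (ResidueField B) ψ hψ (fun i => residue B (u' i)) (fun j => residue B (v' j)) hz' with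
    h0 | h0
  · have := congrFun h0 i₁
    simp only [hi₁, map_one, Pi.zero_apply, one_ne_zero] at this
  · have := congrFun h0 j₁
    simp only [hj₁, map_one, Pi.zero_apply, one_ne_zero] at this

/-- Integer coefficients: it is enough to work over all fields of characteristic `p`. -/
theorem noCommonZero_of_charP [CharZero K] (p : ℕ) [hp : Fact p.Prime]
    {ι n m : Type*} [Fintype n] [Fintype m]
    (N : ι → n → m → ℤ)
    (h : ∀ (k : Type u) [Field k] [CharP k p], ∀ (u : n → k) (v : m → k),
      (∀ t, ∑ i, ∑ j, (N t i j : k) * u i * v j = 0) → u = 0 ∨ v = 0)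
    (u : n → K) (v : m → K) (hz : ∀ t, ∑ i, ∑ j, (N t i j : K) * u i * v j = 0) :
    u = 0 ∨ v = 0 := by
  refine noCommonZero_of_residue (Int.castRingHom K) (Ideal.span {(p : ℤ)}) ?_ N ?_ u v ?_
  · rw [Ideal.ne_top_iff_one]
    intro h1
    have hker : RingHom.ker (Int.castRingHom K) = ⊥ :=
      (RingHom.injective_iff_ker_eq_bot _).1 (by simpa using Int.cast_injective)
    rw [hker, sup_bot_eq, Ideal.mem_span_singleton] at h1
    have := Int.natCast_dvd_natCast.1 (by simpa using h1 : ((p : ℕ) : ℤ) ∣ ((1 : ℕ) : ℤ))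
    exact hp.out.one_lt.ne' (Nat.dvd_one.1 this)
  · intro k _ ψ hψ u' v' hz'
    have hp0 : ((p : ℕ) : k) = 0 := by
      have := hψ (p : ℤ) (Ideal.mem_span_singleton_self _)
      simpa using this
    have : CharP k p := by
      obtain ⟨q, hq⟩ := CharP.exists k
      have hdvd : q ∣ p := (CharP.cast_eq_zero_iff k q p).1 hp0
      rcases (Nat.dvd_prime hp.out).1 hdvd with h1 | h1
      · exfalso
        subst h1
        have h10 : ((1 : ℕ) : k) = 0 := CharP.cast_eq_zero k 1
        rw [Nat.cast_one] at h10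
        exact one_ne_zero h10
      · rw [← h1]; exact hq
    refine h k u' v' fun t => ?_
    have := hz' t
    simpa using this
  · intro t
    simpa using hz t

end Crest.Agent.R345
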