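import Crest.Agent.R345.PosCheck
import Crest.Agent.R345.Residue

/-!
# Final assembly helpers (row 345)
-/

set_option autoImplicit false
set_option linter.unusedSectionVars false

namespace Crest.Agent.R345

open Polynomial
open scoped ComplexOrder MatrixOrder

/-- Two layouts agree: `V i x k = V' k i x`. -/
def checkLay2 (I X K : ℕ) (V V' : A3) : Bool :=
  allN I fun i => allN X fun x => allN K fun k => entA V i x k == entA V' k i x

theorem checkLay2_sound {I X K : ℕ} {V V' : A3} (h : checkLay2 I X K V V' = true)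
    {i x k : ℕ} (hi : i < I) (hx : x < X) (hk : k < K) : entA V i x k = entA V' k i x := by
  have h1 := (allN_iff _ _).1 ((allN_iff _ _).1 ((allN_iff _ _).1 h i hi) x hx) k hk
  exact eq_of_beq h1

theorem bound_of_l1 {A e B L : ℕ} {f : ℤ[X]} (hl : l1 f ≤ L) (h : A * L ^ e + L < B) :
    A * l1 f ^ e + l1 f < B := by
  refine lt_of_le_of_lt ?_ h
  exact Nat.add_le_add (Nat.mul_le_mul_left _ (Nat.pow_le_pow_left hl e)) hl

theorem l1_X_le : l1 (X : ℤ[X]) ≤ 1 := by
  unfold l1
  rw [natDegree_X, Finset.sum_range_succ, Finset.sum_range_one, coeff_X_zero, coeff_X_one]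
  simp

/-- First coefficient. -/
def c0 (L : List ℤ) : ℤ := L.headD 0

theorem evL_zero (L : List ℤ) : evL 0 L = (c0 L : ℝ) := by
  cases L with
  | nil => simp [evL, c0]
  | cons c cs => simp [evL, c0]

/-- Comparison of `N` with its reduction modulo `p`; `N` is in layout `[t][j][i]`. -/
def checkMod (p a nt : ℕ) (N : A3) (e : ℕ → ℕ → ℕ → ℕ) : Bool :=
  allN nt fun t => allN 10 fun i => allN 10 fun j =>
    Nat.beq (Int.toNat ((pkI a (entA N t j i) - (e t i j : ℤ)) % (p : ℤ))) 0

theorem checkMod_sound {p a nt : ℕ} (hp : 0 < p) {N : A3} {e : ℕ → ℕ → ℕ → ℕ}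
    (h : checkMod p a nt N e = true) {t i j : ℕ} (ht : t < nt) (hi : i < 10) (hj : j < 10) :
    (p : ℤ) ∣ pkI a (entA N t j i) - (e t i j : ℤ) := by
  have h1 := Nat.eq_of_beq_eq_true
    ((allN_iff _ _).1 ((allN_iff _ _).1 ((allN_iff _ _).1 h t ht) i hi) j hj)
  rw [Int.toNat_eq_zero] at h1
  have h2 := Int.emod_nonneg (pkI a (entA N t j i) - (e t i j : ℤ))
    (show (p : ℤ) ≠ 0 by exact_mod_cast hp.ne')
  exact Int.dvd_of_emod_eq_zero (le_antisymm h1 h2)

/-- Product-freeness over `ℂ` from product-freeness in characteristic `p`: rational data. -/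
theorem hfree_zero {p : ℕ} [hp : Fact p.Prime] {N : A3} {e : ℕ → ℕ → ℕ → ℕ} {nt : ℕ}
    (hc : checkMod p 0 nt N e = true)
    (h : ∀ (k : Type) [Field k] [CharP k p] (u v : Fin 10 → k),
      (∀ t : Fin nt, ∑ i : Fin 10, ∑ j : Fin 10, ((e t i j : ℕ) : k) * u i * v j = 0) →
        u = 0 ∨ v = 0)
    (u v : Fin 10 → ℂ)
    (hz : ∀ t : Fin nt, ∑ i : Fin 10, ∑ j : Fin 10, (evL 0 (entA N t j i) : ℂ) * u i * v j = 0) :
    u = 0 ∨ v = 0 := by
  have hpk : ∀ L : List ℤ, pkI 0 L = c0 L := by
    intro L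
    cases L with
    | nil => simp [pkI, c0]
    | cons c cs => simp [pkI, c0]
  refine noCommonZero_of_charP (K := ℂ) p (fun (t : Fin nt) (i j : Fin 10) => c0 (entA N t j i))
    ?_ u v ?_
  · intro k _ _ u v hz
    refine h k u v fun t => ?_
    rw [← hz t]
    refine Finset.sum_congr rfl fun i _ => Finset.sum_congr rfl fun j _ => ?_
    have h1 := checkMod_sound hp.out.pos hc t.2 i.2 j.2
    rw [Nat.cast_zero, hpk] at h1
    have h2 : ((c0 (entA N t j i) - (e t i j : ℤ) : ℤ) : k) = 0 :=
      (CharP.intCast_eq_zero_iff k p _).2 h1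
    push_cast at h2
    rw [sub_eq_zero.1 h2]
  · intro t
    rw [← hz t]
    refine Finset.sum_congr rfl fun i _ => Finset.sum_congr rfl fun j _ => ?_
    rw [evL_zero]
    norm_cast

/-- A monic integer polynomial irreducible modulo `q` generates the relations of its roots. -/
theorem dvd_of_root {f : ℤ[X]} (hf : f.Monic) (hirr : Irreducible f) {θ : ℝ}
    (hθ : aeval θ f = 0) {g : ℤ[X]} (hg : aeval (θ : ℂ) g = 0) : f ∣ g := by
  have hg' : aeval θ g = 0 := by
    have : ((aeval θ g : ℝ) : ℂ) = aeval (θ : ℂ) g := by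
      rw [← Complex.coe_algebraMap, aeval_algebraMap_apply]
    rw [hg] at this
    exact_mod_cast this
  have hint : IsIntegral ℤ θ := ⟨f, hf, hθ⟩
  have hmin : minpoly ℤ θ ∣ f := minpoly.isIntegrallyClosed_dvd hint hθ
  have hu : ¬ IsUnit (minpoly ℤ θ) := minpoly.not_isUnit ℤ θ
  have hass : Associated (minpoly ℤ θ) f := by
    obtain ⟨c, hc⟩ := hmin
    rcases hirr.isUnit_or_isUnit hc with h | h
    · exact absurd h hu
    · exact ⟨h.unit, hc.symm⟩
  exact hass.symm.dvd.trans (minpoly.isIntegrallyClosed_dvd hint hg')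

/-- Product-freeness over `ℂ` from product-freeness in characteristic `p`: data in `ℤ[θ]`,
reduced at the degree one prime `(p, θ - a)`. -/
theorem hfree_root {f : ℤ[X]} (hf : f.Monic) (hirr : Irreducible f) {θ : ℝ}
    (hθ : aeval θ f = 0) {p a : ℕ} [hp : Fact p.Prime] (ha : (p : ℤ) ∣ f.eval (a : ℤ))
    {N : A3} {e : ℕ → ℕ → ℕ → ℕ} {nt : ℕ} (hc : checkMod p a nt N e = true)
    (h : ∀ (k : Type) [Field k] [CharP k p] (u v : Fin 10 → k),
      (∀ t : Fin nt, ∑ i : Fin 10, ∑ j : Fin 10, ((e t i j : ℕ) : k) * u i * v j = 0) →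
        u = 0 ∨ v = 0)
    (u v : Fin 10 → ℂ)
    (hz : ∀ t : Fin nt, ∑ i : Fin 10, ∑ j : Fin 10, (evL θ (entA N t j i) : ℂ) * u i * v j = 0) :
    u = 0 ∨ v = 0 := by
  refine noCommonZero_of_residue (aeval (R := ℤ) (θ : ℂ)).toRingHom
    (Ideal.span {(p : ℤ[X]), X - C (a : ℤ)}) ?_
    (fun (t : Fin nt) (i j : Fin 10) => poL (entA N t j i)) ?_ u v ?_
  · -- the evaluation at `a` modulo `p` kills everything
    set ev : ℤ[X] →+* ZMod p := eval₂RingHom (Int.castRingHom (ZMod p)) (a : ZMod p) with hev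
    have hle : Ideal.span {(p : ℤ[X]), X - C (a : ℤ)} ⊔
        RingHom.ker (aeval (R := ℤ) (θ : ℂ)).toRingHom ≤ RingHom.ker ev := by
      refine sup_le ?_ ?_
      · rw [Ideal.span_le]
        intro x hx
        simp only [Set.mem_insert_iff, Set.mem_singleton_iff] at hx
        rcases hx with rfl | rfl
        · simp [RingHom.mem_ker]
        · simp [RingHom.mem_ker, hev]
      · intro g hg
        obtain ⟨c, rfl⟩ := dvd_of_root hf hirr hθ (g := g) (by simpa [RingHom.mem_ker] using hg)
        rw [RingHom.mem_ker, map_mul]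
        have : ev f = 0 := by
          have h1 : ev f = ((f.eval (a : ℤ) : ℤ) : ZMod p) := by
            have h2 := eval₂_at_apply (p := f) (Int.castRingHom (ZMod p)) (a : ℤ)
            rw [hev, coe_eval₂RingHom]
            rw [eq_intCast, eq_intCast, Int.cast_natCast] at h2
            exact h2
          rw [h1]
          exact (ZMod.intCast_zmod_eq_zero_iff_dvd _ _).2 ha
        rw [this, zero_mul]
    intro htop
    rw [htop, top_le_iff] at hle
    exact (RingHom.ker_ne_top ev) hle
  · intro k _ ψ hψ u v hz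
    have hpk : ψ (p : ℤ[X]) = 0 := hψ _ (Ideal.subset_span (by simp))
    have hak : ψ X = (a : k) := by
      have := hψ (X - C (a : ℤ)) (Ideal.subset_span (by simp))
      rw [map_sub, sub_eq_zero] at this
      rw [this]
      simp
    have hchar : CharP k p := by
      have h1 : (p : k) = 0 := by simpa using hpk
      exact (CharP.charP_iff_prime_eq_zero hp.out).2 h1
    refine h k u v fun t => ?_
    rw [← hz t]
    refine Finset.sum_congr rfl fun i _ => Finset.sum_congr rfl fun j _ => ?_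
    have h1 := checkMod_sound hp.out.pos hc t.2 i.2 j.2
    have h2 : ((pkI a (entA N t j i) - (e t i j : ℤ) : ℤ) : k) = 0 :=
      (CharP.intCast_eq_zero_iff k p _).2 h1
    push_cast at h2
    have h3 : ∀ L : List ℤ, ψ (poL L) = ((pkI a L : ℤ) : k) := by
      intro L
      induction L with
      | nil => simp [poL, pkI]
      | cons c cs ih =>
        simp only [poL, pkI, map_add, map_mul, hak, ih]
        push_cast
        congr 1
        simp
    rw [h3, sub_eq_zero.1 h2]
  · intro t
    rw [← hz t]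
    refine Finset.sum_congr rfl fun i _ => Finset.sum_congr rfl fun j _ => ?_
    congr 2
    change aeval (θ : ℂ) (poL _) = _
    rw [← aeval_poL, ← Complex.coe_algebraMap, aeval_algebraMap_apply]

end Crest.Agent.R345
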