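import Crest.Agent.R345.Kron

/-!
# Packed arithmetic in `ℤ[θ]` (row 345)
-/

set_option autoImplicit false

namespace Crest.Agent.R345

open Polynomial

/-- Value of a coefficient list at `θ`. -/
noncomputable def evL (θ : ℝ) : List ℤ → ℝ
  | [] => 0
  | c :: cs => (c : ℝ) + θ * evL θ cs

/-- The polynomial of a coefficient list. -/
noncomputable def poL : List ℤ → ℤ[X]
  | [] => 0
  | c :: cs => C c + X * poL cs

/-- Packed value of a coefficient list, as an integer. -/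
def pkI (b : ℤ) : List ℤ → ℤ
  | [] => 0
  | c :: cs => c + b * pkI b cs

/-- `l¹` norm of a coefficient list. -/
def l1L : List ℤ → ℕ
  | [] => 0
  | c :: cs => c.natAbs + l1L cs

/-- Packed value modulo `m`. -/
def pk (b m : ℕ) (cs : List ℤ) : ℕ := (pkI b cs % m).toNat

/-- Dot product of lists of natural numbers. -/
def ndot (xs : List ℕ) : List ℕ → ℕ :=
  @List.rec ℕ (fun _ => List ℕ → ℕ) (fun _ => 0)
    (fun x _ ih ys => Nat.add (Nat.mul x (@List.rec ℕ (fun _ => ℕ) 0 (fun y _ _ => y) ys))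
      (ih (@List.rec ℕ (fun _ => List ℕ) [] (fun _ ys' _ => ys') ys))) xs

theorem ndot_nil (ys : List ℕ) : ndot [] ys = 0 := rfl

theorem ndot_cons_nil (x : ℕ) (xs : List ℕ) : ndot (x :: xs) [] = ndot xs [] := by
  change x * 0 + ndot xs [] = _
  rw [Nat.mul_zero, Nat.zero_add]

theorem ndot_cons_cons (x : ℕ) (xs : List ℕ) (y : ℕ) (ys : List ℕ) :
    ndot (x :: xs) (y :: ys) = x * y + ndot xs ys := rfl

/-- `x` represents the real number `z`. -/
def Rep (θ : ℝ) (b m L n x : ℕ) (z : ℝ) : Prop :=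
  ∃ P : ℤ[X], l1 P ≤ L ∧ P.natDegree ≤ n ∧ (m : ℤ) ∣ (x : ℤ) - P.eval (b : ℤ) ∧ aeval θ P = z

section

variable {θ : ℝ} {b m : ℕ}

theorem l1_C_le (c : ℤ) : l1 (C c) ≤ c.natAbs := by
  unfold l1
  rw [natDegree_C, Finset.sum_range_one, coeff_C_zero]

theorem l1_X_mul_le (P : ℤ[X]) : l1 (X * P) ≤ l1 P := by
  have h : l1 (X : ℤ[X]) ≤ 1 := by
    unfold l1
    rw [natDegree_X, Finset.sum_range_succ, Finset.sum_range_one, coeff_X_zero, coeff_X_one]
    simp
  refine (l1_mul_le _ _).trans ?_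
  calc l1 (X : ℤ[X]) * l1 P ≤ 1 * l1 P := Nat.mul_le_mul_right _ h
    _ = l1 P := one_mul _

theorem l1_poL_le (cs : List ℤ) : l1 (poL cs) ≤ l1L cs := by
  induction cs with
  | nil => simp [poL, l1L, l1_zero]
  | cons c cs ih =>
    refine (l1_add_le _ _).trans (Nat.add_le_add (l1_C_le c) ((l1_X_mul_le _).trans ih))

theorem natDegree_poL_le (cs : List ℤ) : (poL cs).natDegree ≤ cs.length := by
  induction cs with
  | nil => simp [poL]
  | cons c cs ih =>
    refine (natDegree_add_le _ _).trans (max_le (by simp) ?_)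
    refine natDegree_mul_le.trans ?_
    have := natDegree_X_le (R := ℤ)
    simp only [List.length_cons]
    omega

theorem eval_poL (cs : List ℤ) (b : ℤ) : (poL cs).eval b = pkI b cs := by
  induction cs with
  | nil => simp [poL, pkI]
  | cons c cs ih => simp [poL, pkI, ih]

theorem aeval_poL (cs : List ℤ) (θ : ℝ) : aeval θ (poL cs) = evL θ cs := by
  induction cs with
  | nil => simp [poL, evL]
  | cons c cs ih => simp [poL, evL, ih]

theorem Rep.of_list (hm : 0 < m) (cs : List ℤ) (L n : ℕ) (hL : l1L cs ≤ L) (hn : cs.length ≤ n) :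
    Rep θ b m L n (pk b m cs) (evL θ cs) := by
  refine ⟨poL cs, (l1_poL_le cs).trans hL, (natDegree_poL_le cs).trans hn, ?_, aeval_poL cs θ⟩
  rw [eval_poL]
  unfold pk
  have hm' : (m : ℤ) ≠ 0 := by exact_mod_cast hm.ne'
  rw [Int.toNat_of_nonneg (Int.emod_nonneg _ hm')]
  have := Int.emod_def (pkI b cs) m
  rw [this]
  exact ⟨-(pkI b cs / m), by ring⟩

theorem Rep.zero (L n : ℕ) : Rep θ b m L n 0 0 :=
  ⟨0, by rw [l1_zero]; exact Nat.zero_le _, by simp, by simp, by simp⟩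

theorem Rep.mono {L n L' n' x : ℕ} {z : ℝ} (h : Rep θ b m L n x z) (hL : L ≤ L') (hn : n ≤ n') :
    Rep θ b m L' n' x z := by
  obtain ⟨P, h1, h2, h3, h4⟩ := h
  exact ⟨P, h1.trans hL, h2.trans hn, h3, h4⟩

theorem Rep.add {L₁ L₂ n x y : ℕ} {z w : ℝ} (h : Rep θ b m L₁ n x z) (h' : Rep θ b m L₂ n y w) :
    Rep θ b m (L₁ + L₂) n (x + y) (z + w) := by
  obtain ⟨P, h1, h2, h3, h4⟩ := h
  obtain ⟨Q, k1, k2, k3, k4⟩ := h'
  refine ⟨P + Q, (l1_add_le _ _).trans (Nat.add_le_add h1 k1),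
    (natDegree_add_le _ _).trans (max_le h2 k2), ?_, by rw [map_add, h4, k4]⟩
  rw [eval_add]
  push_cast
  have e : (x : ℤ) + y - (P.eval (b : ℤ) + Q.eval (b : ℤ)) =
      (x - P.eval (b : ℤ)) + (y - Q.eval (b : ℤ)) := by ring
  rw [e]
  exact dvd_add h3 k3

theorem Rep.mul {L₁ L₂ n₁ n₂ x y : ℕ} {z w : ℝ} (h : Rep θ b m L₁ n₁ x z)
    (h' : Rep θ b m L₂ n₂ y w) : Rep θ b m (L₁ * L₂) (n₁ + n₂) (x * y) (z * w) := by
  obtain ⟨P, h1, h2, h3, h4⟩ := h
  obtain ⟨Q, k1, k2, k3, k4⟩ := h'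
  refine ⟨P * Q, (l1_mul_le _ _).trans (Nat.mul_le_mul h1 k1),
    natDegree_mul_le.trans (Nat.add_le_add h2 k2), ?_, by rw [map_mul, h4, k4]⟩
  rw [eval_mul]
  push_cast
  have : (x : ℤ) * y - P.eval (b : ℤ) * Q.eval (b : ℤ) =
      (x - P.eval (b : ℤ)) * y + P.eval (b : ℤ) * (y - Q.eval (b : ℤ)) := by ring
  rw [this]
  exact dvd_add (Dvd.dvd.mul_right h3 _) (Dvd.dvd.mul_left k3 _)

theorem Rep.mod {L n x : ℕ} {z : ℝ} (h : Rep θ b m L n x z) : Rep θ b m L n (x % m) z := by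
  obtain ⟨P, h1, h2, h3, h4⟩ := h
  refine ⟨P, h1, h2, ?_, h4⟩
  have h5 : ((x % m : ℕ) : ℤ) = (x : ℤ) - m * ((x / m : ℕ) : ℤ) := by
    have := Nat.mod_add_div x m
    push_cast
    have h6 : (x : ℤ) = (x : ℤ) % m + m * (x / m : ℤ) := by exact_mod_cast this.symm
    linarith
  rw [h5]
  have : (x : ℤ) - m * ((x / m : ℕ) : ℤ) - P.eval (b : ℤ) =
      (x - P.eval (b : ℤ)) - m * ((x / m : ℕ) : ℤ) := by ring
  rw [this]
  exact dvd_sub h3 (dvd_mul_right _ _)

/-- Equality test. -/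
theorem Rep.eq_of_mod {f : ℤ[X]} (hf : f.Monic) (hfd : 0 < f.natDegree) (hθ : aeval θ f = 0)
    (hm : (m : ℤ) = |f.eval (b : ℤ)|) {L₁ L₂ n x y : ℕ} {z w : ℝ}
    (h : Rep θ b m L₁ n x z) (h' : Rep θ b m L₂ n y w)
    (hb : (L₁ + L₂) * l1 f ^ (n + 1) + l1 f < b) (hxy : x % m = y % m) : z = w := by
  obtain ⟨P, h1, h2, h3, h4⟩ := h
  obtain ⟨Q, k1, k2, k3, k4⟩ := h'
  have hdvd : f.eval (b : ℤ) ∣ (P - Q).eval (b : ℤ) := by
    rw [← abs_dvd, ← hm, eval_sub]
    have hxy' : (m : ℤ) ∣ (x : ℤ) - y := by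
      have := (Nat.modEq_iff_dvd (n := m) (a := y) (b := x)).1 hxy.symm
      exact this
    have e : P.eval (b : ℤ) - Q.eval (b : ℤ) =
        ((x : ℤ) - y) - (x - P.eval (b : ℤ)) + (y - Q.eval (b : ℤ)) := by ring
    rw [e]
    exact dvd_add (dvd_sub hxy' h3) k3
  have hl : l1 (P - Q) ≤ L₁ + L₂ := (l1_sub_le _ _).trans (Nat.add_le_add h1 k1)
  have hd : (P - Q).natDegree < n + 1 :=
    Nat.lt_succ_of_le ((natDegree_sub_le _ _).trans (max_le h2 k2))
  have hfP := dvd_of_eval_dvd f hf hfd b (n + 1) (P - Q) hd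
    (lt_of_le_of_lt (Nat.add_le_add_right (Nat.mul_le_mul_right _ hl) _) hb) hdvd
  obtain ⟨R, hR⟩ := hfP
  have : aeval θ (P - Q) = 0 := by rw [hR, map_mul, hθ, zero_mul]
  rw [map_sub, h4, k4] at this
  exact sub_eq_zero.1 this

/-- A list representing the first `N` values of a function. -/
def RepL (θ : ℝ) (b m L n : ℕ) (xs : List ℕ) (N : ℕ) (a : ℕ → ℝ) : Prop :=
  xs.length = N ∧ ∀ i < N, Rep θ b m L n (xs.getD i 0) (a i)

theorem RepL.ndot {L₁ L₂ n₁ n₂ : ℕ} {xs ys : List ℕ} {N : ℕ} {a c : ℕ → ℝ}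
    (hx : RepL θ b m L₁ n₁ xs N a) (hy : RepL θ b m L₂ n₂ ys N c) :
    Rep θ b m (N * (L₁ * L₂)) (n₁ + n₂) (ndot xs ys) (∑ i ∈ Finset.range N, a i * c i) := by
  obtain ⟨hxl, hx⟩ := hx
  obtain ⟨hyl, hy⟩ := hy
  induction xs generalizing ys N a c with
  | nil =>
    subst hxl
    simp only [List.length_nil, Finset.range_zero, Finset.sum_empty, ndot_nil]
    exact Rep.zero _ _
  | cons x xs ih =>
    cases ys with
    | nil => rw [List.length_nil] at hyl; rw [List.length_cons] at hxl; omega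
    | cons y ys =>
      obtain ⟨N, rfl⟩ : ∃ N', N = N' + 1 := ⟨xs.length, by rw [← hxl]; rfl⟩
      rw [List.length_cons] at hxl hyl
      rw [ndot_cons_cons, Finset.sum_range_succ', add_comm (∑ k ∈ Finset.range N, _)]
      have h0 : Rep θ b m (L₁ * L₂) (n₁ + n₂) (x * y) (a 0 * c 0) :=
        (hx 0 (by omega)).mul (hy 0 (by omega))
      have h1 := ih (ys := ys) (N := N) (a := fun i => a (i + 1)) (c := fun i => c (i + 1))
        (by omega) (fun i hi => hx (i + 1) (by omega)) (by omega)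
        (fun i hi => hy (i + 1) (by omega))
      have := h0.add h1
      rw [show L₁ * L₂ + N * (L₁ * L₂) = (N + 1) * (L₁ * L₂) by ring] at this
      exact this

theorem RepL.of_map {L n : ℕ} {α : Type*} {l : List α} {N : ℕ} (hl : l.length = N)
    {g : α → ℕ} {a : ℕ → ℝ} {d : α} (h : ∀ i < N, Rep θ b m L n (g (l.getD i d)) (a i)) :
    RepL θ b m L n (l.map g) N a := by
  refine ⟨by rw [List.length_map, hl], fun i hi => ?_⟩
  have hi' : i < l.length := by omega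
  have := h i hi
  rw [List.getD_eq_getElem _ _ hi'] at this
  rw [List.getD_eq_getElem _ _ (by rw [List.length_map]; exact hi'), List.getElem_map]
  exact this

end

end Crest.Agent.R345
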