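import Crest.Agent.R345.NFBasic
import Crest.Agent.R345.GramH

/-!
# Kernel checks for Gram pairs with entries in `ℤ[θ] + i ℤ[θ]` (row 345)
-/

set_option autoImplicit false
set_option linter.unusedSectionVars false

namespace Crest.Agent.R345

open Polynomial

/-- `∀ i < n, f i`. -/
def allN (n : ℕ) (f : ℕ → Bool) : Bool := Nat.rec true (fun k ih => f k && ih) n

theorem allN_iff (n : ℕ) (f : ℕ → Bool) : allN n f = true ↔ ∀ i < n, f i = true := by
  induction n with
  | zero => simp [allN]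
  | succ n ih =>
    have : allN (n + 1) f = (f n && allN n f) := rfl
    rw [this, Bool.and_eq_true, ih]
    constructor
    · rintro ⟨h1, h2⟩ i hi
      rcases Nat.lt_succ_iff_lt_or_eq.1 hi with h | rfl
      · exact h2 i h
      · exact h1
    · intro h
      exact ⟨h n (Nat.lt_succ_self n), fun i hi => h i (Nat.lt_succ_of_lt hi)⟩

/-- Rows of a three-level array. -/
abbrev A3 := List (List (List (List ℤ)))

/-- Row. -/
def rowA (V : A3) (i x : ℕ) : List (List ℤ) := (V.getD i []).getD x []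

/-- Entry. -/
def entA (V : A3) (i x k : ℕ) : List ℤ := (rowA V i x).getD k []

/-- Packed row. -/
def rowP (b m : ℕ) (V : A3) (i x : ℕ) : List ℕ := (rowA V i x).map (pk b m)

/-- Shape check: row lengths, coefficient list lengths, `l¹` norms. -/
def shapeA (I X K D L : ℕ) (V : A3) : Bool :=
  allN I fun i => allN X fun x =>
    Nat.beq (rowA V i x).length K && (rowA V i x).all fun c =>
      Nat.ble c.length D && Nat.ble (l1L c) L

/-- Vector `U`. -/
def uvec (m r : ℕ) (A B : ℕ → List ℕ) (x y : List ℕ) : List ℕ :=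
  (List.range r).map fun l => Nat.mod (Nat.add (ndot (A l) x) (ndot (B l) y)) m

/-- One comparison of the transposition check. -/
def cmpT (m : ℕ) (ur ui vr vi : ℕ → ℕ → List ℕ) (i j x y : ℕ) : Bool :=
  Nat.beq (Nat.mod (Nat.add (ndot (ur i x) (vr j y)) (ndot (ui i x) (vi j y))) m)
    (Nat.mod (Nat.add (ndot (ur j x) (vr i y)) (ndot (ui j x) (vi i y))) m) &&
  Nat.beq (Nat.mod (Nat.add (ndot (ui i x) (vr j y)) (ndot (ur j x) (vi i y))) m)
    (Nat.mod (Nat.add (ndot (ui j x) (vr i y)) (ndot (ur i x) (vi j y))) m)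

section

variable {θ : ℝ} {b m : ℕ}

/-- Data of a Hermitian-weighted family of vectors, in the layout `[i][x][k]`. -/
theorem rowP_repL (hm : 0 < m) {I X K D L : ℕ} {V : A3} (hV : shapeA I X K D L V = true)
    {i x : ℕ} (hi : i < I) (hx : x < X) :
    RepL θ b m L D (rowP b m V i x) K fun k => evL θ (entA V i x k) := by
  have h1 := (allN_iff _ _).1 ((allN_iff _ _).1 hV i hi) x hx
  rw [Bool.and_eq_true, List.all_eq_true] at h1
  have hlen : (rowA V i x).length = K := Nat.eq_of_beq_eq_true h1.1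
  refine RepL.of_map (d := []) hlen fun k hk => ?_
  have hmem : (rowA V i x).getD k [] ∈ rowA V i x := by
    rw [List.getD_eq_getElem _ _ (by omega)]
    exact List.getElem_mem _
  have h2 := h1.2 _ hmem
  rw [Bool.and_eq_true] at h2
  exact Rep.of_list hm _ L D (Nat.le_of_ble_eq_true h2.2) (Nat.le_of_ble_eq_true h2.1)

theorem uvec_repL {L₁ L₂ n₁ n₂ r K : ℕ} {A B : ℕ → List ℕ} {x y : List ℕ}
    {a c : ℕ → ℕ → ℝ} {s t : ℕ → ℝ}
    (hA : ∀ l < r, RepL θ b m L₁ n₁ (A l) K (a l)) (hB : ∀ l < r, RepL θ b m L₁ n₁ (B l) K (c l))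
    (hx : RepL θ b m L₂ n₂ x K s) (hy : RepL θ b m L₂ n₂ y K t) :
    RepL θ b m (2 * (K * (L₁ * L₂))) (n₁ + n₂) (uvec m r A B x y) r fun l =>
      ∑ k ∈ Finset.range K, a l k * s k + ∑ k ∈ Finset.range K, c l k * t k := by
  refine RepL.of_map (d := 0) List.length_range fun l hl => ?_
  have hl' : (List.range r).getD l 0 = l := by
    rw [List.getD_eq_getElem _ _ (by rw [List.length_range]; exact hl), List.getElem_range]
  rw [hl']
  have h1 := (RepL.ndot (hA l hl) hx).add (RepL.ndot (hB l hl) hy)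
  have h2 := h1.mod
  rw [show K * (L₁ * L₂) + K * (L₁ * L₂) = 2 * (K * (L₁ * L₂)) by ring] at h2
  exact h2

end

end Crest.Agent.R345

namespace Crest.Agent.R345

open Polynomial

/-- Negated packed row. -/
def rowPn (b m : ℕ) (V : A3) (i x : ℕ) : List ℕ :=
  (rowA V i x).map fun c => pk b m (c.map Int.neg)

theorem evL_neg (θ : ℝ) (cs : List ℤ) : evL θ (cs.map Int.neg) = -evL θ cs := by
  induction cs with
  | nil => simp [evL]
  | cons c cs ih =>
    change ((Int.neg c : ℤ) : ℝ) + θ * evL θ (cs.map Int.neg) = -((c : ℝ) + θ * evL θ cs)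
    rw [ih]
    have : ((Int.neg c : ℤ) : ℝ) = -(c : ℝ) := by
      have h : Int.neg c = -c := rfl
      rw [h]; push_cast; ring
    rw [this]
    ring

theorem l1L_neg (cs : List ℤ) : l1L (cs.map Int.neg) = l1L cs := by
  induction cs with
  | nil => rfl
  | cons c cs ih =>
    change (Int.neg c).natAbs + l1L (cs.map Int.neg) = c.natAbs + l1L cs
    rw [ih]
    have h : Int.neg c = -c := rfl
    rw [h, Int.natAbs_neg]

/-- Sum of `f j`, `j < n`. -/
def sumN (n : ℕ) (f : ℕ → ℕ) : ℕ := Nat.rec 0 (fun k ih => Nat.add (f k) ih) n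

/-- The transposition check. -/
def checkTH (b m na nb r : ℕ) (HR HI VR VI : A3) : Bool :=
  allN na fun i => allN i fun j => allN nb fun x => allN nb fun y =>
    cmpT m
      (fun i x => uvec m r (rowP b m HR 0) (rowPn b m HI 0) (rowP b m VR i x) (rowP b m VI i x))
      (fun i x => uvec m r (rowP b m HR 0) (rowP b m HI 0) (rowP b m VI i x) (rowP b m VR i x))
      (rowP b m VR) (rowP b m VI) i j x y

/-- The annihilation check; `N` in layout `[t][j][i]`, `V` in layout `[k][x][i]`, `W` in layout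
`[l][j][x]`. -/
def checkNH (b m nb nc t₀ nt r₁ r₂ : ℕ) (N VR VI WR WI : A3) : Bool :=
  allN nt fun t => allN r₁ fun k => allN r₂ fun l =>
    (fun yr yi : ℕ → List ℕ =>
      Nat.beq (Nat.mod (sumN nc fun j => ndot (yr j) (rowP b m WR l j)) m)
        (Nat.mod (sumN nc fun j => ndot (yi j) (rowP b m WI l j)) m) &&
      Nat.beq (Nat.mod (Nat.add (sumN nc fun j => ndot (yr j) (rowP b m WI l j))
        (sumN nc fun j => ndot (yi j) (rowP b m WR l j))) m) 0)
      (fun j => (List.range nb).map fun x =>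
        Nat.mod (ndot (rowP b m N (t₀ + t) j) (rowP b m VR k x)) m)
      (fun j => (List.range nb).map fun x =>
        Nat.mod (ndot (rowP b m N (t₀ + t) j) (rowP b m VI k x)) m)

/-- Two layouts agree: `V i x k = V' k x i`. -/
def checkLay (I X K : ℕ) (V V' : A3) : Bool :=
  allN I fun i => allN X fun x => allN K fun k => entA V i x k == entA V' k x i

section

variable {θ : ℝ} {b m : ℕ}

theorem rowPn_repL (hm : 0 < m) {I X K D L : ℕ} {V : A3} (hV : shapeA I X K D L V = true)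
    {i x : ℕ} (hi : i < I) (hx : x < X) :
    RepL θ b m L D (rowPn b m V i x) K fun k => -evL θ (entA V i x k) := by
  have h1 := (allN_iff _ _).1 ((allN_iff _ _).1 hV i hi) x hx
  rw [Bool.and_eq_true, List.all_eq_true] at h1
  have hlen : (rowA V i x).length = K := Nat.eq_of_beq_eq_true h1.1
  refine RepL.of_map (d := []) hlen fun k hk => ?_
  have hmem : (rowA V i x).getD k [] ∈ rowA V i x := by
    rw [List.getD_eq_getElem _ _ (by omega)]
    exact List.getElem_mem _
  have h2 := h1.2 _ hmem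
  rw [Bool.and_eq_true] at h2
  have := Rep.of_list (θ := θ) (b := b) hm (((rowA V i x).getD k []).map Int.neg) L D
    (by rw [l1L_neg]; exact Nat.le_of_ble_eq_true h2.2)
    (by rw [List.length_map]; exact Nat.le_of_ble_eq_true h2.1)
  rw [evL_neg] at this
  exact this

theorem Rep.sumN {L n N : ℕ} {f : ℕ → ℕ} {a : ℕ → ℝ} (h : ∀ j < N, Rep θ b m L n (f j) (a j)) :
    Rep θ b m (N * L) n (sumN N f) (∑ j ∈ Finset.range N, a j) := by
  induction N with
  | zero =>
    simp only [Finset.range_zero, Finset.sum_empty]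
    exact Rep.zero _ _
  | succ N ih =>
    rw [Finset.sum_range_succ, add_comm (∑ j ∈ Finset.range N, a j)]
    have h1 := (h N (Nat.lt_succ_self N)).add (ih fun j hj => h j (Nat.lt_succ_of_lt hj))
    rw [show L + N * L = (N + 1) * L by ring] at h1
    exact h1

/-- Complex entry. -/
noncomputable def cx (θ : ℝ) (VR VI : A3) (i x k : ℕ) : ℂ :=
  (evL θ (entA VR i x k) : ℂ) + (evL θ (entA VI i x k) : ℂ) * Complex.I

theorem checkTH_sound {f : ℤ[X]} (hf : f.Monic) (hfd : 0 < f.natDegree) (hθ : aeval θ f = 0)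
    (hm : (m : ℤ) = |f.eval (b : ℤ)|) (hm0 : 0 < m)
    {na nb r D LH LV : ℕ} {HR HI VR VI : A3}
    (hHR : shapeA 1 r r D LH HR = true) (hHI : shapeA 1 r r D LH HI = true)
    (hVR : shapeA na nb r D LV VR = true) (hVI : shapeA na nb r D LV VI = true)
    (hb : (2 * (2 * (r * ((2 * (r * (LH * LV))) * LV)))) * l1 f ^ (3 * D + 1) + l1 f < b)
    (h : checkTH b m na nb r HR HI VR VI = true)
    {i j x y : ℕ} (hi : i < na) (hj : j < na) (hx : x < nb) (hy : y < nb) :
    ∑ k ∈ Finset.range r, ∑ l ∈ Finset.range r,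
      cx θ HR HI 0 l k * cx θ VR VI i x k * star (cx θ VR VI j y l) =
    ∑ k ∈ Finset.range r, ∑ l ∈ Finset.range r,
      cx θ HR HI 0 l k * cx θ VR VI j x k * star (cx θ VR VI i y l) := by
  -- notation
  set hr : ℕ → ℕ → ℝ := fun l k => evL θ (entA HR 0 l k) with hhr
  set hi' : ℕ → ℕ → ℝ := fun l k => evL θ (entA HI 0 l k) with hhi
  set vr : ℕ → ℕ → ℕ → ℝ := fun i x k => evL θ (entA VR i x k) with hvr
  set vi : ℕ → ℕ → ℕ → ℝ := fun i x k => evL θ (entA VI i x k) with hvi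
  set ur : ℕ → ℕ → ℕ → ℝ := fun i x l =>
    ∑ k ∈ Finset.range r, hr l k * vr i x k + ∑ k ∈ Finset.range r, (-hi' l k) * vi i x k with hur
  set ui : ℕ → ℕ → ℕ → ℝ := fun i x l =>
    ∑ k ∈ Finset.range r, hr l k * vi i x k + ∑ k ∈ Finset.range r, hi' l k * vr i x k with hui
  have hsum : ∀ i x j y, ∑ k ∈ Finset.range r, ∑ l ∈ Finset.range r,
      cx θ HR HI 0 l k * cx θ VR VI i x k * star (cx θ VR VI j y l) =
      ((∑ l ∈ Finset.range r, ur i x l * vr j y l + ∑ l ∈ Finset.range r, ui i x l * vi j y l : ℝ) :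
        ℂ) + ((∑ l ∈ Finset.range r, ui i x l * vr j y l -
        ∑ l ∈ Finset.range r, ur i x l * vi j y l : ℝ) : ℂ) * Complex.I := by
    intro i x j y
    rw [Finset.sum_comm]
    push_cast
    rw [← Finset.sum_add_distrib, ← Finset.sum_sub_distrib, Finset.sum_mul,
      ← Finset.sum_add_distrib]
    refine Finset.sum_congr rfl fun l _ => ?_
    have e1 : ∑ k ∈ Finset.range r, cx θ HR HI 0 l k * cx θ VR VI i x k =
        ((ur i x l : ℝ) : ℂ) + ((ui i x l : ℝ) : ℂ) * Complex.I := by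
      simp only [hur, hui]
      push_cast
      rw [← Finset.sum_add_distrib, ← Finset.sum_add_distrib, Finset.sum_mul,
        ← Finset.sum_add_distrib]
      refine Finset.sum_congr rfl fun k _ => ?_
      simp only [cx, hhr, hhi, hvr, hvi]
      linear_combination ((evL θ (entA HI 0 l k) : ℂ) * (evL θ (entA VI i x k) : ℂ)) *
        Complex.I_mul_I
    rw [← Finset.sum_mul, e1]
    have e2 : star (cx θ VR VI j y l) =
        ((vr j y l : ℝ) : ℂ) - ((vi j y l : ℝ) : ℂ) * Complex.I := by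
      simp only [cx, hvr, hvi]
      rw [Complex.star_def, map_add, map_mul, Complex.conj_ofReal, Complex.conj_ofReal,
        Complex.conj_I]
      ring
    rw [e2]
    linear_combination (-((ui i x l : ℝ) : ℂ) * ((vi j y l : ℝ) : ℂ)) * Complex.I_mul_I
  -- representations
  have RHR : ∀ l < r, RepL θ b m LH D (rowP b m HR 0 l) r (hr l) := fun l hl =>
    rowP_repL hm0 hHR Nat.one_pos hl
  have RHI : ∀ l < r, RepL θ b m LH D (rowP b m HI 0 l) r (hi' l) := fun l hl =>
    rowP_repL hm0 hHI Nat.one_pos hl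
  have RHIn : ∀ l < r, RepL θ b m LH D (rowPn b m HI 0 l) r (fun k => -hi' l k) := fun l hl =>
    rowPn_repL hm0 hHI Nat.one_pos hl
  have RVR : ∀ i < na, ∀ x < nb, RepL θ b m LV D (rowP b m VR i x) r (vr i x) := fun i hi x hx =>
    rowP_repL hm0 hVR hi hx
  have RVI : ∀ i < na, ∀ x < nb, RepL θ b m LV D (rowP b m VI i x) r (vi i x) := fun i hi x hx =>
    rowP_repL hm0 hVI hi hx
  have RUR : ∀ i < na, ∀ x < nb, RepL θ b m (2 * (r * (LH * LV))) (D + D)
      (uvec m r (rowP b m HR 0) (rowPn b m HI 0) (rowP b m VR i x) (rowP b m VI i x)) r (ur i x) :=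
    fun i hi x hx => uvec_repL RHR RHIn (RVR i hi x hx) (RVI i hi x hx)
  have RUI : ∀ i < na, ∀ x < nb, RepL θ b m (2 * (r * (LH * LV))) (D + D)
      (uvec m r (rowP b m HR 0) (rowP b m HI 0) (rowP b m VI i x) (rowP b m VR i x)) r (ui i x) :=
    fun i hi x hx => uvec_repL RHR RHI (RVI i hi x hx) (RVR i hi x hx)
  have key : ∀ i < na, ∀ j < i, ∀ x < nb, ∀ y < nb,
      (∑ l ∈ Finset.range r, ur i x l * vr j y l + ∑ l ∈ Finset.range r, ui i x l * vi j y l =
        ∑ l ∈ Finset.range r, ur j x l * vr i y l + ∑ l ∈ Finset.range r, ui j x l * vi i y l) ∧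
      (∑ l ∈ Finset.range r, ui i x l * vr j y l + ∑ l ∈ Finset.range r, ur j x l * vi i y l =
        ∑ l ∈ Finset.range r, ui j x l * vr i y l + ∑ l ∈ Finset.range r, ur i x l * vi j y l) := by
    intro i hi j hji x hx y hy
    have hj : j < na := by omega
    have h1 := (allN_iff _ _).1 ((allN_iff _ _).1 ((allN_iff _ _).1 ((allN_iff _ _).1 h i hi) j
      hji) x hx) y hy
    rw [cmpT, Bool.and_eq_true] at h1
    have hdeg : D + D + D + 1 = 3 * D + 1 := by ring
    refine ⟨?_, ?_⟩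
    · refine Rep.eq_of_mod hf hfd hθ hm
        ((RepL.ndot (RUR i hi x hx) (RVR j hj y hy)).add (RepL.ndot (RUI i hi x hx) (RVI j hj y hy)))
        ((RepL.ndot (RUR j hj x hx) (RVR i hi y hy)).add (RepL.ndot (RUI j hj x hx) (RVI i hi y hy)))
        ?_ (Nat.eq_of_beq_eq_true h1.1)
      rw [hdeg]
      refine lt_of_le_of_lt (le_of_eq ?_) hb
      ring
    · refine Rep.eq_of_mod hf hfd hθ hm
        ((RepL.ndot (RUI i hi x hx) (RVR j hj y hy)).add (RepL.ndot (RUR j hj x hx) (RVI i hi y hy)))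
        ((RepL.ndot (RUI j hj x hx) (RVR i hi y hy)).add (RepL.ndot (RUR i hi x hx) (RVI j hj y hy)))
        ?_ (Nat.eq_of_beq_eq_true h1.2)
      rw [hdeg]
      refine lt_of_le_of_lt (le_of_eq ?_) hb
      ring
  rw [hsum, hsum]
  rcases lt_trichotomy i j with hlt | heq | hgt
  · obtain ⟨k1, k2⟩ := key j hj i hlt x hx y hy
    rw [k1]
    congr 2
    norm_cast
    linarith
  · subst heq; rfl
  · obtain ⟨k1, k2⟩ := key i hi j hgt x hx y hy
    rw [k1]
    congr 2
    norm_cast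
    linarith

end

end Crest.Agent.R345

namespace Crest.Agent.R345

open Polynomial

section

variable {θ : ℝ} {b m : ℕ}

theorem checkNH_sound {f : ℤ[X]} (hf : f.Monic) (hfd : 0 < f.natDegree) (hθ : aeval θ f = 0)
    (hm : (m : ℤ) = |f.eval (b : ℤ)|) (hm0 : 0 < m)
    {na nb nc t₀ nt NT r₁ r₂ D LN LV LW : ℕ} {N VR VI WR WI : A3}
    (hN : shapeA NT nc na D LN N = true)
    (hVR : shapeA r₁ nb na D LV VR = true) (hVI : shapeA r₁ nb na D LV VI = true)
    (hWR : shapeA r₂ nc nb D LW WR = true) (hWI : shapeA r₂ nc nb D LW WI = true)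
    (hb : 2 * (nc * (nb * ((na * (LN * LV)) * LW))) * l1 f ^ (3 * D + 1) + l1 f < b)
    (h : checkNH b m nb nc t₀ nt r₁ r₂ N VR VI WR WI = true)
    {t k l : ℕ} (ht : t < nt) (htN : t₀ + t < NT) (hk : k < r₁) (hl : l < r₂) :
    ∑ i ∈ Finset.range na, ∑ j ∈ Finset.range nc, (evL θ (entA N (t₀ + t) j i) : ℂ) *
      ∑ x ∈ Finset.range nb, cx θ VR VI k x i * cx θ WR WI l j x = 0 := by
  set T := t₀ + t with hT
  have RN : ∀ j < nc, RepL θ b m LN D (rowP b m N T j) na fun i => evL θ (entA N T j i) :=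
    fun j hj => rowP_repL hm0 hN htN hj
  have RVR : ∀ x < nb, RepL θ b m LV D (rowP b m VR k x) na fun i => evL θ (entA VR k x i) :=
    fun x hx => rowP_repL hm0 hVR hk hx
  have RVI : ∀ x < nb, RepL θ b m LV D (rowP b m VI k x) na fun i => evL θ (entA VI k x i) :=
    fun x hx => rowP_repL hm0 hVI hk hx
  have RWR : ∀ j < nc, RepL θ b m LW D (rowP b m WR l j) nb fun x => evL θ (entA WR l j x) :=
    fun j hj => rowP_repL hm0 hWR hl hj
  have RWI : ∀ j < nc, RepL θ b m LW D (rowP b m WI l j) nb fun x => evL θ (entA WI l j x) :=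
    fun j hj => rowP_repL hm0 hWI hl hj
  have RY : ∀ (V : A3), (∀ x < nb, RepL θ b m LV D (rowP b m V k x) na
      fun i => evL θ (entA V k x i)) → ∀ j < nc,
      RepL θ b m (na * (LN * LV)) (D + D) ((List.range nb).map fun x =>
        Nat.mod (ndot (rowP b m N T j) (rowP b m V k x)) m) nb
        fun x => ∑ i ∈ Finset.range na, evL θ (entA N T j i) * evL θ (entA V k x i) := by
    intro V RV j hj
    refine RepL.of_map (d := 0) List.length_range fun x hx => ?_
    have hx' : (List.range nb).getD x 0 = x := by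
      rw [List.getD_eq_getElem _ _ (by rw [List.length_range]; exact hx), List.getElem_range]
    rw [hx']
    exact (RepL.ndot (RN j hj) (RV x hx)).mod
  have h1 := (allN_iff _ _).1 ((allN_iff _ _).1 ((allN_iff _ _).1 h t ht) k hk) l hl
  simp only [Bool.and_eq_true] at h1
  obtain ⟨h1, h2⟩ := h1
  have e1 := Nat.eq_of_beq_eq_true h1
  have e2 := Nat.eq_of_beq_eq_true h2
  have hdeg : D + D + D + 1 = 3 * D + 1 := by ring
  set yr : ℕ → ℕ → ℝ := fun j x =>
    ∑ i ∈ Finset.range na, evL θ (entA N T j i) * evL θ (entA VR k x i) with hyr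
  set yi : ℕ → ℕ → ℝ := fun j x =>
    ∑ i ∈ Finset.range na, evL θ (entA N T j i) * evL θ (entA VI k x i) with hyi
  set wr : ℕ → ℕ → ℝ := fun j x => evL θ (entA WR l j x) with hwr
  set wi : ℕ → ℕ → ℝ := fun j x => evL θ (entA WI l j x) with hwi
  have k1 : ∑ j ∈ Finset.range nc, ∑ x ∈ Finset.range nb, yr j x * wr j x =
      ∑ j ∈ Finset.range nc, ∑ x ∈ Finset.range nb, yi j x * wi j x := by
    refine Rep.eq_of_mod hf hfd hθ hm
      (Rep.sumN fun j hj => RepL.ndot (RY VR RVR j hj) (RWR j hj))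
      (Rep.sumN fun j hj => RepL.ndot (RY VI RVI j hj) (RWI j hj)) ?_ e1
    rw [hdeg]
    refine lt_of_le_of_lt (le_of_eq ?_) hb
    ring
  have k2 : ∑ j ∈ Finset.range nc, ∑ x ∈ Finset.range nb, yr j x * wi j x +
      ∑ j ∈ Finset.range nc, ∑ x ∈ Finset.range nb, yi j x * wr j x = 0 := by
    have hz : Rep θ b m 0 (D + D + D) 0 0 := Rep.zero _ _
    refine Rep.eq_of_mod hf hfd hθ hm
      ((Rep.sumN fun j hj => RepL.ndot (RY VR RVR j hj) (RWI j hj)).add
        (Rep.sumN fun j hj => RepL.ndot (RY VI RVI j hj) (RWR j hj))) hz ?_ ?_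
    · rw [hdeg]
      refine lt_of_le_of_lt (le_of_eq ?_) hb
      ring
    · rw [Nat.zero_mod]
      exact e2
  -- conclusion
  have hswap : ∑ i ∈ Finset.range na, ∑ j ∈ Finset.range nc, (evL θ (entA N T j i) : ℂ) *
      ∑ x ∈ Finset.range nb, cx θ VR VI k x i * cx θ WR WI l j x =
      ∑ j ∈ Finset.range nc, ∑ x ∈ Finset.range nb,
        ((yr j x : ℂ) + (yi j x : ℂ) * Complex.I) * ((wr j x : ℂ) + (wi j x : ℂ) * Complex.I) := by
    rw [Finset.sum_comm]
    refine Finset.sum_congr rfl fun j _ => ?_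
    simp_rw [Finset.mul_sum]
    rw [Finset.sum_comm]
    refine Finset.sum_congr rfl fun x _ => ?_
    have e3 : ((yr j x : ℂ) + (yi j x : ℂ) * Complex.I) =
        ∑ i ∈ Finset.range na, (evL θ (entA N T j i) : ℂ) * cx θ VR VI k x i := by
      simp only [hyr, hyi, cx]
      push_cast
      rw [Finset.sum_mul, ← Finset.sum_add_distrib]
      exact Finset.sum_congr rfl fun i _ => by ring
    rw [e3, Finset.sum_mul]
    refine Finset.sum_congr rfl fun i _ => ?_
    simp only [cx, hwr, hwi]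
    ring
  rw [hswap]
  have hre : ∑ j ∈ Finset.range nc, ∑ x ∈ Finset.range nb,
        ((yr j x : ℂ) + (yi j x : ℂ) * Complex.I) * ((wr j x : ℂ) + (wi j x : ℂ) * Complex.I) =
      ((∑ j ∈ Finset.range nc, ∑ x ∈ Finset.range nb, yr j x * wr j x -
        ∑ j ∈ Finset.range nc, ∑ x ∈ Finset.range nb, yi j x * wi j x : ℝ) : ℂ) +
      ((∑ j ∈ Finset.range nc, ∑ x ∈ Finset.range nb, yr j x * wi j x +
        ∑ j ∈ Finset.range nc, ∑ x ∈ Finset.range nb, yi j x * wr j x : ℝ) : ℂ) * Complex.I := by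
    push_cast
    simp only [← Finset.sum_sub_distrib, ← Finset.sum_add_distrib, Finset.sum_mul]
    refine Finset.sum_congr rfl fun j _ => Finset.sum_congr rfl fun x _ => ?_
    linear_combination ((yi j x : ℂ) * (wi j x : ℂ)) * Complex.I_mul_I
  rw [hre, k1, k2]
  simp

theorem checkLay_sound {I X K : ℕ} {V V' : A3} (h : checkLay I X K V V' = true)
    {i x k : ℕ} (hi : i < I) (hx : x < X) (hk : k < K) : entA V i x k = entA V' k x i := by
  have h1 := (allN_iff _ _).1 ((allN_iff _ _).1 ((allN_iff _ _).1 h i hi) x hx) k hk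
  exact eq_of_beq h1

end

open scoped ComplexOrder MatrixOrder

/-- **Final assembly**: everything except positivity, product-freeness and non-vanishing is a
kernel check. Layouts: `VR/VI` `[i][x][k]`, `WR/WI` `[j][x][l]`, `VR'/VI'` `[k][x][i]`,
`WR'/WI'` `[l][j]`... given as `[l][x][j]` through `checkLay` and `[l][j][x]`. -/
theorem concl541_of_nf {θ : ℝ} (na nb nc r₁ r₂ nt : ℕ) (hna : na ≤ 10) (hnb : nb ≤ 10) (hnc : nc ≤ 10)
    (HR₁ HI₁ VR VI HR₂ HI₂ WR WI N VR' VI' WR' WI' : A3)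
    (hT₁ : ∀ i < na, ∀ j < na, ∀ x < nb, ∀ y < nb,
      ∑ k ∈ Finset.range r₁, ∑ l ∈ Finset.range r₁,
        cx θ HR₁ HI₁ 0 l k * cx θ VR VI i x k * star (cx θ VR VI j y l) =
      ∑ k ∈ Finset.range r₁, ∑ l ∈ Finset.range r₁,
        cx θ HR₁ HI₁ 0 l k * cx θ VR VI j x k * star (cx θ VR VI i y l))
    (hT₂ : ∀ i < nc, ∀ j < nc, ∀ x < nb, ∀ y < nb,
      ∑ k ∈ Finset.range r₂, ∑ l ∈ Finset.range r₂,
        cx θ HR₂ HI₂ 0 l k * cx θ WR WI i x k * star (cx θ WR WI j y l) =
      ∑ k ∈ Finset.range r₂, ∑ l ∈ Finset.range r₂,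
        cx θ HR₂ HI₂ 0 l k * cx θ WR WI j x k * star (cx θ WR WI i y l))
    (hLVR : checkLay na nb r₁ VR VR' = true) (hLVI : checkLay na nb r₁ VI VI' = true)
    (hLW : ∀ j < nc, ∀ x < nb, ∀ l < r₂, cx θ WR WI j x l = cx θ WR' WI' l j x)
    (hN : ∀ t < nt, ∀ k < r₁, ∀ l < r₂,
      ∑ i ∈ Finset.range na, ∑ j ∈ Finset.range nc, (evL θ (entA N t j i) : ℂ) *
        ∑ x ∈ Finset.range nb, cx θ VR' VI' k x i * cx θ WR' WI' l j x = 0)
    (hP₁ : (Matrix.of fun k l : Fin r₁ => cx θ HR₁ HI₁ 0 l k).PosDef)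
    (hP₂ : (Matrix.of fun k l : Fin r₂ => cx θ HR₂ HI₂ 0 l k).PosDef)
    (hfree : ∀ (u : Fin na → ℂ) (v : Fin nc → ℂ),
      (∀ t : Fin nt, ∑ i : Fin na, ∑ j : Fin nc, (evL θ (entA N t j i) : ℂ) * u i * v j = 0) →
        u = 0 ∨ v = 0)
    (hne : ∃ k < r₁, ∃ l < r₂, ∃ i < na, ∃ j < nc,
      ∑ x ∈ Finset.range nb, cx θ VR VI i x k * cx θ WR WI j x l ≠ 0) :
    Concl541 := by
  refine concl541_of_gramH (a := Fin na) (b := Fin nb) (c := Fin nc) (κ₁ := Fin r₁) (κ₂ := Fin r₂)
    (by simpa using hna) (by simpa using hnb) (by simpa using hnc)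
    _ hP₁ (fun k i x => cx θ VR VI i x k) _ hP₂ (fun l x j => cx θ WR WI j x l)
    ?_ ?_ (ι := Fin nt) (fun t i j => (evL θ (entA N t j i) : ℂ)) ?_ hfree ?_
  · intro i j x y
    have h := hT₁ i i.2 j j.2 x x.2 y y.2
    simp only [Finset.sum_range] at h
    simp only [Matrix.of_apply]
    exact h
  · intro x y i j
    have h := hT₂ i i.2 j j.2 x x.2 y y.2
    simp only [Finset.sum_range] at h
    simp only [Matrix.of_apply]
    exact h
  · intro t k l
    have h := hN t t.2 k k.2 l l.2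
    simp only [Finset.sum_range] at h
    rw [← h]
    refine Finset.sum_congr rfl fun i _ => Finset.sum_congr rfl fun j _ => ?_
    congr 1
    refine Finset.sum_congr rfl fun x _ => ?_
    rw [hLW j j.2 x x.2 l l.2]
    congr 1
    unfold cx
    rw [checkLay_sound hLVR i.2 x.2 k.2, checkLay_sound hLVI i.2 x.2 k.2]
  · obtain ⟨k, hk, l, hl, i, hi, j, hj, hs⟩ := hne
    refine ⟨⟨k, hk⟩, ⟨l, hl⟩, ⟨i, hi⟩, ⟨j, hj⟩, ?_⟩
    rw [Finset.sum_range] at hs
    exact hs

end Crest.Agent.R345
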