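import Crest.Agent.R345.NFCheck
import Mathlib.LinearAlgebra.Matrix.Gershgorin

/-!
# Positivity checks (row 345)
-/

set_option autoImplicit false
set_option linter.unusedSectionVars false

namespace Crest.Agent.R345

open scoped ComplexOrder MatrixOrder
open Matrix

theorem posDef_of_diagDom {n : ℕ} {M : Matrix (Fin n) (Fin n) ℂ} (hM : M.IsHermitian)
    (hd : ∀ i, ∑ j ∈ Finset.univ.erase i, ‖M i j‖ < (M i i).re) : M.PosDef := by
  rw [hM.posDef_iff_eigenvalues_pos]
  intro i
  have hev : Module.End.HasEigenvalue (Matrix.toLin' M) (hM.eigenvalues i : ℂ) := by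
    refine Module.End.hasEigenvalue_of_hasEigenvector
      (x := WithLp.ofLp (hM.eigenvectorBasis i)) ⟨?_, ?_⟩
    · rw [Module.End.mem_eigenspace_iff, Matrix.toLin'_apply]
      exact hM.mulVec_eigenvectorBasis i
    · intro h
      have h2 := hM.eigenvectorBasis.orthonormal.ne_zero i
      exact h2 ((WithLp.ofLp_eq_zero 2).1 h)
  obtain ⟨k, hk⟩ := eigenvalue_mem_ball hev
  have h1 := hd k
  rw [Metric.mem_closedBall, dist_eq_norm] at hk
  have h2 : ((M k k).re - hM.eigenvalues i) ≤ ‖(hM.eigenvalues i : ℂ) - M k k‖ := by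
    have h3 := Complex.abs_re_le_norm ((hM.eigenvalues i : ℂ) - M k k)
    rw [Complex.sub_re, Complex.ofReal_re] at h3
    have := neg_abs_le (hM.eigenvalues i - (M k k).re)
    linarith
  linarith

theorem posDef_of_congr {n : ℕ} {H P : Matrix (Fin n) (Fin n) ℂ} (hH : H.IsHermitian)
    (hd : ∀ i, ∑ j ∈ Finset.univ.erase i, ‖(P * H * Pᴴ) i j‖ < ((P * H * Pᴴ) i i).re) :
    H.PosDef := by
  have hM : (P * H * Pᴴ).IsHermitian := by
    unfold Matrix.IsHermitian
    rw [Matrix.conjTranspose_mul, Matrix.conjTranspose_mul, Matrix.conjTranspose_conjTranspose,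
      hH.eq, Matrix.mul_assoc]
  have hpd := posDef_of_diagDom hM hd
  have hu : IsUnit P := by
    have h1 := hpd.isUnit
    rw [Matrix.mul_assoc] at h1
    rw [Matrix.isUnit_iff_isUnit_det] at h1 ⊢
    rw [Matrix.det_mul] at h1
    exact isUnit_of_mul_isUnit_left h1
  exact (Matrix.IsUnit.posDef_star_right_conjugate_iff hu).1 hpd

/-! ### Horner enclosures -/

/-- Enclosure of `2^q * evL θ cs`, given an enclosure `[tl, th]` of `2^q θ`. -/
def horn (q : ℕ) (tl th : ℤ) : List ℤ → ℤ × ℤ
  | [] => (0, 0)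
  | c :: cs =>
    (c * 2 ^ q + (if 0 ≤ (horn q tl th cs).1 then tl * (horn q tl th cs).1
        else th * (horn q tl th cs).1) / 2 ^ q,
      c * 2 ^ q + ((if 0 ≤ (horn q tl th cs).2 then th * (horn q tl th cs).2
        else tl * (horn q tl th cs).2) / 2 ^ q + 1))

theorem horn_sound {q : ℕ} {tl th : ℤ} {θ : ℝ} (h0 : 0 ≤ tl) (h1 : (tl : ℝ) ≤ 2 ^ q * θ)
    (h2 : 2 ^ q * θ ≤ (th : ℝ)) (cs : List ℤ) :
    ((horn q tl th cs).1 : ℝ) ≤ 2 ^ q * evL θ cs ∧
      2 ^ q * evL θ cs ≤ ((horn q tl th cs).2 : ℝ) := by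
  induction cs with
  | nil => simp [horn, evL]
  | cons c cs ih =>
    obtain ⟨ih1, ih2⟩ := ih
    set lo := (horn q tl th cs).1 with hlo
    set hi := (horn q tl th cs).2 with hhi
    set w : ℝ := 2 ^ q * evL θ cs with hw
    set t : ℝ := 2 ^ q * θ with ht
    have hq : (0 : ℝ) < 2 ^ q := by positivity
    have h0' : (0 : ℝ) ≤ tl := by exact_mod_cast h0
    have e : 2 ^ q * evL θ (c :: cs) = c * 2 ^ q + t * w / 2 ^ q := by
      rw [evL, hw, ht]
      field_simp
    rw [e]
    constructor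
    · simp only [horn]
      rw [← hlo]
      push_cast
      have hX : ∀ X : ℤ, (X : ℝ) ≤ t * w → ((X / 2 ^ q : ℤ) : ℝ) ≤ t * w / 2 ^ q := by
        intro X hX
        rw [le_div_iff₀ hq]
        refine le_trans ?_ hX
        have := Int.ediv_mul_le X (show (2 ^ q : ℤ) ≠ 0 by positivity)
        exact_mod_cast this
      have := hX (if 0 ≤ lo then tl * lo else th * lo) (by
        split_ifs with hc
        · push_cast
          have hc' : (0 : ℝ) ≤ lo := by exact_mod_cast hc
          exact mul_le_mul h1 ih1 hc' (h0'.trans h1)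
        · push_cast
          have hc' : (lo : ℝ) ≤ 0 := by exact_mod_cast (not_le.1 hc).le
          calc (th : ℝ) * lo ≤ t * lo := mul_le_mul_of_nonpos_right h2 hc'
            _ ≤ t * w := mul_le_mul_of_nonneg_left ih1 (h0'.trans h1))
      linarith
    · simp only [horn]
      rw [← hhi]
      push_cast
      have hX : ∀ X : ℤ, t * w ≤ (X : ℝ) → t * w / 2 ^ q ≤ ((X / 2 ^ q : ℤ) : ℝ) + 1 := by
        intro X hX
        rw [div_le_iff₀ hq]
        refine le_trans hX ?_
        have := (Int.lt_ediv_add_one_mul_self X (show (0 : ℤ) < 2 ^ q by positivity)).le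
        exact_mod_cast this
      have := hX (if 0 ≤ hi then th * hi else tl * hi) (by
        split_ifs with hc
        · push_cast
          have hc' : (0 : ℝ) ≤ hi := by exact_mod_cast hc
          calc t * w ≤ t * hi := mul_le_mul_of_nonneg_left ih2 (h0'.trans h1)
            _ ≤ th * hi := mul_le_mul_of_nonneg_right h2 hc'
        · push_cast
          have hc' : (hi : ℝ) ≤ 0 := by exact_mod_cast (not_le.1 hc).le
          calc t * w ≤ t * hi := mul_le_mul_of_nonneg_left ih2 (h0'.trans h1)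
            _ ≤ tl * hi := mul_le_mul_of_nonpos_right h1 hc')
      linarith

/-! ### Integer sums -/

/-- `∑ i < n, f i` for integers. -/
def sumZ (n : ℕ) (f : ℕ → ℤ) : ℤ := Nat.rec 0 (fun k ih => ih + f k) n

theorem sumZ_eq (n : ℕ) (f : ℕ → ℤ) : sumZ n f = ∑ i ∈ Finset.range n, f i := by
  induction n with
  | zero => rfl
  | succ n ih =>
    rw [Finset.sum_range_succ, ← ih]
    rfl

/-- Entry of an integer matrix. -/
def ez (L : List (List ℤ)) (i j : ℕ) : ℤ := (L.getD i []).getD j 0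

/-- Real part of `∑ k l, P i k * H k l * conj (P j l)`. -/
def mre (r : ℕ) (A B PR PI : ℕ → ℕ → ℤ) (i j : ℕ) : ℤ :=
  sumZ r fun k => sumZ r fun l =>
    (PR i k * PR j l + PI i k * PI j l) * A k l - (PI i k * PR j l - PR i k * PI j l) * B k l

/-- Imaginary part of `∑ k l, P i k * H k l * conj (P j l)`. -/
def mim (r : ℕ) (A B PR PI : ℕ → ℕ → ℤ) (i j : ℕ) : ℤ :=
  sumZ r fun k => sumZ r fun l =>
    (PR i k * PR j l + PI i k * PI j l) * B k l + (PI i k * PR j l - PR i k * PI j l) * A k l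

/-- `l¹` norm of a row. -/
def nrow (r : ℕ) (PR PI : ℕ → ℕ → ℤ) (i : ℕ) : ℤ :=
  sumZ r fun k => (PR i k).natAbs + (PI i k).natAbs

/-- Diagonal dominance of row `i`. -/
def ddRow (r : ℕ) (E : ℤ) (A B PR PI : ℕ → ℕ → ℤ) (i : ℕ) : Bool :=
  decide ((sumZ r fun j => if j = i then 0 else
      ((mre r A B PR PI i j).natAbs : ℤ) + (mim r A B PR PI i j).natAbs) +
    2 * E * nrow r PR PI i * (sumZ r fun j => nrow r PR PI j) < mre r A B PR PI i i)

theorem posDef_of_ddRow {r : ℕ} {s : ℝ} (hs : 0 < s) {E : ℤ} (hE : 0 ≤ E)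
    (hr hi : ℕ → ℕ → ℝ) (A B PR PI : ℕ → ℕ → ℤ)
    (hA : ∀ k < r, ∀ l < r, |s * hr k l - A k l| ≤ E)
    (hB : ∀ k < r, ∀ l < r, |s * hi k l - B k l| ≤ E)
    (hsym : ∀ k < r, ∀ l < r, hr k l = hr l k) (hant : ∀ k < r, ∀ l < r, hi k l = -hi l k)
    (hdd : ∀ i < r, ddRow r E A B PR PI i = true) :
    (Matrix.of fun k l : Fin r => (hr k l : ℂ) + (hi k l : ℂ) * Complex.I).PosDef := by
  set H : Matrix (Fin r) (Fin r) ℂ :=
    Matrix.of fun k l : Fin r => (hr k l : ℂ) + (hi k l : ℂ) * Complex.I with hH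
  set P : Matrix (Fin r) (Fin r) ℂ :=
    Matrix.of fun i k : Fin r => (PR i k : ℂ) + (PI i k : ℂ) * Complex.I with hP
  have hHerm : H.IsHermitian := by
    ext k l
    rw [Matrix.conjTranspose_apply, hH, Matrix.of_apply, Matrix.of_apply,
      hsym k k.2 l l.2, hant k k.2 l l.2]
    simp
  refine posDef_of_congr (P := P) hHerm ?_
  have hent : ∀ i j, (P * H * Pᴴ) i j = ∑ k : Fin r, ∑ l : Fin r,
      P i k * star (P j l) * H k l := by
    intro i j
    rw [Matrix.mul_apply]
    simp_rw [Matrix.mul_apply, Finset.sum_mul, Matrix.conjTranspose_apply]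
    rw [Finset.sum_comm]
    exact Finset.sum_congr rfl fun k _ => Finset.sum_congr rfl fun l _ => by ring
  -- approximations
  have hMn : ∀ i j : Fin r, ((mre r A B PR PI i j : ℝ) : ℂ) +
      ((mim r A B PR PI i j : ℝ) : ℂ) * Complex.I =
      ∑ k : Fin r, ∑ l : Fin r, P i k * star (P j l) *
        ((A k l : ℂ) + (B k l : ℂ) * Complex.I) := by
    intro i j
    unfold mre mim
    simp only [sumZ_eq]
    push_cast
    simp only [Finset.sum_range, Finset.sum_mul, ← Finset.sum_add_distrib]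
    refine Finset.sum_congr rfl fun k _ => Finset.sum_congr rfl fun l _ => ?_
    simp only [hP, Matrix.of_apply, star_add, star_mul', star_intCast]
    rw [RCLike.star_def, Complex.conj_I]
    linear_combination ((PR i k : ℂ) * (PI j l) * (B k l) - (PI i k : ℂ) * (PR j l) * (B k l)
      + (PI i k : ℂ) * (PI j l) * (A k l)
      + (PI i k : ℂ) * (PI j l) * (B k l) * Complex.I) * Complex.I_mul_I
  have hN : ∀ i : Fin r, ∑ k : Fin r, ‖P i k‖ ≤ (nrow r PR PI i : ℝ) := by
    intro i
    unfold nrow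
    rw [sumZ_eq, Finset.sum_range]
    push_cast
    refine Finset.sum_le_sum fun k _ => ?_
    rw [hP, Matrix.of_apply]
    refine (norm_add_le _ _).trans (le_of_eq ?_)
    rw [norm_mul, Complex.norm_I, mul_one, Complex.norm_intCast, Complex.norm_intCast]
  have hdiff : ∀ i j : Fin r, ‖(s : ℂ) * (P * H * Pᴴ) i j -
      (((mre r A B PR PI i j : ℝ) : ℂ) + ((mim r A B PR PI i j : ℝ) : ℂ) * Complex.I)‖ ≤
      2 * E * nrow r PR PI i * nrow r PR PI j := by
    intro i j
    rw [hMn, hent, Finset.mul_sum, ← Finset.sum_sub_distrib]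
    simp_rw [Finset.mul_sum, ← Finset.sum_sub_distrib]
    calc ‖∑ k : Fin r, ∑ l : Fin r, ((s : ℂ) * (P i k * star (P j l) * H k l) -
          P i k * star (P j l) * ((A k l : ℂ) + (B k l : ℂ) * Complex.I))‖
        ≤ ∑ k : Fin r, ∑ l : Fin r, ‖P i k‖ * ‖P j l‖ * (2 * E) := by
          refine (norm_sum_le _ _).trans (Finset.sum_le_sum fun k _ => ?_)
          refine (norm_sum_le _ _).trans (Finset.sum_le_sum fun l _ => ?_)
          have e : (s : ℂ) * (P i k * star (P j l) * H k l) -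
              P i k * star (P j l) * ((A k l : ℂ) + (B k l : ℂ) * Complex.I) =
              P i k * star (P j l) * (((s * hr k l - A k l : ℝ) : ℂ) +
                ((s * hi k l - B k l : ℝ) : ℂ) * Complex.I) := by
            rw [hH, Matrix.of_apply]
            push_cast
            ring
          rw [e, norm_mul, norm_mul, norm_star]
          refine mul_le_mul_of_nonneg_left ?_ (by positivity)
          refine (norm_add_le _ _).trans ?_
          rw [norm_mul, Complex.norm_I, mul_one, Complex.norm_real, Complex.norm_real,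
            Real.norm_eq_abs, Real.norm_eq_abs]
          have := hA k k.2 l l.2
          have := hB k k.2 l l.2
          linarith
      _ = 2 * E * (∑ k : Fin r, ‖P i k‖) * (∑ l : Fin r, ‖P j l‖) := by
          simp_rw [← Finset.sum_mul, ← Finset.mul_sum]
          rw [← Finset.sum_mul]
          ring
      _ ≤ 2 * E * nrow r PR PI i * nrow r PR PI j := by
          have hE' : (0 : ℝ) ≤ E := by exact_mod_cast hE
          have h1 := hN i
          have h2 := hN j
          have h3 : 0 ≤ ∑ k : Fin r, ‖P i k‖ := Finset.sum_nonneg fun _ _ => norm_nonneg _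
          have h4 : 0 ≤ ∑ k : Fin r, ‖P j k‖ := Finset.sum_nonneg fun _ _ => norm_nonneg _
          exact mul_le_mul (mul_le_mul_of_nonneg_left h1 (by positivity)) h2 h4
            (mul_nonneg (by positivity) (h3.trans h1))
  intro i
  have h := of_decide_eq_true (hdd i i.2)
  have h' : ((sumZ r fun j => if j = i.1 then 0 else
      ((mre r A B PR PI i j).natAbs : ℤ) + (mim r A B PR PI i j).natAbs : ℤ) : ℝ) +
      2 * E * nrow r PR PI i * (sumZ r fun j => nrow r PR PI j : ℤ) <
      (mre r A B PR PI i i : ℝ) := by exact_mod_cast h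
  rw [sumZ_eq, sumZ_eq, Finset.sum_range, Finset.sum_range] at h'
  push_cast at h'
  have h3 : ∑ j ∈ Finset.univ.erase i, (|(mre r A B PR PI i j : ℝ)| +
      |(mim r A B PR PI i j : ℝ)|) =
      ∑ x : Fin r, if (x : ℕ) = i then (0 : ℝ) else
        |(mre r A B PR PI i x : ℝ)| + |(mim r A B PR PI i x : ℝ)| := by
    rw [← Finset.add_sum_erase _ _ (Finset.mem_univ i), if_pos rfl, zero_add]
    refine Finset.sum_congr rfl fun j hj => ?_
    rw [if_neg]
    intro hji
    exact (Finset.mem_erase.1 hj).1 (Fin.ext hji)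
  have h4 : ∑ j ∈ Finset.univ.erase i, (nrow r PR PI j : ℝ) + nrow r PR PI i =
      ∑ x : Fin r, (nrow r PR PI x : ℝ) := by
    rw [← Finset.add_sum_erase _ _ (Finset.mem_univ i), add_comm]
  have h5 : s * ∑ j ∈ Finset.univ.erase i, ‖(P * H * Pᴴ) i j‖ ≤
      ∑ j ∈ Finset.univ.erase i, (|(mre r A B PR PI i j : ℝ)| + |(mim r A B PR PI i j : ℝ)|) +
        2 * E * nrow r PR PI i * ∑ j ∈ Finset.univ.erase i, (nrow r PR PI j : ℝ) := by
    rw [Finset.mul_sum, Finset.mul_sum, ← Finset.sum_add_distrib]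
    refine Finset.sum_le_sum fun j _ => ?_
    have h6 := hdiff i j
    have h7 : ‖(s : ℂ) * (P * H * Pᴴ) i j‖ = s * ‖(P * H * Pᴴ) i j‖ := by
      rw [norm_mul, Complex.norm_real, Real.norm_eq_abs, abs_of_pos hs]
    rw [← h7]
    have h8 := norm_le_norm_add_norm_sub' ((s : ℂ) * (P * H * Pᴴ) i j)
      (((mre r A B PR PI i j : ℝ) : ℂ) + ((mim r A B PR PI i j : ℝ) : ℂ) * Complex.I)
    have h9 : ‖((mre r A B PR PI i j : ℝ) : ℂ) + ((mim r A B PR PI i j : ℝ) : ℂ) * Complex.I‖ ≤
        |(mre r A B PR PI i j : ℝ)| + |(mim r A B PR PI i j : ℝ)| := by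
      refine (norm_add_le _ _).trans (le_of_eq ?_)
      rw [norm_mul, Complex.norm_I, mul_one, Complex.norm_real, Complex.norm_real,
        Real.norm_eq_abs, Real.norm_eq_abs]
    linarith
  have h10 : (mre r A B PR PI i i : ℝ) - 2 * E * nrow r PR PI i * nrow r PR PI i ≤
      s * ((P * H * Pᴴ) i i).re := by
    have h6 := (Complex.abs_re_le_norm _).trans (hdiff i i)
    have h7 : ((s : ℂ) * (P * H * Pᴴ) i i -
      (((mre r A B PR PI i i : ℝ) : ℂ) + ((mim r A B PR PI i i : ℝ) : ℂ) * Complex.I)).re =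
      s * ((P * H * Pᴴ) i i).re - mre r A B PR PI i i := by
      rw [Complex.sub_re, Complex.re_ofReal_mul, Complex.add_re, Complex.ofReal_re,
        Complex.re_ofReal_mul, Complex.I_re, mul_zero, add_zero]
    rw [h7] at h6
    have := neg_abs_le (s * ((P * H * Pᴴ) i i).re - mre r A B PR PI i i)
    linarith
  rw [h3] at h5
  rw [← h4] at h'
  have h11 : s * ∑ j ∈ Finset.univ.erase i, ‖(P * H * Pᴴ) i j‖ < s * ((P * H * Pᴴ) i i).re := by
    refine lt_of_le_of_lt h5 (lt_of_lt_of_le ?_ h10)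
    linarith [mul_add (2 * (E : ℝ) * nrow r PR PI i)
      (∑ j ∈ Finset.univ.erase i, (nrow r PR PI j : ℝ)) (nrow r PR PI i)]
  exact lt_of_mul_lt_mul_left h11 hs.le

/-- `2^q * evL θ cs` is within `E` of `A`. -/
def nearL (q : ℕ) (tl th E A : ℤ) (cs : List ℤ) : Bool :=
  decide (A - E ≤ (horn q tl th cs).1) && decide ((horn q tl th cs).2 ≤ A + E)

theorem nearL_sound {q : ℕ} {tl th E A : ℤ} {θ : ℝ} (h0 : 0 ≤ tl) (h1 : (tl : ℝ) ≤ 2 ^ q * θ)
    (h2 : 2 ^ q * θ ≤ (th : ℝ)) {cs : List ℤ} (h : nearL q tl th E A cs = true) :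
    |2 ^ q * evL θ cs - A| ≤ E := by
  rw [nearL, Bool.and_eq_true] at h
  have a1 : ((A - E : ℤ) : ℝ) ≤ ((horn q tl th cs).1 : ℝ) := by
    exact_mod_cast of_decide_eq_true h.1
  have a2 : ((horn q tl th cs).2 : ℝ) ≤ ((A + E : ℤ) : ℝ) := by
    exact_mod_cast of_decide_eq_true h.2
  push_cast at a1 a2
  have h3 := horn_sound h0 h1 h2 cs
  rw [abs_le]
  constructor <;> linarith [h3.1, h3.2]

/-- Dot product of lists of integers. -/
def zdot (xs : List ℤ) : List ℤ → ℤ :=
  @List.rec ℤ (fun _ => List ℤ → ℤ) (fun _ => 0)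
    (fun x _ ih ys => Int.add (Int.mul x (@List.rec ℤ (fun _ => ℤ) 0 (fun y _ _ => y) ys))
      (ih (@List.rec ℤ (fun _ => List ℤ) [] (fun _ ys' _ => ys') ys))) xs

theorem zdot_eq (n : ℕ) (xs ys : List ℤ) (hx : xs.length ≤ n) :
    zdot xs ys = ∑ i ∈ Finset.range n, xs.getD i 0 * ys.getD i 0 := by
  induction xs generalizing n ys with
  | nil => simp [zdot]
  | cons x xs ih =>
    cases n with
    | zero => simp at hx
    | succ n =>
      rw [Finset.sum_range_succ']
      cases ys with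
      | nil =>
        have : zdot (x :: xs) [] = x * 0 + zdot xs [] := rfl
        rw [this, ih n [] (by simpa using hx)]
        simp
      | cons y ys =>
        have : zdot (x :: xs) (y :: ys) = x * y + zdot xs ys := rfl
        rw [this, ih n ys (by simpa using hx), add_comm]
        simp

/-- Row of an integer matrix. -/
def rz (L : List (List ℤ)) (i : ℕ) : List ℤ := L.getD i []

/-- Check of `U j k = ∑ l, H k l * conj (P j l)`. -/
def uCheck (r : ℕ) (AR AI PR PI UR UI : List (List ℤ)) : Bool :=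
  allN r fun j => Nat.ble (rz PR j).length r && Nat.ble (rz PI j).length r && allN r fun k =>
    decide (zdot (rz PR j) (rz AR k) + zdot (rz PI j) (rz AI k) = ez UR j k) &&
    decide (zdot (rz PR j) (rz AI k) - zdot (rz PI j) (rz AR k) = ez UI j k)

/-- Real part of an entry, in two steps. -/
def mre' (PR PI UR UI : List (List ℤ)) (i j : ℕ) : ℤ :=
  zdot (rz PR i) (rz UR j) - zdot (rz PI i) (rz UI j)

/-- Imaginary part of an entry, in two steps. -/
def mim' (PR PI UR UI : List (List ℤ)) (i j : ℕ) : ℤ :=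
  zdot (rz PR i) (rz UI j) + zdot (rz PI i) (rz UR j)

theorem mre'_eq {r : ℕ} {AR AI PR PI UR UI : List (List ℤ)}
    (h : uCheck r AR AI PR PI UR UI = true) {i j : ℕ} (hi : i < r) (hj : j < r) :
    mre' PR PI UR UI i j = mre r (ez AR) (ez AI) (ez PR) (ez PI) i j ∧
      mim' PR PI UR UI i j = mim r (ez AR) (ez AI) (ez PR) (ez PI) i j := by
  have hh := (allN_iff _ _).1 h
  have hlen : ∀ i < r, (rz PR i).length ≤ r ∧ (rz PI i).length ≤ r := by
    intro i hi
    have h1 := hh i hi
    simp only [Bool.and_eq_true] at h1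
    exact ⟨Nat.le_of_ble_eq_true h1.1.1, Nat.le_of_ble_eq_true h1.1.2⟩
  have hU : ∀ k < r, ez UR j k = (∑ l ∈ Finset.range r, ez PR j l * ez AR k l) +
        (∑ l ∈ Finset.range r, ez PI j l * ez AI k l) ∧
      ez UI j k = (∑ l ∈ Finset.range r, ez PR j l * ez AI k l) -
        (∑ l ∈ Finset.range r, ez PI j l * ez AR k l) := by
    intro k hk
    have h1 := hh j hj
    simp only [Bool.and_eq_true] at h1
    have h2 := (allN_iff _ _).1 h1.2 k hk
    simp only [Bool.and_eq_true, decide_eq_true_eq] at h2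
    obtain ⟨h3, h4⟩ := h2
    rw [zdot_eq r _ _ (hlen j hj).1, zdot_eq r _ _ (hlen j hj).2] at h3 h4
    exact ⟨h3.symm, h4.symm⟩
  constructor
  · unfold mre' mre
    rw [zdot_eq r _ _ (hlen i hi).1, zdot_eq r _ _ (hlen i hi).2]
    simp only [sumZ_eq]
    rw [← Finset.sum_sub_distrib]
    refine Finset.sum_congr rfl fun k hk => ?_
    have hk' := Finset.mem_range.1 hk
    change ez PR i k * ez UR j k - ez PI i k * ez UI j k = _
    rw [(hU k hk').1, (hU k hk').2, mul_add, mul_sub, Finset.mul_sum, Finset.mul_sum,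
      Finset.mul_sum, Finset.mul_sum, ← Finset.sum_add_distrib, ← Finset.sum_sub_distrib,
      ← Finset.sum_sub_distrib]
    exact Finset.sum_congr rfl fun l _ => by ring
  · unfold mim' mim
    rw [zdot_eq r _ _ (hlen i hi).1, zdot_eq r _ _ (hlen i hi).2]
    simp only [sumZ_eq]
    rw [← Finset.sum_add_distrib]
    refine Finset.sum_congr rfl fun k hk => ?_
    have hk' := Finset.mem_range.1 hk
    change ez PR i k * ez UI j k + ez PI i k * ez UR j k = _
    rw [(hU k hk').1, (hU k hk').2, mul_add, mul_sub, Finset.mul_sum, Finset.mul_sum,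
      Finset.mul_sum, Finset.mul_sum, ← Finset.sum_add_distrib, ← Finset.sum_sub_distrib,
      ← Finset.sum_add_distrib]
    exact Finset.sum_congr rfl fun l _ => by ring

/-- Diagonal dominance of row `i`, in two steps. -/
def ddRow' (r : ℕ) (E : ℤ) (PR PI UR UI : List (List ℤ)) (i : ℕ) : Bool :=
  decide ((sumZ r fun j => if j = i then 0 else
      ((mre' PR PI UR UI i j).natAbs : ℤ) + (mim' PR PI UR UI i j).natAbs) +
    2 * E * nrow r (ez PR) (ez PI) i * (sumZ r fun j => nrow r (ez PR) (ez PI) j) <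
      mre' PR PI UR UI i i)

theorem ddRow'_iff {r : ℕ} {E : ℤ} {AR AI PR PI UR UI : List (List ℤ)}
    (h : uCheck r AR AI PR PI UR UI = true) {i : ℕ} (hi : i < r)
    (hd : ddRow' r E PR PI UR UI i = true) :
    ddRow r E (ez AR) (ez AI) (ez PR) (ez PI) i = true := by
  unfold ddRow
  unfold ddRow' at hd
  rw [decide_eq_true_eq] at hd ⊢
  rw [(mre'_eq h hi hi).1] at hd
  refine lt_of_eq_of_lt ?_ hd
  congr 1
  rw [sumZ_eq, sumZ_eq]
  refine Finset.sum_congr rfl fun j hj => ?_
  rw [(mre'_eq h hi (Finset.mem_range.1 hj)).1, (mre'_eq h hi (Finset.mem_range.1 hj)).2]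

/-- Comparison of the data with the scaled approximations. -/
def nearCheck (q : ℕ) (tl th E : ℤ) (r : ℕ) (HR HI : A3) (AR AI : List (List ℤ)) : Bool :=
  allN r fun k => allN r fun l =>
    nearL q tl th E (ez AR k l) (entA HR 0 l k) && nearL q tl th E (ez AI k l) (entA HI 0 l k) &&
      (entA HR 0 l k == entA HR 0 k l) && (entA HI 0 l k == (entA HI 0 k l).map Int.neg)

/-- Positivity check for the Hermitian matrix with entries `HR [0][l][k] + i HI [0][l][k]`;
`AR`, `AI` are approximations scaled by `2^q`, `PR`, `PI` is a preconditioner. -/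
def posCheck (r : ℕ) (E : ℤ) (PR PI UR UI : List (List ℤ)) : Bool :=
  allN r fun i => ddRow' r E PR PI UR UI i

theorem posCheck_sound {q : ℕ} {tl th E : ℤ} {θ : ℝ} (h0 : 0 ≤ tl) (h1 : (tl : ℝ) ≤ 2 ^ q * θ)
    (h2 : 2 ^ q * θ ≤ (th : ℝ)) (hE : 0 ≤ E) {r : ℕ} {HR HI : A3}
    {AR AI PR PI UR UI : List (List ℤ)}
    (ha : nearCheck q tl th E r HR HI AR AI = true)
    (hu : uCheck r AR AI PR PI UR UI = true)
    (hb : posCheck r E PR PI UR UI = true) :
    (Matrix.of fun k l : Fin r => cx θ HR HI 0 l k).PosDef := by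
  have hk : ∀ k < r, ∀ l < r, _ := fun k hk l hl =>
    (allN_iff _ _).1 ((allN_iff _ _).1 ha k hk) l hl
  simp only [Bool.and_eq_true] at hk
  refine posDef_of_ddRow (s := 2 ^ q) (by positivity) hE (fun k l => evL θ (entA HR 0 l k))
    (fun k l => evL θ (entA HI 0 l k)) (ez AR) (ez AI) (ez PR) (ez PI) ?_ ?_ ?_ ?_
    fun i hi => ddRow'_iff hu hi ((allN_iff _ _).1 hb i hi)
  · exact fun k h l h' => nearL_sound h0 h1 h2 (hk k h l h').1.1.1
  · exact fun k h l h' => nearL_sound h0 h1 h2 (hk k h l h').1.1.2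
  · intro k h l h'
    rw [eq_of_beq (hk k h l h').1.2]
  · intro k h l h'
    rw [eq_of_beq (hk k h l h').2, evL_neg]

/-! ### Non-vanishing -/

/-- Sum of coefficient lists. -/
def addL : List ℤ → List ℤ → List ℤ
  | x :: xs, y :: ys => (x + y) :: addL xs ys
  | xs, [] => xs
  | [], ys => ys

/-- Scalar multiple of a coefficient list. -/
def smulL (a : ℤ) (xs : List ℤ) : List ℤ := xs.map fun x => a * x

/-- Product of coefficient lists. -/
def mulL : List ℤ → List ℤ → List ℤ
  | x :: xs, ys => addL (smulL x ys) (0 :: mulL xs ys)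
  | [], _ => []

theorem evL_addL (θ : ℝ) (xs ys : List ℤ) : evL θ (addL xs ys) = evL θ xs + evL θ ys := by
  induction xs generalizing ys with
  | nil => cases ys <;> simp [addL, evL]
  | cons x xs ih =>
    cases ys with
    | nil => simp [addL, evL]
    | cons y ys =>
      simp only [addL, evL, ih]
      push_cast
      ring

theorem evL_smulL (θ : ℝ) (a : ℤ) (xs : List ℤ) : evL θ (smulL a xs) = a * evL θ xs := by
  induction xs with
  | nil => simp [smulL, evL]
  | cons x xs ih =>
    have : smulL a (x :: xs) = (a * x) :: smulL a xs := rfl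
    rw [this]
    simp only [evL, ih]
    push_cast
    ring

theorem evL_mulL (θ : ℝ) (xs ys : List ℤ) : evL θ (mulL xs ys) = evL θ xs * evL θ ys := by
  induction xs with
  | nil => simp [mulL, evL]
  | cons x xs ih =>
    simp only [mulL, evL_addL, evL_smulL, evL, ih]
    push_cast
    ring

/-- Sum of coefficient lists over a range. -/
def sumLs (n : ℕ) (f : ℕ → List ℤ) : List ℤ := Nat.rec [] (fun k ih => addL ih (f k)) n

theorem evL_sumLs (θ : ℝ) (n : ℕ) (f : ℕ → List ℤ) :
    evL θ (sumLs n f) = ∑ i ∈ Finset.range n, evL θ (f i) := by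
  induction n with
  | zero => rfl
  | succ n ih =>
    rw [Finset.sum_range_succ, ← ih, ← evL_addL]
    rfl

/-- Non-vanishing of the real part of one entry of a product. -/
def neCheck (q : ℕ) (tl th : ℤ) (nb : ℕ) (VR VI WR WI : A3) (i k j l : ℕ) : Bool :=
  let z := horn q tl th (sumLs nb fun x => addL (mulL (entA VR i x k) (entA WR j x l))
    ((mulL (entA VI i x k) (entA WI j x l)).map Int.neg))
  decide (0 < z.1) || decide (z.2 < 0)

theorem neCheck_sound {q : ℕ} {tl th : ℤ} {θ : ℝ} (h0 : 0 ≤ tl) (h1 : (tl : ℝ) ≤ 2 ^ q * θ)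
    (h2 : 2 ^ q * θ ≤ (th : ℝ)) {nb : ℕ} {VR VI WR WI : A3} {i k j l : ℕ}
    (h : neCheck q tl th nb VR VI WR WI i k j l = true) :
    ∑ x ∈ Finset.range nb, cx θ VR VI i x k * cx θ WR WI j x l ≠ 0 := by
  intro hz
  have hre := congrArg Complex.re hz
  rw [Complex.re_sum, Complex.zero_re] at hre
  have e : ∑ x ∈ Finset.range nb, (cx θ VR VI i x k * cx θ WR WI j x l).re =
      evL θ (sumLs nb fun x => addL (mulL (entA VR i x k) (entA WR j x l))
        ((mulL (entA VI i x k) (entA WI j x l)).map Int.neg)) := by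
    rw [evL_sumLs]
    refine Finset.sum_congr rfl fun x _ => ?_
    rw [evL_addL, evL_neg, evL_mulL, evL_mulL]
    simp [cx]
    ring
  rw [e] at hre
  have h3 := horn_sound h0 h1 h2 (sumLs nb fun x => addL (mulL (entA VR i x k) (entA WR j x l))
    ((mulL (entA VI i x k) (entA WI j x l)).map Int.neg))
  rw [hre, mul_zero] at h3
  simp only [neCheck, Bool.or_eq_true, decide_eq_true_eq] at h
  rcases h with h | h
  · exact absurd h (not_lt.2 (by exact_mod_cast h3.1))
  · exact absurd h (not_lt.2 (by exact_mod_cast h3.2))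

end Crest.Agent.R345
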